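import Vale.Agent.Lib.P062.Core

namespace Vale.Agent.Lib.P062.CB
open Vale.Agent.Lib.P062.Core
set_option maxRecDepth 100000
set_option linter.all false

noncomputable def D134 : OP := win (nat_lit 5) (nat_lit 8) (nat_lit 8) (nat_lit 3)
noncomputable def D95 : OP := win (nat_lit 4) (nat_lit 7) (nat_lit 8) (nat_lit 0)
noncomputable def D136 : OP := orK (nat_lit 188) (fin (add (start D95) D134))
noncomputable def D46 : OP := win (nat_lit 5) (nat_lit 9) (nat_lit 8) (nat_lit 0)
noncomputable def D140 : OP := orK (nat_lit 189) (fin (add (start D46) D136))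
noncomputable def D125 : OP := win (nat_lit 4) (nat_lit 9) (nat_lit 7) (nat_lit 5)
noncomputable def D124 : OP := win (nat_lit 4) (nat_lit 8) (nat_lit 7) (nat_lit 4)
noncomputable def D127 : OP := orK (nat_lit 152) (fin (add (start D124) D125))
noncomputable def D60 : OP := win (nat_lit 0) (nat_lit 8) (nat_lit 8) (nat_lit 4)
noncomputable def D59 : OP := win (nat_lit 0) (nat_lit 9) (nat_lit 8) (nat_lit 5)
noncomputable def D131 : OP := orK (nat_lit 192) (fin (add (start D59) (orK (nat_lit 168) (fin (add (start D60) D127)))))
noncomputable def D121 : OP := win (nat_lit 6) (nat_lit 9) (nat_lit 6) (nat_lit 0)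
noncomputable def D120 : OP := win (nat_lit 2) (nat_lit 8) (nat_lit 7) (nat_lit 5)
noncomputable def D96 : OP := win (nat_lit 4) (nat_lit 8) (nat_lit 8) (nat_lit 3)
noncomputable def D98 : OP := orK (nat_lit 188) (fin (add (start D95) D96))
noncomputable def D103 : OP := win (nat_lit 5) (nat_lit 10) (nat_lit 8) (nat_lit 4)
noncomputable def D113 : OP := win (nat_lit 4) (nat_lit 11) (nat_lit 7) (nat_lit 5)
noncomputable def D112 : OP := win (nat_lit 4) (nat_lit 10) (nat_lit 7) (nat_lit 4)
noncomputable def D117 : OP := orK (nat_lit 154) (fin (add (start D112) (orK (nat_lit 174) (fin (add (start D113) D103)))))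
noncomputable def D52 : OP := win (nat_lit 4) (nat_lit 10) (nat_lit 7) (nat_lit 5)
noncomputable def D51 : OP := win (nat_lit 4) (nat_lit 9) (nat_lit 7) (nat_lit 4)
noncomputable def D54 : OP := orK (nat_lit 153) (fin (add (start D51) D52))
noncomputable def D49 : OP := win (nat_lit 0) (nat_lit 9) (nat_lit 8) (nat_lit 4)
noncomputable def D50 : OP := win (nat_lit 0) (nat_lit 10) (nat_lit 8) (nat_lit 5)
noncomputable def D102 : OP := win (nat_lit 0) (nat_lit 11) (nat_lit 8) (nat_lit 5)
noncomputable def D101 : OP := win (nat_lit 0) (nat_lit 10) (nat_lit 8) (nat_lit 4)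
noncomputable def D119 : OP := orK (nat_lit 173) (fin (add (add (start (orK (nat_lit 194) (fin (add (start D101) (orK (nat_lit 174) (fin (add (start D102) D103))))))) (orK (nat_lit 193) (fin (add (start D50) (orK (nat_lit 169) (fin (add (start D49) D54))))))) D117))
noncomputable def D100 : OP := orK (nat_lit 189) (fin (add (start D46) D98))
noncomputable def D142 : OP := orK (nat_lit 172) (fin (add (add (add (start D100) D119) (orK (nat_lit 189) (fin (add (add (start D98) (orK (nat_lit 169) (fin (add (start (orK (nat_lit 149) (fin (add (start D120) D121)))) D131)))) D136)))) D140))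
noncomputable def D31 : OP := win (nat_lit 1) (nat_lit 10) (nat_lit 5) (nat_lit 0)
noncomputable def D340 : OP := orK (nat_lit 131) (fin (add (start D31) (win (nat_lit 3) (nat_lit 10) (nat_lit 6) (nat_lit 3))))
noncomputable def D30 : OP := win (nat_lit 3) (nat_lit 10) (nat_lit 7) (nat_lit 0)
noncomputable def D342 : OP := orK (nat_lit 151) (fin (add (start D30) D340))
noncomputable def D272 : OP := win (nat_lit 7) (nat_lit 9) (nat_lit 6) (nat_lit 3)
noncomputable def D273 : OP := win (nat_lit 6) (nat_lit 9) (nat_lit 5) (nat_lit 0)
noncomputable def D319 : OP := orK (nat_lit 129) (fin (add (start D273) D272))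
noncomputable def D289 : OP := win (nat_lit 7) (nat_lit 9) (nat_lit 7) (nat_lit 0)
noncomputable def D321 : OP := orK (nat_lit 149) (fin (add (start D289) D319))
noncomputable def D62 : OP := win (nat_lit 5) (nat_lit 8) (nat_lit 8) (nat_lit 4)
noncomputable def D61 : OP := win (nat_lit 5) (nat_lit 7) (nat_lit 8) (nat_lit 5)
noncomputable def D64 : OP := orK (nat_lit 188) (fin (add (start D61) D62))
noncomputable def D68 : OP := orK (nat_lit 192) (fin (add (start D59) (orK (nat_lit 168) (fin (add (start D60) D64)))))
noncomputable def D58 : OP := orK (nat_lit 193) (fin (add (start D49) (orK (nat_lit 173) (fin (add (start D50) D54)))))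
noncomputable def D45 : OP := win (nat_lit 5) (nat_lit 8) (nat_lit 8) (nat_lit 5)
noncomputable def D48 : OP := orK (nat_lit 189) (fin (add (start D45) D46))
noncomputable def D70 : OP := orK (nat_lit 172) (fin (add (add (start D48) D58) D68))
noncomputable def D574 : OP := orK (nat_lit 171) (fin (add (add (start (orK (nat_lit 169) (fin (add (start D70) D321)))) D342) D142))
noncomputable def D161 : OP := win (nat_lit 7) (nat_lit 9) (nat_lit 6) (nat_lit 4)
noncomputable def D160 : OP := win (nat_lit 7) (nat_lit 9) (nat_lit 5) (nat_lit 5)
noncomputable def D163 : OP := orK (nat_lit 129) (fin (add (start D160) D161))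
noncomputable def D20 : OP := win (nat_lit 6) (nat_lit 10) (nat_lit 6) (nat_lit 4)
noncomputable def D21 : OP := win (nat_lit 6) (nat_lit 10) (nat_lit 7) (nat_lit 5)
noncomputable def D513 : OP := orK (nat_lit 211) (fin (add (start D21) (orK (nat_lit 130) (fin (add (start D20) D163)))))
noncomputable def D10 : OP := win (nat_lit 3) (nat_lit 10) (nat_lit 6) (nat_lit 5)
noncomputable def D4976 : OP := orK (nat_lit 150) (fin (add (start D10) D513))
noncomputable def D34 : OP := orK (nat_lit 131) (fin (add (start D31) (win (nat_lit 1) (nat_lit 10) (nat_lit 6) (nat_lit 3))))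
noncomputable def D35 : AP := fin (add (start D30) D34)
noncomputable def D4974 : OP := orK (nat_lit 171) D35
noncomputable def D153 : OP := win (nat_lit 7) (nat_lit 9) (nat_lit 7) (nat_lit 4)
noncomputable def D152 : OP := win (nat_lit 7) (nat_lit 9) (nat_lit 6) (nat_lit 5)
noncomputable def D155 : OP := orK (nat_lit 149) (fin (add (start D152) D153))
noncomputable def D0 : OP := win (nat_lit 1) (nat_lit 9) (nat_lit 7) (nat_lit 5)
noncomputable def D12 : OP := win (nat_lit 6) (nat_lit 10) (nat_lit 7) (nat_lit 4)
noncomputable def D13 : OP := win (nat_lit 6) (nat_lit 10) (nat_lit 8) (nat_lit 5)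
noncomputable def D11 : OP := win (nat_lit 3) (nat_lit 10) (nat_lit 7) (nat_lit 4)
noncomputable def D1 : OP := win (nat_lit 1) (nat_lit 9) (nat_lit 6) (nat_lit 4)
noncomputable def D165 : OP := orK (nat_lit 130) (fin (add (start D1) D163))
noncomputable def D509 : OP := orK (nat_lit 209) (fin (add (start D0) D165))
noncomputable def D74 : OP := win (nat_lit 6) (nat_lit 10) (nat_lit 9) (nat_lit 5)
noncomputable def D73 : OP := win (nat_lit 6) (nat_lit 10) (nat_lit 8) (nat_lit 4)
noncomputable def D76 : OP := orK (nat_lit 251) (fin (add (start D73) D74))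
noncomputable def D39 : OP := win (nat_lit 3) (nat_lit 10) (nat_lit 8) (nat_lit 4)
noncomputable def D298 : OP := orK (nat_lit 250) (fin (add (start D39) D76))
noncomputable def D83 : OP := win (nat_lit 3) (nat_lit 10) (nat_lit 7) (nat_lit 5)
noncomputable def D299 : AP := fin (add (start D83) D298)
noncomputable def D300 : OP := orK (nat_lit 171) D299
noncomputable def D2384 : OP := orK (nat_lit 188) (fin (add (start D95) (orK (nat_lit 172) (fin (add (start D134) D46)))))
noncomputable def D363 : OP := win (nat_lit 5) (nat_lit 9) (nat_lit 7) (nat_lit 0)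
noncomputable def D1506 : OP := win (nat_lit 4) (nat_lit 8) (nat_lit 7) (nat_lit 0)
noncomputable def D1508 : OP := orK (nat_lit 169) (fin (add (start D1506) D363))
noncomputable def D2837 : OP := win (nat_lit 3) (nat_lit 11) (nat_lit 6) (nat_lit 5)
noncomputable def D2839 : OP := orK (nat_lit 152) (fin (add (start D2837) D1508))
noncomputable def D175 : OP := win (nat_lit 5) (nat_lit 9) (nat_lit 9) (nat_lit 0)
noncomputable def D7283 : OP := win (nat_lit 4) (nat_lit 8) (nat_lit 9) (nat_lit 0)
noncomputable def D11549 : OP := orK (nat_lit 192) (fin (add (start D7283) D175))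
noncomputable def D541 : OP := win (nat_lit 6) (nat_lit 10) (nat_lit 4) (nat_lit 0)
noncomputable def D2248 : OP := win (nat_lit 1) (nat_lit 9) (nat_lit 5) (nat_lit 4)
noncomputable def D11547 : OP := orK (nat_lit 211) (fin (add (start D21) (orK (nat_lit 130) (fin (add (start D20) (orK (nat_lit 110) (fin (add (start D2248) D541))))))))
noncomputable def D1942 : OP := win (nat_lit 1) (nat_lit 9) (nat_lit 6) (nat_lit 0)
noncomputable def D1943 : AP := fin (add (start D1942) D0)
noncomputable def D1944 : OP := orK (nat_lit 209) D1943
noncomputable def D2378 : OP := win (nat_lit 4) (nat_lit 7) (nat_lit 8) (nat_lit 1)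
noncomputable def D2377 : OP := orK (nat_lit 188) (fin (add (start D95) (orK (nat_lit 172) (fin (add (start D96) D46)))))
noncomputable def D1936 : AP := fin (add (start D1506) D125)
noncomputable def D652 : OP := win (nat_lit 6) (nat_lit 10) (nat_lit 5) (nat_lit 5)
noncomputable def D660 : OP := win (nat_lit 3) (nat_lit 10) (nat_lit 4) (nat_lit 5)
noncomputable def D2472 : OP := win (nat_lit 3) (nat_lit 10) (nat_lit 5) (nat_lit 4)
noncomputable def D2349 : OP := win (nat_lit 0) (nat_lit 7) (nat_lit 10) (nat_lit 1)
noncomputable def D2332 : OP := win (nat_lit 7) (nat_lit 9) (nat_lit 9) (nat_lit 0)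
noncomputable def D2331 : OP := win (nat_lit 7) (nat_lit 9) (nat_lit 8) (nat_lit 5)
noncomputable def D2333 : AP := fin (add (start D2331) D2332)
noncomputable def D2350 : OP := orK (nat_lit 250) D2333
noncomputable def D517 : OP := win (nat_lit 3) (nat_lit 8) (nat_lit 7) (nat_lit 3)
noncomputable def D392 : OP := win (nat_lit 1) (nat_lit 8) (nat_lit 7) (nat_lit 2)
noncomputable def D396 : OP := win (nat_lit 5) (nat_lit 7) (nat_lit 10) (nat_lit 5)
noncomputable def D200 : OP := win (nat_lit 2) (nat_lit 7) (nat_lit 9) (nat_lit 5)
noncomputable def D514 : OP := win (nat_lit 4) (nat_lit 8) (nat_lit 9) (nat_lit 5)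
noncomputable def D168 : OP := win (nat_lit 4) (nat_lit 7) (nat_lit 9) (nat_lit 0)
noncomputable def D515 : AP := fin (add (start D168) D514)
noncomputable def D516 : OP := orK (nat_lit 191) D515
noncomputable def D525 : OP := orK (nat_lit 208) (fin (add (start D516) (orK (nat_lit 188) (fin (add (start D200) (orK (nat_lit 228) (fin (add (start D396) (orK (nat_lit 169) (fin (add (start D392) D517)))))))))))
noncomputable def D773 : AP := fin (add (start D152) (orK (nat_lit 209) (fin (add (start D0) (orK (nat_lit 211) (fin (add (start D21) D525)))))))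
noncomputable def D23 : OP := orK (nat_lit 211) (fin (add (start D20) D21))
noncomputable def D26 : AP := fin (add (start D0) (orK (nat_lit 130) (fin (add (start D1) D23))))
noncomputable def D27 : OP := orK (nat_lit 209) D26
noncomputable def D2216 : OP := orK (nat_lit 150) (fin (add (add (add (start D27) D513) D509) (orK (nat_lit 149) D773)))
noncomputable def D84 : OP := win (nat_lit 7) (nat_lit 9) (nat_lit 8) (nat_lit 4)
noncomputable def D44 : OP := win (nat_lit 7) (nat_lit 9) (nat_lit 7) (nat_lit 5)
noncomputable def D86 : OP := orK (nat_lit 169) (fin (add (start D44) D84))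
noncomputable def D425 : OP := orK (nat_lit 251) (fin (add (start D73) (orK (nat_lit 250) (fin (add (start D74) D86)))))
noncomputable def D2030 : OP := orK (nat_lit 169) (fin (add (start D44) (orK (nat_lit 171) (fin (add (start D83) D70)))))
noncomputable def D11316 : OP := orK (nat_lit 230) (fin (add (add (start D300) D2030) D425))
noncomputable def D505 : OP := orK (nat_lit 151) (fin (add (start D11) (orK (nat_lit 150) (fin (add (start D10) D155)))))
noncomputable def D15 : OP := orK (nat_lit 231) (fin (add (start D12) D13))
noncomputable def D568 : OP := orK (nat_lit 151) (fin (add (start D11) (orK (nat_lit 150) (fin (add (start D10) D15)))))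
noncomputable def D1998 : OP := win (nat_lit 6) (nat_lit 10) (nat_lit 6) (nat_lit 5)
noncomputable def D2 : OP := win (nat_lit 3) (nat_lit 10) (nat_lit 5) (nat_lit 5)
noncomputable def D3 : OP := win (nat_lit 3) (nat_lit 10) (nat_lit 6) (nat_lit 4)
noncomputable def D1481 : OP := win (nat_lit 0) (nat_lit 7) (nat_lit 7) (nat_lit 5)
noncomputable def D366 : OP := win (nat_lit 0) (nat_lit 6) (nat_lit 7) (nat_lit 0)
noncomputable def D1629 : OP := win (nat_lit 7) (nat_lit 8) (nat_lit 6) (nat_lit 5)
noncomputable def D1633 : OP := win (nat_lit 1) (nat_lit 8) (nat_lit 7) (nat_lit 5)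
noncomputable def D323 : OP := win (nat_lit 5) (nat_lit 8) (nat_lit 7) (nat_lit 0)
noncomputable def D176 : OP := win (nat_lit 0) (nat_lit 7) (nat_lit 8) (nat_lit 0)
noncomputable def D2274 : OP := orK (nat_lit 130) (fin (add (start D1) D1998))
noncomputable def D169 : OP := win (nat_lit 4) (nat_lit 8) (nat_lit 9) (nat_lit 3)
noncomputable def D192 : AP := fin (add (start D169) D175)
noncomputable def D193 : OP := orK (nat_lit 192) D192
noncomputable def D194 : AP := fin (add (start D168) D193)
noncomputable def D195 : OP := orK (nat_lit 208) D194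
noncomputable def D185 : OP := win (nat_lit 2) (nat_lit 8) (nat_lit 8) (nat_lit 3)
noncomputable def D187 : OP := orK (nat_lit 168) (fin (add (start D176) D185))
noncomputable def D491 : OP := orK (nat_lit 131) (fin (add (start D3) (orK (nat_lit 130) (fin (add (start D2) D163)))))
noncomputable def D2473 : OP := win (nat_lit 6) (nat_lit 10) (nat_lit 5) (nat_lit 4)
noncomputable def D346 : OP := win (nat_lit 1) (nat_lit 9) (nat_lit 5) (nat_lit 5)
noncomputable def D4759 : OP := orK (nat_lit 110) (fin (add (start D346) D2473))
noncomputable def D368 : OP := win (nat_lit 2) (nat_lit 7) (nat_lit 6) (nat_lit 4)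
noncomputable def D367 : OP := win (nat_lit 2) (nat_lit 6) (nat_lit 6) (nat_lit 5)
noncomputable def D370 : OP := orK (nat_lit 127) (fin (add (start D367) D368))
noncomputable def D372 : OP := orK (nat_lit 147) (fin (add (start D366) D370))
noncomputable def D365 : OP := win (nat_lit 0) (nat_lit 8) (nat_lit 7) (nat_lit 4)
noncomputable def D364 : OP := win (nat_lit 0) (nat_lit 9) (nat_lit 7) (nat_lit 5)
noncomputable def D177 : OP := win (nat_lit 0) (nat_lit 8) (nat_lit 8) (nat_lit 3)
noncomputable def D179 : OP := orK (nat_lit 168) (fin (add (start D176) D177))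
noncomputable def D1892 : OP := win (nat_lit 2) (nat_lit 9) (nat_lit 8) (nat_lit 0)
noncomputable def D2287 : OP := win (nat_lit 2) (nat_lit 10) (nat_lit 8) (nat_lit 4)
noncomputable def D170 : OP := win (nat_lit 5) (nat_lit 8) (nat_lit 9) (nat_lit 3)
noncomputable def D2156 : AP := fin (add (start D170) D175)
noncomputable def D203 : OP := win (nat_lit 7) (nat_lit 8) (nat_lit 8) (nat_lit 3)
noncomputable def D261 : OP := win (nat_lit 3) (nat_lit 9) (nat_lit 9) (nat_lit 0)
noncomputable def D2147 : OP := orK (nat_lit 249) (fin (add (start D261) D203))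
noncomputable def D201 : OP := win (nat_lit 6) (nat_lit 8) (nat_lit 7) (nat_lit 0)
noncomputable def D2092 : OP := win (nat_lit 7) (nat_lit 7) (nat_lit 8) (nat_lit 4)
noncomputable def D2091 : OP := win (nat_lit 7) (nat_lit 7) (nat_lit 7) (nat_lit 5)
noncomputable def D2094 : OP := orK (nat_lit 167) (fin (add (start D2091) D2092))
noncomputable def D2139 : OP := win (nat_lit 1) (nat_lit 8) (nat_lit 8) (nat_lit 1)
noncomputable def D230 : OP := win (nat_lit 3) (nat_lit 8) (nat_lit 7) (nat_lit 5)
noncomputable def D2136 : OP := win (nat_lit 4) (nat_lit 6) (nat_lit 10) (nat_lit 0)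
noncomputable def D208 : OP := win (nat_lit 1) (nat_lit 7) (nat_lit 8) (nat_lit 5)
noncomputable def D202 : OP := win (nat_lit 6) (nat_lit 8) (nat_lit 8) (nat_lit 3)
noncomputable def D2122 : OP := orK (nat_lit 249) (fin (add (start D261) D202))
noncomputable def D215 : OP := win (nat_lit 7) (nat_lit 7) (nat_lit 7) (nat_lit 4)
noncomputable def D214 : OP := win (nat_lit 7) (nat_lit 7) (nat_lit 6) (nat_lit 5)
noncomputable def D217 : OP := orK (nat_lit 147) (fin (add (start D214) D215))
noncomputable def D212 : OP := win (nat_lit 3) (nat_lit 8) (nat_lit 7) (nat_lit 4)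
noncomputable def D213 : OP := win (nat_lit 3) (nat_lit 8) (nat_lit 6) (nat_lit 5)
noncomputable def D953 : OP := win (nat_lit 7) (nat_lit 7) (nat_lit 5) (nat_lit 5)
noncomputable def D2127 : OP := orK (nat_lit 127) (fin (add (start D953) (win (nat_lit 7) (nat_lit 7) (nat_lit 6) (nat_lit 4))))
noncomputable def D244 : OP := win (nat_lit 6) (nat_lit 8) (nat_lit 6) (nat_lit 4)
noncomputable def D243 : OP := win (nat_lit 3) (nat_lit 8) (nat_lit 5) (nat_lit 5)
noncomputable def D242 : OP := win (nat_lit 3) (nat_lit 8) (nat_lit 6) (nat_lit 4)
noncomputable def D248 : OP := orK (nat_lit 129) (fin (add (start D242) (orK (nat_lit 128) (fin (add (start D243) D244)))))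
noncomputable def D2111 : OP := win (nat_lit 6) (nat_lit 7) (nat_lit 6) (nat_lit 0)
noncomputable def D2110 : OP := win (nat_lit 7) (nat_lit 7) (nat_lit 8) (nat_lit 0)
noncomputable def D2067 : OP := win (nat_lit 2) (nat_lit 7) (nat_lit 9) (nat_lit 0)
noncomputable def D221 : OP := orK (nat_lit 149) (fin (add (start D212) (orK (nat_lit 148) (fin (add (start D213) D217)))))
noncomputable def D2103 : OP := win (nat_lit 6) (nat_lit 8) (nat_lit 8) (nat_lit 4)
noncomputable def D2090 : OP := win (nat_lit 1) (nat_lit 7) (nat_lit 8) (nat_lit 4)
noncomputable def D2089 : OP := win (nat_lit 1) (nat_lit 7) (nat_lit 9) (nat_lit 5)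
noncomputable def D232 : OP := win (nat_lit 6) (nat_lit 8) (nat_lit 9) (nat_lit 5)
noncomputable def D2077 : OP := win (nat_lit 4) (nat_lit 6) (nat_lit 10) (nat_lit 3)
noncomputable def D2076 : OP := win (nat_lit 4) (nat_lit 5) (nat_lit 10) (nat_lit 0)
noncomputable def D2078 : AP := fin (add (start D2076) D2077)
noncomputable def D2079 : OP := orK (nat_lit 226) D2078
noncomputable def D209 : OP := win (nat_lit 5) (nat_lit 7) (nat_lit 10) (nat_lit 0)
noncomputable def D2080 : AP := fin (add (start D209) D2079)
noncomputable def D2081 : OP := orK (nat_lit 227) D2080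
noncomputable def D241 : OP := win (nat_lit 6) (nat_lit 8) (nat_lit 7) (nat_lit 5)
noncomputable def D231 : OP := win (nat_lit 3) (nat_lit 8) (nat_lit 8) (nat_lit 4)
noncomputable def D210 : AP := fin (add (start D208) D209)
noncomputable def D211 : OP := orK (nat_lit 227) D210
noncomputable def D225 : OP := win (nat_lit 7) (nat_lit 8) (nat_lit 9) (nat_lit 0)
noncomputable def D228 : AP := fin (add (start D203) D225)
noncomputable def D226 : AP := fin (add (start D202) D225)
noncomputable def D204 : AP := fin (add (start D202) D203)
noncomputable def D205 : OP := orK (nat_lit 249) D204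
noncomputable def D207 : OP := orK (nat_lit 229) (fin (add (start D201) D205))
noncomputable def D2069 : OP := win (nat_lit 0) (nat_lit 6) (nat_lit 9) (nat_lit 3)
noncomputable def D2068 : OP := win (nat_lit 0) (nat_lit 5) (nat_lit 9) (nat_lit 0)
noncomputable def D2070 : AP := fin (add (start D2068) D2069)
noncomputable def D2072 : AP := fin (add (start D2067) (orK (nat_lit 186) D2070))
noncomputable def D2073 : OP := orK (nat_lit 187) D2072
noncomputable def D2044 : OP := win (nat_lit 4) (nat_lit 6) (nat_lit 9) (nat_lit 4)
noncomputable def D2043 : OP := win (nat_lit 2) (nat_lit 5) (nat_lit 9) (nat_lit 5)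
noncomputable def D2042 : OP := win (nat_lit 2) (nat_lit 6) (nat_lit 9) (nat_lit 4)
noncomputable def D2048 : OP := orK (nat_lit 186) (fin (add (start D2042) (orK (nat_lit 206) (fin (add (start D2043) D2044)))))
noncomputable def D2062 : OP := win (nat_lit 4) (nat_lit 7) (nat_lit 9) (nat_lit 5)
noncomputable def D2064 : OP := orK (nat_lit 207) (fin (add (start D2062) D2048))
noncomputable def D2061 : OP := orK (nat_lit 191) D194
noncomputable def D723 : OP := win (nat_lit 5) (nat_lit 7) (nat_lit 10) (nat_lit 4)
noncomputable def D722 : OP := win (nat_lit 5) (nat_lit 6) (nat_lit 10) (nat_lit 5)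
noncomputable def D725 : OP := orK (nat_lit 227) (fin (add (start D722) D723))
noncomputable def D720 : OP := win (nat_lit 2) (nat_lit 7) (nat_lit 9) (nat_lit 4)
noncomputable def D721 : OP := win (nat_lit 2) (nat_lit 6) (nat_lit 9) (nat_lit 5)
noncomputable def D2058 : OP := orK (nat_lit 187) (fin (add (start D721) (orK (nat_lit 211) (fin (add (start D720) D725)))))
noncomputable def D2050 : OP := win (nat_lit 5) (nat_lit 6) (nat_lit 10) (nat_lit 4)
noncomputable def D2049 : OP := win (nat_lit 5) (nat_lit 5) (nat_lit 10) (nat_lit 5)
noncomputable def D2052 : OP := orK (nat_lit 226) (fin (add (start D2049) D2050))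
noncomputable def D2054 : OP := orK (nat_lit 206) (fin (add (start D2044) D2052))
noncomputable def D2060 : OP := orK (nat_lit 207) (fin (add (add (start D2048) D2054) D2058))
noncomputable def D2161 : OP := orK (nat_lit 208) (fin (add (add (add (start D2060) D2061) D2064) (orK (nat_lit 192) (fin (add (add (start (orK (nat_lit 191) D192)) (orK (nat_lit 188) (fin (add (add (add (start D2073) (orK (nat_lit 168) (fin (add (add (add (start D207) (orK (nat_lit 228) (fin (add (start D211) D221)))) (orK (nat_lit 249) (fin (add (add (add (start (orK (nat_lit 229) D204)) (orK (nat_lit 229) D226)) (orK (nat_lit 229) D228)) (orK (nat_lit 228) (fin (add (start D211) (orK (nat_lit 169) (fin (add (start D230) (orK (nat_lit 248) (fin (add (start D231) D232))))))))))))) (orK (nat_lit 148) (fin (add (start D241) D248))))))) (orK (nat_lit 228) (fin (add (add (start D2081) (orK (nat_lit 249) (fin (add (add (start (orK (nat_lit 269) (fin (add (start (win (nat_lit 6) (nat_lit 8) (nat_lit 9) (nat_lit 3))) (win (nat_lit 7) (nat_lit 8) (nat_lit 9) (nat_lit 2)))))) (orK (nat_lit 248) (fin (add (start D232)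 (orK (nat_lit 247) (fin (add (start D2089) (orK (nat_lit 168) (fin (add (start D2090) (orK (nat_lit 149) (fin (add (start D212) D2094))))))))))))) (orK (nat_lit 168) (fin (add (start D2103) (orK (nat_lit 227) (fin (add (start D208) D221)))))))))) (orK (nat_lit 187) (fin (add (start D2067) (orK (nat_lit 167) (fin (add (start D2110) (orK (nat_lit 147) (fin (add (start D2111) (win (nat_lit 7) (nat_lit 7) (nat_lit 7) (nat_lit 3))))))))))))))) (orK (nat_lit 168) (fin (add (add (add (start (orK (nat_lit 229) (fin (add (start D201) D2122)))) (orK (nat_lit 148) (fin (add (add (start D248) (orK (nat_lit 128) (fin (add (start D244) D2127)))) (orK (nat_lit 149) (fin (add (start D213) (orK (nat_lit 228) (fin (add (start D212) D217)))))))))) (orK (nat_lit 229) (fin (add (add (start D2122) (orK (nat_lit 228) (fin (add (start (orK (nat_lit 227) (fin (add (start D208) D2136)))) (orK (nat_lit 169) (fin (add (start D230) (orK (nat_lit 248) (fin (add (start D2139) D2094)))))))))) D2147)))) (orK (nat_lit 229) (fin (add (start D201) D2147)))))))))) (orK (nat_lit 191) D2156))))))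
noncomputable def D4893 : OP := orK (nat_lit 150) (fin (add (start D0) (orK (nat_lit 131) (fin (add (start D3) (orK (nat_lit 130) (fin (add (start D2) (orK (nat_lit 191) (fin (add (start D1998) D163)))))))))))
noncomputable def D147 : OP := win (nat_lit 3) (nat_lit 9) (nat_lit 8) (nat_lit 3)
noncomputable def D266 : AP := fin (add (start D147) D261)
noncomputable def D267 : OP := orK (nat_lit 249) D266
noncomputable def D145 : OP := win (nat_lit 1) (nat_lit 9) (nat_lit 7) (nat_lit 0)
noncomputable def D268 : AP := fin (add (start D145) D267)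
noncomputable def D269 : OP := orK (nat_lit 229) D268
noncomputable def D279 : OP := win (nat_lit 1) (nat_lit 9) (nat_lit 8) (nat_lit 5)
noncomputable def D280 : OP := win (nat_lit 1) (nat_lit 9) (nat_lit 7) (nat_lit 4)
noncomputable def D495 : OP := orK (nat_lit 229) (fin (add (start D280) (orK (nat_lit 230) (fin (add (start D279) D155)))))
noncomputable def D282 : OP := orK (nat_lit 151) (fin (add (start D10) D11))
noncomputable def D487 : OP := orK (nat_lit 229) (fin (add (start D280) (orK (nat_lit 230) (fin (add (start D279) D282)))))
noncomputable def D497 : OP := orK (nat_lit 150) (fin (add (add (start D487) D491) D495))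
noncomputable def D146 : OP := win (nat_lit 1) (nat_lit 9) (nat_lit 8) (nat_lit 3)
noncomputable def D262 : AP := fin (add (start D146) D261)
noncomputable def D263 : OP := orK (nat_lit 249) D262
noncomputable def D265 : OP := orK (nat_lit 229) (fin (add (start D145) D263))
noncomputable def D2177 : OP := win (nat_lit 7) (nat_lit 9) (nat_lit 9) (nat_lit 5)
noncomputable def D2719 : OP := win (nat_lit 6) (nat_lit 10) (nat_lit 10) (nat_lit 5)
noncomputable def D2718 : OP := win (nat_lit 6) (nat_lit 10) (nat_lit 9) (nat_lit 4)
noncomputable def D11362 : OP := orK (nat_lit 271) (fin (add (start D2718) (orK (nat_lit 270) (fin (add (start D2719) D2177)))))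
noncomputable def D2198 : OP := orK (nat_lit 192) D2156
noncomputable def D2199 : AP := fin (add (start D168) D2198)
noncomputable def D4915 : OP := orK (nat_lit 191) D2199
noncomputable def D2487 : OP := win (nat_lit 5) (nat_lit 8) (nat_lit 9) (nat_lit 0)
noncomputable def D2489 : OP := win (nat_lit 4) (nat_lit 8) (nat_lit 8) (nat_lit 5)
noncomputable def D2747 : AP := fin (add (start D2489) D2487)
noncomputable def D2749 : AP := fin (add (start D95) (orK (nat_lit 191) D2747))
noncomputable def D2738 : OP := win (nat_lit 7) (nat_lit 7) (nat_lit 8) (nat_lit 5)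
noncomputable def D11387 : OP := orK (nat_lit 248) (fin (add (start D2089) D232))
noncomputable def D2755 : OP := win (nat_lit 1) (nat_lit 7) (nat_lit 8) (nat_lit 0)
noncomputable def D2075 : OP := orK (nat_lit 211) (fin (add (start D200) D396))
noncomputable def D2439 : OP := orK (nat_lit 167) (fin (add (start (win (nat_lit 2) (nat_lit 7) (nat_lit 8) (nat_lit 2))) D2091))
noncomputable def D735 : OP := win (nat_lit 3) (nat_lit 8) (nat_lit 9) (nat_lit 0)
noncomputable def D3340 : OP := orK (nat_lit 188) D2072
noncomputable def D3303 : OP := win (nat_lit 2) (nat_lit 6) (nat_lit 9) (nat_lit 3)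
noncomputable def D6165 : OP := orK (nat_lit 186) (fin (add (start D3303) (orK (nat_lit 188) (fin (add (start D2068) D2067)))))
noncomputable def D942 : OP := win (nat_lit 3) (nat_lit 7) (nat_lit 8) (nat_lit 0)
noncomputable def D3933 : OP := win (nat_lit 1) (nat_lit 7) (nat_lit 7) (nat_lit 0)
noncomputable def D4937 : OP := orK (nat_lit 168) (fin (add (start D3933) D942))
noncomputable def D2804 : OP := win (nat_lit 4) (nat_lit 6) (nat_lit 9) (nat_lit 0)
noncomputable def D2502 : OP := win (nat_lit 2) (nat_lit 6) (nat_lit 8) (nat_lit 5)
noncomputable def D2484 : OP := win (nat_lit 4) (nat_lit 7) (nat_lit 8) (nat_lit 5)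
noncomputable def D38 : OP := win (nat_lit 1) (nat_lit 9) (nat_lit 9) (nat_lit 5)
noncomputable def D562 : OP := orK (nat_lit 250) (fin (add (start D38) (orK (nat_lit 171) (fin (add (start D83) D39)))))
noncomputable def D380 : OP := win (nat_lit 0) (nat_lit 8) (nat_lit 7) (nat_lit 5)
noncomputable def D379 : OP := win (nat_lit 0) (nat_lit 7) (nat_lit 7) (nat_lit 0)
noncomputable def D381 : AP := fin (add (start D379) D380)
noncomputable def D538 : OP := orK (nat_lit 148) D381
noncomputable def D5 : OP := orK (nat_lit 131) (fin (add (start D2) D3))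
noncomputable def D7 : OP := orK (nat_lit 130) (fin (add (start D1) D5))
noncomputable def D1896 : OP := orK (nat_lit 192) (fin (add (start D177) D1892))
noncomputable def D1913 : AP := fin (add (start D176) D1896)
noncomputable def D1914 : OP := orK (nat_lit 191) D1913
noncomputable def D1894 : OP := orK (nat_lit 192) (fin (add (start D185) D1892))
noncomputable def D1911 : AP := fin (add (start D176) D1894)
noncomputable def D1912 : OP := orK (nat_lit 191) D1911
noncomputable def D993 : OP := win (nat_lit 2) (nat_lit 8) (nat_lit 7) (nat_lit 4)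
noncomputable def D992 : OP := win (nat_lit 2) (nat_lit 7) (nat_lit 7) (nat_lit 5)
noncomputable def D542 : OP := win (nat_lit 4) (nat_lit 8) (nat_lit 7) (nat_lit 5)
noncomputable def D1899 : OP := orK (nat_lit 151) (fin (add (start (win (nat_lit 1) (nat_lit 10) (nat_lit 6) (nat_lit 0))) D542))
noncomputable def D822 : OP := win (nat_lit 5) (nat_lit 7) (nat_lit 8) (nat_lit 4)
noncomputable def D821 : OP := win (nat_lit 5) (nat_lit 6) (nat_lit 8) (nat_lit 5)
noncomputable def D824 : OP := orK (nat_lit 187) (fin (add (start D821) D822))
noncomputable def D1885 : OP := win (nat_lit 2) (nat_lit 7) (nat_lit 7) (nat_lit 4)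
noncomputable def D1246 : OP := win (nat_lit 2) (nat_lit 6) (nat_lit 7) (nat_lit 5)
noncomputable def D1880 : OP := win (nat_lit 5) (nat_lit 6) (nat_lit 8) (nat_lit 4)
noncomputable def D1879 : OP := win (nat_lit 5) (nat_lit 5) (nat_lit 8) (nat_lit 5)
noncomputable def D1882 : OP := orK (nat_lit 186) (fin (add (start D1879) D1880))
noncomputable def D1872 : OP := win (nat_lit 0) (nat_lit 6) (nat_lit 8) (nat_lit 4)
noncomputable def D1884 : OP := orK (nat_lit 166) (fin (add (start D1872) D1882))
noncomputable def D1874 : OP := win (nat_lit 2) (nat_lit 6) (nat_lit 7) (nat_lit 4)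
noncomputable def D1873 : OP := win (nat_lit 2) (nat_lit 5) (nat_lit 7) (nat_lit 5)
noncomputable def D1876 : OP := orK (nat_lit 146) (fin (add (start D1873) D1874))
noncomputable def D1878 : OP := orK (nat_lit 166) (fin (add (start D1872) D1876))
noncomputable def D1891 : OP := orK (nat_lit 167) (fin (add (add (start D1878) D1884) (orK (nat_lit 147) (fin (add (start D1246) (orK (nat_lit 171) (fin (add (start D1885) D824))))))))
noncomputable def D1916 : OP := orK (nat_lit 168) (fin (add (add (add (start D1891) (orK (nat_lit 191) (fin (add (add (start D1894) D1896) (orK (nat_lit 171) (fin (add (start D1899) (orK (nat_lit 148) (fin (add (start D992) (orK (nat_lit 172) (fin (add (start D993) (orK (nat_lit 188) (fin (add (start (win (nat_lit 4) (nat_lit 8) (nat_lit 8) (nat_lit 1))) D61)))))))))))))))) D1912) D1914))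
noncomputable def D37 : OP := win (nat_lit 1) (nat_lit 9) (nat_lit 8) (nat_lit 4)
noncomputable def D564 : OP := orK (nat_lit 249) (fin (add (start D37) D562))
noncomputable def D3767 : OP := orK (nat_lit 230) (fin (add (start D44) D564))
noncomputable def D311 : OP := orK (nat_lit 249) (fin (add (start D37) (orK (nat_lit 250) (fin (add (start D38) D84)))))
noncomputable def D3763 : OP := orK (nat_lit 230) (fin (add (start D83) D311))
noncomputable def D36 : OP := orK (nat_lit 151) D35
noncomputable def D275 : AP := fin (add (start D273) (win (nat_lit 6) (nat_lit 9) (nat_lit 6) (nat_lit 3)))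
noncomputable def D290 : OP := orK (nat_lit 129) D275
noncomputable def D291 : AP := fin (add (start D289) D290)
noncomputable def D307 : OP := orK (nat_lit 149) D291
noncomputable def D9 : OP := orK (nat_lit 209) (fin (add (start D0) D7))
noncomputable def D4885 : OP := orK (nat_lit 150) (fin (add (add (start D9) D495) D491))
noncomputable def D3820 : OP := win (nat_lit 5) (nat_lit 7) (nat_lit 8) (nat_lit 0)
noncomputable def D4794 : OP := orK (nat_lit 187) (fin (add (start D2067) D3820))
noncomputable def D399 : OP := win (nat_lit 3) (nat_lit 8) (nat_lit 7) (nat_lit 0)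
noncomputable def D1314 : OP := win (nat_lit 2) (nat_lit 8) (nat_lit 7) (nat_lit 0)
noncomputable def D4706 : AP := fin (add (start D992) D1314)
noncomputable def D4707 : OP := orK (nat_lit 148) D4706
noncomputable def D3940 : OP := win (nat_lit 3) (nat_lit 8) (nat_lit 6) (nat_lit 3)
noncomputable def D4790 : OP := orK (nat_lit 208) (fin (add (start D3940) D399))
noncomputable def D3699 : OP := win (nat_lit 7) (nat_lit 8) (nat_lit 7) (nat_lit 0)
noncomputable def D3864 : OP := win (nat_lit 2) (nat_lit 7) (nat_lit 7) (nat_lit 0)
noncomputable def D3654 : OP := orK (nat_lit 168) D1913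
noncomputable def D3653 : OP := orK (nat_lit 168) D1911
noncomputable def D1638 : OP := win (nat_lit 4) (nat_lit 6) (nat_lit 8) (nat_lit 0)
noncomputable def D3627 : OP := orK (nat_lit 187) (fin (add (start (win (nat_lit 0) (nat_lit 7) (nat_lit 9) (nat_lit 5))) D1638))
noncomputable def D3644 : OP := win (nat_lit 5) (nat_lit 7) (nat_lit 9) (nat_lit 5)
noncomputable def D2456 : OP := win (nat_lit 3) (nat_lit 9) (nat_lit 8) (nat_lit 1)
noncomputable def D1995 : OP := win (nat_lit 5) (nat_lit 8) (nat_lit 9) (nat_lit 5)
noncomputable def D2653 : OP := win (nat_lit 4) (nat_lit 9) (nat_lit 8) (nat_lit 5)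
noncomputable def D3652 : OP := orK (nat_lit 192) (fin (add (start D1892) (orK (nat_lit 189) (fin (add (add (start (orK (nat_lit 172) (fin (add (start D2653) (orK (nat_lit 188) (fin (add (start (win (nat_lit 4) (nat_lit 8) (nat_lit 8) (nat_lit 4))) D3627))))))) (orK (nat_lit 172) (fin (add (start D2653) (orK (nat_lit 209) (fin (add (start D1995) (orK (nat_lit 249) (fin (add (start D2456) (orK (nat_lit 149) (fin (add (start D121) (orK (nat_lit 148) (fin (add (start (win (nat_lit 2) (nat_lit 8) (nat_lit 7) (nat_lit 1))) D1629)))))))))))))))) (orK (nat_lit 208) (fin (add (start (win (nat_lit 5) (nat_lit 8) (nat_lit 9) (nat_lit 4))) (orK (nat_lit 188) (fin (add (start D3644) D3627)))))))))))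
noncomputable def D180 : OP := win (nat_lit 3) (nat_lit 10) (nat_lit 8) (nat_lit 5)
noncomputable def D182 : OP := orK (nat_lit 250) (fin (add (start D180) D84))
noncomputable def D2290 : OP := orK (nat_lit 194) (fin (add (start D2287) (win (nat_lit 5) (nat_lit 10) (nat_lit 9) (nat_lit 4))))
noncomputable def D2283 : OP := win (nat_lit 2) (nat_lit 9) (nat_lit 8) (nat_lit 5)
noncomputable def D2284 : OP := win (nat_lit 5) (nat_lit 9) (nat_lit 9) (nat_lit 5)
noncomputable def D2286 : OP := orK (nat_lit 193) (fin (add (start D2283) D2284))
noncomputable def D4810 : OP := orK (nat_lit 169) (fin (add (add (start (orK (nat_lit 191) (fin (add (add (add (start (orK (nat_lit 192) (fin (add (add (start D2286) (orK (nat_lit 209) (fin (add (add (start (orK (nat_lit 208) (fin (add (start D168) D169)))) (orK (nat_lit 150) (fin (add (start D0) D2274)))) (orK (nat_lit 208) (fin (add (start D168) D170))))))) (orK (nat_lit 193) (fin (add (start D2283) D2290))))))) D3653) D3654) (orK (nat_lit 168) (fin (add (start D176) (orK (nat_lit 230) (fin (add (add (add (start D182) D311) (orK (nat_lit 249) (fin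 (add (start D37) (orK (nat_lit 250) (fin (add (start D38) D180))))))) (orK (nat_lit 229) (fin (add (start D279) (orK (nat_lit 150) (fin (add (start D280) (orK (nat_lit 130) (fin (add (start D1998) D4759))))))))))))))))))) D321) (orK (nat_lit 191) (fin (add (add (add (start D3652) D3653) D3654) (orK (nat_lit 149) (fin (add (add (start D290) (orK (nat_lit 168) (fin (add (start D176) (orK (nat_lit 148) (fin (add (start (orK (nat_lit 147) (fin (add (start D366) D3864)))) (orK (nat_lit 209) (fin (add (add (start (orK (nat_lit 189) (fin (add (start D1629) D3699)))) (orK (nat_lit 208) (fin (add (start D168) (orK (nat_lit 188) (fin (add (start D399) D241))))))) (orK (nat_lit 208) (fin (add (start D168) (orK (nat_lit 189) (fin (add (start D1633) D1629)))))))))))))))) (orK (nat_lit 168) (fin (add (start D176) (orK (nat_lit 129) (fin (add (start D273) (orK (nat_lit 188) (fin (add (add (start D4790) (orK (nat_lit 171) (fin (add (start D61) D4707)))) (orK (nat_lit 208) (fin (add (start D399) (orK (nat_lit 209) (fin (add (start D168) D4794)))))))))))))))))))))))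
noncomputable def D2814 : OP := win (nat_lit 6) (nat_lit 7) (nat_lit 8) (nat_lit 0)
noncomputable def D1937 : OP := orK (nat_lit 152) D1936
noncomputable def D2573 : OP := orK (nat_lit 131) (fin (add (start D3) (orK (nat_lit 130) (fin (add (start D2) (orK (nat_lit 110) (fin (add (start D2248) D652))))))))
noncomputable def D2490 : OP := win (nat_lit 6) (nat_lit 8) (nat_lit 6) (nat_lit 0)
noncomputable def D2495 : OP := orK (nat_lit 148) (fin (add (start D2490) (orK (nat_lit 147) (fin (add (start (win (nat_lit 2) (nat_lit 7) (nat_lit 7) (nat_lit 2))) D214)))))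
noncomputable def D2488 : OP := win (nat_lit 2) (nat_lit 7) (nat_lit 8) (nat_lit 5)
noncomputable def D2611 : OP := orK (nat_lit 168) (fin (add (start D2488) (orK (nat_lit 208) (fin (add (start D168) D2495)))))
noncomputable def D2607 : OP := orK (nat_lit 168) (fin (add (start D2488) (orK (nat_lit 192) (fin (add (start (win (nat_lit 0) (nat_lit 8) (nat_lit 8) (nat_lit 1))) D175)))))
noncomputable def D2602 : OP := orK (nat_lit 208) (fin (add (start D168) D2487))
noncomputable def D2630 : OP := orK (nat_lit 189) (fin (add (start D2331) (win (nat_lit 7) (nat_lit 9) (nat_lit 9) (nat_lit 4))))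
noncomputable def D2729 : OP := win (nat_lit 0) (nat_lit 6) (nat_lit 10) (nat_lit 0)
noncomputable def D2734 : OP := win (nat_lit 1) (nat_lit 8) (nat_lit 8) (nat_lit 0)
noncomputable def D2736 : OP := orK (nat_lit 189) (fin (add (start D2734) D735))
noncomputable def D457 : OP := win (nat_lit 5) (nat_lit 6) (nat_lit 11) (nat_lit 5)
noncomputable def D2740 : OP := orK (nat_lit 187) (fin (add (start D2067) D2738))
noncomputable def D739 : OP := win (nat_lit 1) (nat_lit 7) (nat_lit 9) (nat_lit 4)
noncomputable def D740 : OP := win (nat_lit 1) (nat_lit 7) (nat_lit 10) (nat_lit 5)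
noncomputable def D2744 : OP := orK (nat_lit 267) (fin (add (start D740) (orK (nat_lit 188) (fin (add (start D739) D2740)))))
noncomputable def D2737 : OP := win (nat_lit 3) (nat_lit 8) (nat_lit 10) (nat_lit 0)
noncomputable def D2746 : OP := orK (nat_lit 268) (fin (add (start D2737) D2744))
noncomputable def D456 : OP := win (nat_lit 4) (nat_lit 7) (nat_lit 10) (nat_lit 5)
noncomputable def D2733 : OP := orK (nat_lit 227) (fin (add (start D2136) D456))
noncomputable def D2720 : OP := win (nat_lit 1) (nat_lit 9) (nat_lit 10) (nat_lit 4)
noncomputable def D43 : OP := orK (nat_lit 249) (fin (add (start D37) (orK (nat_lit 250) (fin (add (start D38) D39)))))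
noncomputable def D2836 : OP := orK (nat_lit 171) (fin (add (add (add (start D36) (orK (nat_lit 230) (fin (add (add (add (start D43) (orK (nat_lit 250) (fin (add (start D39) (orK (nat_lit 271) (fin (add (start D2718) (orK (nat_lit 270) (fin (add (start D2719) (orK (nat_lit 289) (fin (add (start D2720) D2630))))))))))))) (orK (nat_lit 229) (fin (add (start D279) (orK (nat_lit 209) (fin (add (start D145) (orK (nat_lit 208) (fin (add (add (start (orK (nat_lit 207) (fin (add (start D2729) D2062)))) (orK (nat_lit 228) (fin (add (add (start D2733) (orK (nat_lit 248) (fin (add (add (start D2736) D2746) (orK (nat_lit 189) (fin (add (start D2734) (orK (nat_lit 188) D2749)))))))) (orK (nat_lit 227) (fin (add (start D2136) (orK (nat_lit 247) (fin (add (start D457) (orK (nat_lit 188) (fin (add (start D2755) (orK (nat_lit 248) (fin (add (start D2089) D2736)))))))))))))))) (orK (nat_lit 207) (fin (add (start D2729) (orK (nat_lit 187) (fin (add (start D721) (orK (nat_lit 188) (fin (add (start D2067) (win (nat_lit 4) (nat_lit 7) (nat_lit 8) (nat_lit 2))))))))))))))))))))) (orK (nat_lit 249) (fin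 (add (start D37) (orK (nat_lit 250) (fin (add (start D38) (orK (nat_lit 271) (fin (add (start D2718) (orK (nat_lit 270) (fin (add (start D2719) D2630)))))))))))))))) D342) (orK (nat_lit 189) (fin (add (add (add (add (start D2377) (orK (nat_lit 150) (fin (add (add (start D1944) D2573) (orK (nat_lit 209) (fin (add (start D0) (orK (nat_lit 131) (fin (add (start D3) (orK (nat_lit 191) (fin (add (add (start D2602) (orK (nat_lit 188) (fin (add (start D95) D2607)))) (orK (nat_lit 188) (fin (add (start D95) D2611)))))))))))))))) (orK (nat_lit 172) (fin (add (start D46) (orK (nat_lit 188) (fin (add (start D96) D134))))))) (orK (nat_lit 150) (fin (add (add (start D1944) D2573) (orK (nat_lit 151) (fin (add (start D10) (orK (nat_lit 209) (fin (add (start D0) (orK (nat_lit 208) (fin (add (start (orK (nat_lit 192) (fin (add (start (win (nat_lit 5) (nat_lit 8) (nat_lit 9) (nat_lit 1))) (orK (nat_lit 172) (fin (add (start D46) (orK (nat_lit 169) (fin (add (start D59) D1937)))))))))) (orK (nat_lit 207) (fin (add (start D2804) (orK (nat_lit 227) (fin (add (start D722) (orK (nat_lit 228) (fin (add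 (start D209) (orK (nat_lit 187) (fin (add (start D721) (orK (nat_lit 248) (fin (add (start D735) D2814)))))))))))))))))))))))))))) D2384)))))
noncomputable def D383 : OP := win (nat_lit 0) (nat_lit 8) (nat_lit 8) (nat_lit 5)
noncomputable def D3473 : OP := orK (nat_lit 191) (fin (add (start D383) D1899))
noncomputable def D5901 : OP := win (nat_lit 4) (nat_lit 6) (nat_lit 7) (nat_lit 5)
noncomputable def D3768 : OP := win (nat_lit 0) (nat_lit 7) (nat_lit 8) (nat_lit 5)
noncomputable def D344 : OP := orK (nat_lit 171) (fin (add (start D70) D342))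
noncomputable def D11502 : AP := fin (add (add (add (add (add (add (add (start (orK (nat_lit 169) (fin (add (add (add (start D307) D344) D321) (orK (nat_lit 149) (fin (add (add (start D290) (orK (nat_lit 168) (fin (add (add (start (orK (nat_lit 167) (fin (add (start D3768) (orK (nat_lit 166) (fin (add (start D1872) D5901))))))) (orK (nat_lit 171) (fin (add (start D4707) D3473)))) (orK (nat_lit 171) (fin (add (start D4707) (orK (nat_lit 151) (fin (add (start D542) D340)))))))))) D319))))))) D2836) D4810) D4885) (orK (nat_lit 169) (fin (add (add (add (start D307) (orK (nat_lit 171) (fin (add (add (start D70) D36) D3763)))) D3767) D1916)))) (orK (nat_lit 209) (fin (add (add (add (start (orK (nat_lit 150) (fin (add (add (start D7) (orK (nat_lit 151) (fin (add (start D10) (orK (nat_lit 171) (fin (add (start D30) (orK (nat_lit 149) (fin (add (start D152) D538)))))))))) D165)))) (orK (nat_lit 249) (fin (add (add (add (start (orK (nat_lit 229) (fin (add (start D146) D147)))) (orK (nat_lit 229) D262)) (orK (nat_lit 230) (fin (add (add (add (start D562) (orK (nat_lit 250) (fin (add (start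 D38) D11362)))) (orK (nat_lit 171) (fin (add (start D83) (orK (nat_lit 208) (fin (add (add (add (start (orK (nat_lit 187) (fin (add (add (add (start (orK (nat_lit 188) (fin (add (start D2067) (orK (nat_lit 189) (fin (add (start D2484) (orK (nat_lit 167) (fin (add (start D2502) (orK (nat_lit 207) (fin (add (start D2804) (orK (nat_lit 227) (fin (add (start D722) D4937)))))))))))))))) (orK (nat_lit 207) (fin (add (start D721) D2054)))) D6165) D3340)))) D2061) (orK (nat_lit 188) (fin (add (add (start (orK (nat_lit 191) (fin (add (add (start (orK (nat_lit 189) D2747)) D193) (orK (nat_lit 228) (fin (add (add (start (orK (nat_lit 189) (fin (add (start D2489) (orK (nat_lit 248) (fin (add (start D735) D232))))))) (orK (nat_lit 168) (fin (add (start D211) D2439)))) (orK (nat_lit 247) (fin (add (start (orK (nat_lit 227) (fin (add (start D2755) D209)))) D11387)))))))))) (orK (nat_lit 228) (fin (add (add (add (start D2075) (orK (nat_lit 227) (fin (add (start D209) (orK (nat_lit 247) (fin (add (start D2755) D11387))))))) (orK (nat_lit 248) (fin (add (start D232) (orK (nat_lit 247) (fin (add (start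 D2089) (orK (nat_lit 168) (fin (add (start D2090) D2094)))))))))) (orK (nat_lit 187) (fin (add (start D2067) (orK (nat_lit 248) (fin (add (start D232) D2738)))))))))) (orK (nat_lit 189) D2749))))) D4915))))))) (orK (nat_lit 171) (fin (add (start D83) (orK (nat_lit 250) (fin (add (start D39) D11362)))))))))) (orK (nat_lit 229) D266))))) D265) D269)))) D497) (orK (nat_lit 209) (fin (add (add (add (start D269) D4893) D2161) (orK (nat_lit 191) (fin (add (add (start (orK (nat_lit 192) (fin (add (add (add (start (orK (nat_lit 169) (fin (add (start D1892) D179)))) (orK (nat_lit 193) (fin (add (add (start (orK (nat_lit 214) (fin (add (start (win (nat_lit 0) (nat_lit 10) (nat_lit 9) (nat_lit 4))) (orK (nat_lit 194) (fin (add (start (win (nat_lit 0) (nat_lit 11) (nat_lit 9) (nat_lit 5))) D2287))))))) (orK (nat_lit 173) (fin (add (start (win (nat_lit 4) (nat_lit 10) (nat_lit 8) (nat_lit 5))) (orK (nat_lit 172) (fin (add (start (win (nat_lit 4) (nat_lit 9) (nat_lit 8) (nat_lit 0))) (orK (nat_lit 213) (fin (add (start (win (nat_lit 0) (nat_lit 10) (nat_lit 9) (nat_lit 5))) (orK (nat_lit 152)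 (fin (add (start (win (nat_lit 6) (nat_lit 12) (nat_lit 6) (nat_lit 0))) (win (nat_lit 7) (nat_lit 12) (nat_lit 7) (nat_lit 0))))))))))))))) (orK (nat_lit 194) (fin (add (start D2287) (orK (nat_lit 174) (fin (add (start (win (nat_lit 4) (nat_lit 10) (nat_lit 8) (nat_lit 4))) (win (nat_lit 4) (nat_lit 11) (nat_lit 8) (nat_lit 5)))))))))))) (orK (nat_lit 169) (fin (add (start D1892) D187)))) (orK (nat_lit 169) (fin (add (add (start D179) (orK (nat_lit 150) (fin (add (add (add (start (orK (nat_lit 131) (fin (add (start D3) (orK (nat_lit 130) (fin (add (start D2) D4759))))))) (orK (nat_lit 151) (fin (add (start D10) (orK (nat_lit 149) (fin (add (start D152) (orK (nat_lit 152) (fin (add (start D363) (orK (nat_lit 172) (fin (add (start D364) (orK (nat_lit 148) (fin (add (start D365) D372)))))))))))))))) (orK (nat_lit 129) (fin (add (start D161) (orK (nat_lit 130) (fin (add (start D160) D4759))))))) D491)))) D187))))))) D195) (orK (nat_lit 208) (fin (add (start D168) (orK (nat_lit 150) (fin (add (add (start D2274) (orK (nat_lit 151) (fin (add (start D10) (orK (nat_lit 149) (fin (add (start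 D152) (orK (nat_lit 169) (fin (add (start (orK (nat_lit 168) (fin (add (start D176) D323)))) (orK (nat_lit 189) (fin (add (start D1633) (orK (nat_lit 148) (fin (add (start D1629) (orK (nat_lit 147) (fin (add (start D366) D1481))))))))))))))))))) (orK (nat_lit 131) (fin (add (start D3) (orK (nat_lit 130) (fin (add (start D2) D1998)))))))))))))))))))
noncomputable def D585 : OP := win (nat_lit 5) (nat_lit 7) (nat_lit 7) (nat_lit 5)
noncomputable def D588 : OP := orK (nat_lit 168) (fin (add (start D585) (win (nat_lit 5) (nat_lit 8) (nat_lit 7) (nat_lit 4))))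
noncomputable def D578 : OP := win (nat_lit 5) (nat_lit 7) (nat_lit 7) (nat_lit 4)
noncomputable def D577 : OP := win (nat_lit 5) (nat_lit 6) (nat_lit 7) (nat_lit 5)
noncomputable def D580 : OP := orK (nat_lit 167) (fin (add (start D577) D578))
noncomputable def D584 : OP := orK (nat_lit 127) (fin (add (start D368) (orK (nat_lit 147) (fin (add (start D367) D580)))))
noncomputable def D382 : OP := orK (nat_lit 171) D381
noncomputable def D594 : OP := orK (nat_lit 148) (fin (add (add (start D382) D584) (orK (nat_lit 172) (fin (add (start D365) (orK (nat_lit 152) (fin (add (start D364) D588))))))))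
noncomputable def D596 : OP := orK (nat_lit 151) (fin (add (start D10) D594))
noncomputable def D600 : OP := orK (nat_lit 149) (fin (add (start D152) (orK (nat_lit 231) (fin (add (start D12) D596)))))
noncomputable def D362 : OP := orK (nat_lit 131) (fin (add (start D3) (orK (nat_lit 130) (fin (add (start D2) D23)))))
noncomputable def D19 : OP := orK (nat_lit 151) (fin (add (start D10) (orK (nat_lit 230) (fin (add (start D11) D15)))))
noncomputable def D292 : OP := orK (nat_lit 169) D291
noncomputable def D278 : OP := orK (nat_lit 129) (fin (add (start D272) (orK (nat_lit 169) D275)))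
noncomputable def D610 : OP := orK (nat_lit 149) (fin (add (add (add (start D278) (orK (nat_lit 230) (fin (add (start D153) D568)))) D292) (orK (nat_lit 150) (fin (add (start D152) D19)))))
noncomputable def D4814 : OP := orK (nat_lit 150) (fin (add (add (start D19) D513) D491))
noncomputable def D159 : OP := orK (nat_lit 231) (fin (add (start D12) (orK (nat_lit 230) (fin (add (start D13) D155)))))
noncomputable def D1992 : OP := win (nat_lit 1) (nat_lit 9) (nat_lit 6) (nat_lit 5)
noncomputable def D4731 : OP := orK (nat_lit 189) (fin (add (start D1992) (orK (nat_lit 110) (fin (add (start D2248) (orK (nat_lit 111) (fin (add (start D660) D2472))))))))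
noncomputable def D4741 : OP := orK (nat_lit 150) (fin (add (add (add (start D513) (orK (nat_lit 211) (fin (add (start D21) (orK (nat_lit 130) (fin (add (start D20) D4731))))))) (orK (nat_lit 129) (fin (add (start D161) (orK (nat_lit 130) (fin (add (start D160) D4731))))))) D159))
noncomputable def D2627 : OP := win (nat_lit 1) (nat_lit 9) (nat_lit 10) (nat_lit 5)
noncomputable def D2634 : OP := orK (nat_lit 269) (fin (add (start (win (nat_lit 1) (nat_lit 9) (nat_lit 9) (nat_lit 4))) (orK (nat_lit 270) (fin (add (start D2627) D2630)))))
noncomputable def D2644 : OP := orK (nat_lit 230) (fin (add (add (start (orK (nat_lit 251) (fin (add (start D73) (orK (nat_lit 250) (fin (add (start D74) D2634))))))) (orK (nat_lit 171) (fin (add (start D83) (orK (nat_lit 250) (fin (add (start D39) D2634))))))) D568))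
noncomputable def D640 : AP := fin (add (add (add (start D9) (orK (nat_lit 149) (fin (add (start D152) (orK (nat_lit 229) (fin (add (start D280) D596))))))) D509) D491)
noncomputable def D641 : OP := orK (nat_lit 150) D640
noncomputable def D322 : OP := win (nat_lit 4) (nat_lit 7) (nat_lit 7) (nat_lit 0)
noncomputable def D324 : AP := fin (add (start D322) D323)
noncomputable def D315 : OP := orK (nat_lit 251) (fin (add (start D73) (orK (nat_lit 250) (fin (add (start D74) D84)))))
noncomputable def D2549 : OP := win (nat_lit 2) (nat_lit 8) (nat_lit 10) (nat_lit 0)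
noncomputable def D2482 : OP := win (nat_lit 0) (nat_lit 7) (nat_lit 10) (nat_lit 0)
noncomputable def D2551 : OP := orK (nat_lit 208) (fin (add (start D2482) D2549))
noncomputable def D2565 : OP := orK (nat_lit 229) (fin (add (start D279) (orK (nat_lit 209) (fin (add (start D145) (orK (nat_lit 231) (fin (add (start D13) D2551))))))))
noncomputable def D4705 : OP := orK (nat_lit 230) (fin (add (add (start D311) D2565) D315))
noncomputable def D4852 : OP := orK (nat_lit 150) (fin (add (add (start D487) D509) D491))
noncomputable def D4725 : OP := orK (nat_lit 169) (fin (add (add (add (start D307) D4705) D321) (orK (nat_lit 149) (fin (add (start (orK (nat_lit 168) (fin (add (add (add (start D1891) (orK (nat_lit 171) (fin (add (start D4707) (orK (nat_lit 191) (fin (add (start D383) (orK (nat_lit 188) (fin (add (start D61) (orK (nat_lit 208) (fin (add (start D399) (orK (nat_lit 207) (fin (add (start (win (nat_lit 4) (nat_lit 7) (nat_lit 9) (nat_lit 2))) (win (nat_lit 5) (nat_lit 7) (nat_lit 9) (nat_lit 2)))))))))))))))))) D1912) D1914)))) D319)))))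
noncomputable def D2404 : OP := win (nat_lit 7) (nat_lit 11) (nat_lit 5) (nat_lit 5)
noncomputable def D839 : OP := win (nat_lit 1) (nat_lit 11) (nat_lit 5) (nat_lit 0)
noncomputable def D1492 : OP := win (nat_lit 0) (nat_lit 8) (nat_lit 8) (nat_lit 0)
noncomputable def D544 : OP := orK (nat_lit 168) (fin (add (start D322) D542))
noncomputable def D2625 : OP := orK (nat_lit 171) (fin (add (add (add (start D36) (orK (nat_lit 230) (fin (add (add (start D43) D298) D2565)))) D342) (orK (nat_lit 189) (fin (add (add (add (start (orK (nat_lit 150) (fin (add (add (start D1944) D2573) (orK (nat_lit 209) (fin (add (start D0) (orK (nat_lit 172) (fin (add (start D46) (orK (nat_lit 192) (fin (add (add (start (orK (nat_lit 191) (fin (add (start D1995) D175)))) (orK (nat_lit 169) (fin (add (start D59) (orK (nat_lit 151) (fin (add (start D10) D544))))))) (orK (nat_lit 131) (fin (add (start D3) (orK (nat_lit 191) (fin (add (start D1995) (orK (nat_lit 169) (fin (add (start D1492) (orK (nat_lit 152) (fin (add (start D125) (orK (nat_lit 132) (fin (add (start D839) D2404)))))))))))))))))))))))))))) D2377)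 (orK (nat_lit 150) (fin (add (add (start D1944) D2573) (orK (nat_lit 131) (fin (add (start D3) (orK (nat_lit 188) (fin (add (start D95) (orK (nat_lit 209) (fin (add (start D0) (orK (nat_lit 191) (fin (add (add (start D2602) D2607) D2611)))))))))))))))) D2384)))))
noncomputable def D80 : OP := orK (nat_lit 249) (fin (add (start D37) (orK (nat_lit 250) (fin (add (start D38) D76)))))
noncomputable def D72 : OP := orK (nat_lit 169) (fin (add (start D44) D70))
noncomputable def D82 : OP := orK (nat_lit 230) (fin (add (start D72) D80))
noncomputable def D144 : OP := orK (nat_lit 171) (fin (add (add (add (start D36) D82) (orK (nat_lit 230) (fin (add (start D83) (orK (nat_lit 249) (fin (add (start D37) (orK (nat_lit 250) (fin (add (start D38) (orK (nat_lit 231) (fin (add (start D13) D86))))))))))))) D142))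
noncomputable def D1000 : OP := win (nat_lit 2) (nat_lit 9) (nat_lit 7) (nat_lit 4)
noncomputable def D1002 : OP := orK (nat_lit 149) (fin (add (start D120) D1000))
noncomputable def D5264 : OP := orK (nat_lit 173) (fin (add (start D1002) D54))
noncomputable def D995 : OP := orK (nat_lit 148) (fin (add (start D992) D993))
noncomputable def D5047 : OP := orK (nat_lit 168) (fin (add (start D995) D64))
noncomputable def D5044 : AP := fin (add (start D127) D64)
noncomputable def D5266 : OP := orK (nat_lit 172) (fin (add (add (start (orK (nat_lit 168) D5044)) D5047) D5264))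
noncomputable def D5105 : OP := win (nat_lit 6) (nat_lit 9) (nat_lit 4) (nat_lit 4)
noncomputable def D5147 : OP := orK (nat_lit 90) (fin (add (start (win (nat_lit 3) (nat_lit 9) (nat_lit 4) (nat_lit 4))) (orK (nat_lit 89) (fin (add (start (win (nat_lit 3) (nat_lit 9) (nat_lit 3) (nat_lit 5))) D5105)))))
noncomputable def D1218 : OP := win (nat_lit 7) (nat_lit 8) (nat_lit 4) (nat_lit 5)
noncomputable def D1233 : OP := win (nat_lit 7) (nat_lit 8) (nat_lit 5) (nat_lit 4)
noncomputable def D5151 : OP := orK (nat_lit 108) (fin (add (start D1233) (orK (nat_lit 109) (fin (add (start D1218) D5147)))))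
noncomputable def D6840 : OP := win (nat_lit 7) (nat_lit 11) (nat_lit 5) (nat_lit 3)
noncomputable def D1265 : OP := win (nat_lit 2) (nat_lit 8) (nat_lit 4) (nat_lit 0)
noncomputable def D4472 : OP := win (nat_lit 7) (nat_lit 8) (nat_lit 3) (nat_lit 5)
noncomputable def D1094 : OP := win (nat_lit 3) (nat_lit 9) (nat_lit 4) (nat_lit 5)
noncomputable def D3006 : OP := win (nat_lit 3) (nat_lit 9) (nat_lit 5) (nat_lit 4)
noncomputable def D6685 : OP := win (nat_lit 6) (nat_lit 11) (nat_lit 5) (nat_lit 0)
noncomputable def D1625 : OP := win (nat_lit 7) (nat_lit 8) (nat_lit 5) (nat_lit 5)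
noncomputable def D1235 : OP := orK (nat_lit 108) (fin (add (start D1218) D1233))
noncomputable def D3010 : OP := orK (nat_lit 110) (fin (add (start D3006) (orK (nat_lit 109) (fin (add (start D1094) D1235)))))
noncomputable def D5250 : OP := orK (nat_lit 173) (fin (add (start D1000) D54))
noncomputable def D5252 : OP := orK (nat_lit 149) (fin (add (start D120) D5250))
noncomputable def D5248 : OP := orK (nat_lit 193) (fin (add (start D49) (orK (nat_lit 173) (fin (add (start D50) D1002)))))
noncomputable def D6864 : OP := orK (nat_lit 172) (fin (add (add (add (start D5248) D58) D5252) (orK (nat_lit 149) (fin (add (start D120) (orK (nat_lit 189) (fin (add (start D45) (orK (nat_lit 129) (fin (add (add (add (start D3010) (orK (nat_lit 152) (fin (add (start D125) (orK (nat_lit 128) (fin (add (start D1625) (orK (nat_lit 151) (fin (add (start (win (nat_lit 2) (nat_lit 8) (nat_lit 6) (nat_lit 2))) (orK (nat_lit 131) (fin (add (start (win (nat_lit 0) (nat_lit 8) (nat_lit 6) (nat_lit 2))) (orK (nat_lit 192) (fin (add (start D59) D6685)))))))))))))))) (orK (nat_lit 110) (fin (add (start D3006)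 (orK (nat_lit 109) (fin (add (start D1094) (orK (nat_lit 89) (fin (add (start D5105) (orK (nat_lit 88) (fin (add (start D4472) (orK (nat_lit 111) (fin (add (start D1265) (orK (nat_lit 192) (fin (add (start D59) (orK (nat_lit 152) (fin (add (start D125) (orK (nat_lit 131) (fin (add (start (win (nat_lit 6) (nat_lit 11) (nat_lit 5) (nat_lit 2))) D6840))))))))))))))))))))))))) D5151)))))))))))
noncomputable def D932 : OP := win (nat_lit 3) (nat_lit 8) (nat_lit 6) (nat_lit 0)
noncomputable def D1323 : OP := win (nat_lit 1) (nat_lit 8) (nat_lit 5) (nat_lit 0)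
noncomputable def D1325 : OP := orK (nat_lit 129) (fin (add (start D1323) D932))
noncomputable def D4289 : OP := win (nat_lit 5) (nat_lit 5) (nat_lit 8) (nat_lit 4)
noncomputable def D4288 : OP := win (nat_lit 5) (nat_lit 4) (nat_lit 8) (nat_lit 5)
noncomputable def D4291 : OP := orK (nat_lit 185) (fin (add (start D4288) D4289))
noncomputable def D4310 : OP := win (nat_lit 2) (nat_lit 4) (nat_lit 7) (nat_lit 4)
noncomputable def D4265 : OP := win (nat_lit 0) (nat_lit 5) (nat_lit 8) (nat_lit 5)
noncomputable def D5601 : OP := win (nat_lit 4) (nat_lit 6) (nat_lit 7) (nat_lit 4)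
noncomputable def D1096 : OP := win (nat_lit 4) (nat_lit 7) (nat_lit 7) (nat_lit 5)
noncomputable def D2955 : OP := win (nat_lit 5) (nat_lit 8) (nat_lit 8) (nat_lit 0)
noncomputable def D2956 : OP := win (nat_lit 5) (nat_lit 7) (nat_lit 8) (nat_lit 3)
noncomputable def D5181 : OP := orK (nat_lit 187) (fin (add (start D2956) (orK (nat_lit 189) (fin (add (start D1638) D2955)))))
noncomputable def D6826 : OP := orK (nat_lit 188) (fin (add (add (add (start D5181) (orK (nat_lit 172) (fin (add (start D62) D5248)))) (orK (nat_lit 168) (fin (add (start D61) (orK (nat_lit 147) (fin (add (start D1885) (orK (nat_lit 167) (fin (add (start D1246) (orK (nat_lit 150) (fin (add (start D1096) (orK (nat_lit 166) (fin (add (start D5601) (orK (nat_lit 165) (fin (add (start D4265) (orK (nat_lit 144) (fin (add (start D4310) D4291)))))))))))))))))))))) (orK (nat_lit 168) (fin (add (start D61) (orK (nat_lit 148) (fin (add (start D992) (orK (nat_lit 149) (fin (add (start D1314) D1325)))))))))))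
noncomputable def D999 : OP := orK (nat_lit 193) (fin (add (start D49) D50))
noncomputable def D1006 : OP := orK (nat_lit 173) (fin (add (start D999) D54))
noncomputable def D5049 : OP := orK (nat_lit 172) (fin (add (start D5047) D1006))
noncomputable def D964 : OP := win (nat_lit 5) (nat_lit 10) (nat_lit 7) (nat_lit 0)
noncomputable def D5012 : OP := win (nat_lit 5) (nat_lit 9) (nat_lit 7) (nat_lit 3)
noncomputable def D5021 : AP := fin (add (start D5012) D964)
noncomputable def D5025 : OP := orK (nat_lit 153) D5021
noncomputable def D5026 : AP := fin (add (start D1506) D5025)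
noncomputable def D5027 : OP := orK (nat_lit 151) D5026
noncomputable def D2934 : OP := win (nat_lit 4) (nat_lit 9) (nat_lit 7) (nat_lit 3)
noncomputable def D5024 : OP := orK (nat_lit 153) (fin (add (start D2934) (orK (nat_lit 151) D5021)))
noncomputable def D3677 : OP := orK (nat_lit 192) (fin (add (start D60) (orK (nat_lit 172) (fin (add (start D59) D64)))))
noncomputable def D5029 : OP := orK (nat_lit 152) (fin (add (add (add (start (orK (nat_lit 172) (fin (add (start D125) D68)))) (orK (nat_lit 168) (fin (add (start D124) D3677)))) D5024) D5027))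
noncomputable def D4997 : OP := win (nat_lit 7) (nat_lit 10) (nat_lit 7) (nat_lit 0)
noncomputable def D4996 : OP := win (nat_lit 7) (nat_lit 10) (nat_lit 6) (nat_lit 5)
noncomputable def D4999 : OP := orK (nat_lit 150) (fin (add (start D4996) D4997))
noncomputable def D4033 : OP := win (nat_lit 1) (nat_lit 10) (nat_lit 7) (nat_lit 5)
noncomputable def D5001 : OP := orK (nat_lit 211) (fin (add (start D4033) D4999))
noncomputable def D5004 : AP := fin (add (start D542) (orK (nat_lit 191) (fin (add (start D383) D5001))))
noncomputable def D5005 : OP := orK (nat_lit 151) D5004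
noncomputable def D3366 : OP := orK (nat_lit 167) (fin (add (start D1246) D824))
noncomputable def D3368 : OP := orK (nat_lit 147) (fin (add (start D1885) D3366))
noncomputable def D4985 : OP := win (nat_lit 4) (nat_lit 7) (nat_lit 7) (nat_lit 4)
noncomputable def D4995 : OP := orK (nat_lit 151) (fin (add (start D542) (orK (nat_lit 167) (fin (add (start D4985) D824)))))
noncomputable def D4987 : OP := orK (nat_lit 151) (fin (add (start D4985) D542))
noncomputable def D4991 : OP := orK (nat_lit 147) (fin (add (start D1885) (orK (nat_lit 167) (fin (add (start D1246) D4987)))))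
noncomputable def D5011 : OP := orK (nat_lit 168) (fin (add (add (add (start D4991) D4995) D3368) (orK (nat_lit 148) (fin (add (start D992) (orK (nat_lit 188) (fin (add (start D61) D5005))))))))
noncomputable def D996 : AP := fin (add (start D995) D127)
noncomputable def D1008 : OP := orK (nat_lit 172) (fin (add (add (start (orK (nat_lit 168) D996)) (orK (nat_lit 173) (fin (add (start D999) D1002)))) D1006))
noncomputable def D2929 : OP := win (nat_lit 2) (nat_lit 7) (nat_lit 7) (nat_lit 3)
noncomputable def D2930 : AP := fin (add (start D366) D2929)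
noncomputable def D6656 : OP := win (nat_lit 7) (nat_lit 10) (nat_lit 6) (nat_lit 4)
noncomputable def D6648 : OP := win (nat_lit 7) (nat_lit 10) (nat_lit 6) (nat_lit 3)
noncomputable def D2260 : OP := win (nat_lit 6) (nat_lit 10) (nat_lit 5) (nat_lit 0)
noncomputable def D6652 : OP := orK (nat_lit 150) (fin (add (start D4997) (orK (nat_lit 130) (fin (add (start D2260) D6648)))))
noncomputable def D6706 : OP := win (nat_lit 6) (nat_lit 11) (nat_lit 8) (nat_lit 5)
noncomputable def D438 : OP := win (nat_lit 2) (nat_lit 9) (nat_lit 10) (nat_lit 0)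
noncomputable def D4651 : OP := win (nat_lit 6) (nat_lit 9) (nat_lit 7) (nat_lit 2)
noncomputable def D3507 : OP := win (nat_lit 1) (nat_lit 10) (nat_lit 8) (nat_lit 5)
noncomputable def D6634 : OP := win (nat_lit 7) (nat_lit 10) (nat_lit 7) (nat_lit 5)
noncomputable def D2991 : OP := win (nat_lit 3) (nat_lit 10) (nat_lit 9) (nat_lit 0)
noncomputable def D2993 : OP := orK (nat_lit 250) (fin (add (start (win (nat_lit 1) (nat_lit 10) (nat_lit 8) (nat_lit 3))) D2991))
noncomputable def D2989 : OP := win (nat_lit 1) (nat_lit 10) (nat_lit 7) (nat_lit 0)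
noncomputable def D6633 : OP := orK (nat_lit 230) (fin (add (start D2989) D2993))
noncomputable def D11150 : OP := orK (nat_lit 211) (fin (add (add (add (start D6633) (orK (nat_lit 231) (fin (add (start D6634) (orK (nat_lit 230) (fin (add (start D3507) (orK (nat_lit 209) (fin (add (start D4651) (orK (nat_lit 232) (fin (add (start D438) D6706))))))))))))) D6652) (orK (nat_lit 151) (fin (add (start D4033) (orK (nat_lit 130) (fin (add (start D6656) (orK (nat_lit 110) (fin (add (start (win (nat_lit 7) (nat_lit 10) (nat_lit 5) (nat_lit 3))) (orK (nat_lit 129) (fin (add (start (win (nat_lit 3) (nat_lit 9) (nat_lit 5) (nat_lit 0))) (orK (nat_lit 90) (fin (add (start (win (nat_lit 1) (nat_lit 9) (nat_lit 3) (nat_lit 0))) (win (nat_lit 3) (nat_lit 9) (nat_lit 4) (nat_lit 3)))))))))))))))))))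
noncomputable def D820 : OP := win (nat_lit 4) (nat_lit 6) (nat_lit 7) (nat_lit 0)
noncomputable def D1097 : AP := fin (add (start D820) D1096)
noncomputable def D5857 : OP := orK (nat_lit 150) D1097
noncomputable def D5030 : OP := win (nat_lit 0) (nat_lit 7) (nat_lit 7) (nat_lit 3)
noncomputable def D5031 : AP := fin (add (start D366) D5030)
noncomputable def D2931 : OP := orK (nat_lit 147) D2930
noncomputable def D2933 : OP := orK (nat_lit 148) (fin (add (start D1314) D2931))
noncomputable def D1628 : OP := win (nat_lit 3) (nat_lit 9) (nat_lit 7) (nat_lit 0)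
noncomputable def D5035 : OP := win (nat_lit 3) (nat_lit 9) (nat_lit 6) (nat_lit 5)
noncomputable def D5037 : OP := orK (nat_lit 150) (fin (add (start D5035) D1628))
noncomputable def D2962 : OP := win (nat_lit 6) (nat_lit 9) (nat_lit 7) (nat_lit 5)
noncomputable def D5039 : OP := orK (nat_lit 209) (fin (add (start D2962) D5037))
noncomputable def D2958 : OP := orK (nat_lit 187) (fin (add (start D1638) D2956))
noncomputable def D2960 : OP := orK (nat_lit 188) (fin (add (start D2955) D2958))
noncomputable def D5041 : OP := orK (nat_lit 189) (fin (add (start D2960) D5039))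
noncomputable def D5032 : OP := orK (nat_lit 147) D5031
noncomputable def D5033 : AP := fin (add (start D1314) D5032)
noncomputable def D5034 : OP := orK (nat_lit 148) D5033
noncomputable def D1564 : OP := win (nat_lit 7) (nat_lit 8) (nat_lit 5) (nat_lit 3)
noncomputable def D883 : OP := win (nat_lit 6) (nat_lit 8) (nat_lit 4) (nat_lit 0)
noncomputable def D7062 : AP := fin (add (start D883) D1564)
noncomputable def D7063 : OP := orK (nat_lit 108) D7062
noncomputable def D1523 : OP := win (nat_lit 0) (nat_lit 5) (nat_lit 6) (nat_lit 0)
noncomputable def D1525 : AP := fin (add (start D1523) (win (nat_lit 0) (nat_lit 6) (nat_lit 6) (nat_lit 3)))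
noncomputable def D1526 : OP := orK (nat_lit 126) D1525
noncomputable def D952 : OP := win (nat_lit 2) (nat_lit 7) (nat_lit 6) (nat_lit 0)
noncomputable def D1527 : AP := fin (add (start D952) D1526)
noncomputable def D1528 : OP := orK (nat_lit 127) D1527
noncomputable def D386 : OP := win (nat_lit 2) (nat_lit 7) (nat_lit 6) (nat_lit 5)
noncomputable def D1060 : OP := win (nat_lit 7) (nat_lit 10) (nat_lit 4) (nat_lit 5)
noncomputable def D1059 : OP := win (nat_lit 1) (nat_lit 10) (nat_lit 4) (nat_lit 0)
noncomputable def D1061 : AP := fin (add (start D1059) D1060)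
noncomputable def D778 : OP := win (nat_lit 4) (nat_lit 8) (nat_lit 6) (nat_lit 5)
noncomputable def D1064 : OP := orK (nat_lit 131) (fin (add (start D778) (orK (nat_lit 111) D1061)))
noncomputable def D793 : OP := win (nat_lit 2) (nat_lit 8) (nat_lit 6) (nat_lit 4)
noncomputable def D7031 : OP := win (nat_lit 1) (nat_lit 9) (nat_lit 5) (nat_lit 1)
noncomputable def D1232 : OP := win (nat_lit 1) (nat_lit 8) (nat_lit 6) (nat_lit 5)
noncomputable def D785 : OP := win (nat_lit 0) (nat_lit 6) (nat_lit 6) (nat_lit 0)
noncomputable def D1991 : OP := win (nat_lit 1) (nat_lit 9) (nat_lit 5) (nat_lit 0)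
noncomputable def D1093 : OP := win (nat_lit 6) (nat_lit 9) (nat_lit 4) (nat_lit 0)
noncomputable def D1624 : OP := orK (nat_lit 109) (fin (add (start D1094) D1093))
noncomputable def D1231 : OP := win (nat_lit 1) (nat_lit 8) (nat_lit 5) (nat_lit 4)
noncomputable def D7059 : OP := orK (nat_lit 129) (fin (add (add (start (orK (nat_lit 188) (fin (add (start D1232) (orK (nat_lit 109) (fin (add (start D1231) D1093))))))) (orK (nat_lit 110) (fin (add (start D7031) D1624)))) (orK (nat_lit 130) (fin (add (start D1991) (orK (nat_lit 127) (fin (add (start D785) (orK (nat_lit 188) (fin (add (start D1232) (orK (nat_lit 107) (fin (add (start (win (nat_lit 2) (nat_lit 6) (nat_lit 5) (nat_lit 5))) (win (nat_lit 7) (nat_lit 7) (nat_lit 5) (nat_lit 1))))))))))))))))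
noncomputable def D1430 : OP := win (nat_lit 6) (nat_lit 8) (nat_lit 5) (nat_lit 3)
noncomputable def D7029 : AP := fin (add (start D883) D1430)
noncomputable def D7030 : OP := orK (nat_lit 108) D7029
noncomputable def D7028 : OP := orK (nat_lit 209) (fin (add (start D2962) D1629))
noncomputable def D2963 : AP := fin (add (start D1633) D2962)
noncomputable def D2961 : OP := win (nat_lit 1) (nat_lit 8) (nat_lit 6) (nat_lit 0)
noncomputable def D2968 : OP := orK (nat_lit 188) (fin (add (start D2955) (orK (nat_lit 208) (fin (add (start D2961) (orK (nat_lit 209) D2963))))))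
noncomputable def D7077 : OP := orK (nat_lit 189) (fin (add (add (start D5039) (orK (nat_lit 172) (fin (add (start D45) D5250)))) D2968))
noncomputable def D7098 : OP := orK (nat_lit 149) (fin (add (add (start D7077) D2933) (orK (nat_lit 148) (fin (add (add (start D5032) (orK (nat_lit 189) (fin (add (add (start D7028) (orK (nat_lit 128) (fin (add (add (start D7030) (orK (nat_lit 150) (fin (add (add (add (start D7059) (orK (nat_lit 110) (fin (add (start D7031) (orK (nat_lit 151) (fin (add (start (orK (nat_lit 152) (fin (add (start D793) D1506)))) D1064))))))) (orK (nat_lit 151) (fin (add (start D386) D544)))) D1528)))) D7063)))) D5039)))) D2931)))))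
noncomputable def D6017 : OP := win (nat_lit 7) (nat_lit 7) (nat_lit 4) (nat_lit 5)
noncomputable def D6020 : OP := orK (nat_lit 107) (fin (add (start D6017) (win (nat_lit 7) (nat_lit 7) (nat_lit 5) (nat_lit 4))))
noncomputable def D1541 : OP := win (nat_lit 3) (nat_lit 8) (nat_lit 5) (nat_lit 4)
noncomputable def D1421 : OP := win (nat_lit 3) (nat_lit 8) (nat_lit 4) (nat_lit 5)
noncomputable def D884 : OP := win (nat_lit 6) (nat_lit 8) (nat_lit 5) (nat_lit 5)
noncomputable def D6782 : OP := orK (nat_lit 129) (fin (add (start D243) D242))
noncomputable def D6796 : OP := orK (nat_lit 128) (fin (add (add (start (orK (nat_lit 208) (fin (add (start D6782) (orK (nat_lit 209) (fin (add (start D244) D241))))))) (orK (nat_lit 108) (fin (add (start D884) D6020)))) (orK (nat_lit 108) (fin (add (start (orK (nat_lit 109) (fin (add (start D1421) D1541)))) D6020)))))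
noncomputable def D6800 : OP := orK (nat_lit 148) (fin (add (start D992) (orK (nat_lit 188) (fin (add (start D61) D6796)))))
noncomputable def D6802 : OP := orK (nat_lit 168) (fin (add (add (start D4991) D6800) D4995))
noncomputable def D4464 : OP := orK (nat_lit 128) (fin (add (start D1625) (win (nat_lit 7) (nat_lit 8) (nat_lit 6) (nat_lit 4))))
noncomputable def D1632 : OP := win (nat_lit 1) (nat_lit 8) (nat_lit 6) (nat_lit 4)
noncomputable def D5170 : AP := fin (add (start D2962) (orK (nat_lit 208) (fin (add (start D1633) (orK (nat_lit 129) (fin (add (start D1632) (orK (nat_lit 110) (fin (add (start D3006) D4464))))))))))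
noncomputable def D5171 : OP := orK (nat_lit 209) D5170
noncomputable def D5157 : OP := win (nat_lit 3) (nat_lit 9) (nat_lit 7) (nat_lit 5)
noncomputable def D3036 : OP := win (nat_lit 1) (nat_lit 8) (nat_lit 8) (nat_lit 5)
noncomputable def D5158 : AP := fin (add (start D3036) D5157)
noncomputable def D5156 : OP := win (nat_lit 1) (nat_lit 8) (nat_lit 7) (nat_lit 4)
noncomputable def D5163 : OP := orK (nat_lit 209) (fin (add (start D2962) (orK (nat_lit 228) (fin (add (start D5156) (orK (nat_lit 229) D5158))))))
noncomputable def D4475 : OP := orK (nat_lit 88) (fin (add (start D4472) (win (nat_lit 7) (nat_lit 8) (nat_lit 4) (nat_lit 4))))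
noncomputable def D5119 : OP := win (nat_lit 3) (nat_lit 9) (nat_lit 5) (nat_lit 5)
noncomputable def D1247 : OP := win (nat_lit 0) (nat_lit 7) (nat_lit 7) (nat_lit 1)
noncomputable def D784 : OP := win (nat_lit 2) (nat_lit 8) (nat_lit 6) (nat_lit 0)
noncomputable def D5058 : OP := win (nat_lit 0) (nat_lit 7) (nat_lit 6) (nat_lit 3)
noncomputable def D5063 : OP := win (nat_lit 4) (nat_lit 8) (nat_lit 5) (nat_lit 2)
noncomputable def D3371 : OP := win (nat_lit 3) (nat_lit 11) (nat_lit 4) (nat_lit 5)
noncomputable def D5173 : OP := orK (nat_lit 189) (fin (add (add (add (start D5039) (orK (nat_lit 129) (fin (add (add (add (add (start D3010) (orK (nat_lit 188) (fin (add (start D1232) (orK (nat_lit 128) (fin (add (start D1625) (orK (nat_lit 150) (fin (add (add (add (start (orK (nat_lit 148) (fin (add (start D379) (orK (nat_lit 151) (fin (add (start D784) (orK (nat_lit 131) (fin (add (start D778) (orK (nat_lit 111) (fin (add (start D1059) (orK (nat_lit 112) (fin (add (start D3371) D5063)))))))))))))))) (orK (nat_lit 127) (fin (add (start D785) (orK (nat_lit 148) (fin (add (start D379)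 D952))))))) (orK (nat_lit 127) (fin (add (start D785) (orK (nat_lit 151) (fin (add (start D5058) D784))))))) (orK (nat_lit 147) (fin (add (start D1247) (orK (nat_lit 127) (fin (add (start D785) (orK (nat_lit 146) (fin (add (start (win (nat_lit 5) (nat_lit 6) (nat_lit 6) (nat_lit 0))) (orK (nat_lit 186) (fin (add (start (win (nat_lit 4) (nat_lit 6) (nat_lit 8) (nat_lit 1))) (orK (nat_lit 166) (fin (add (start (win (nat_lit 3) (nat_lit 6) (nat_lit 6) (nat_lit 0))) (orK (nat_lit 107) (fin (add (start (win (nat_lit 1) (nat_lit 6) (nat_lit 4) (nat_lit 0))) (win (nat_lit 1) (nat_lit 6) (nat_lit 5) (nat_lit 3)))))))))))))))))))))))))))))) (orK (nat_lit 188) (fin (add (start D1232) (orK (nat_lit 187) (fin (add (start D1638) (orK (nat_lit 148) (fin (add (add (start D5032) (orK (nat_lit 110) (fin (add (start D3006) (orK (nat_lit 109) (fin (add (start D1094) (orK (nat_lit 89) (fin (add (start D5105) (orK (nat_lit 69) (fin (add (start (win (nat_lit 1) (nat_lit 8) (nat_lit 3) (nat_lit 4))) (orK (nat_lit 68) (fin (add (start (win (nat_lit 7) (nat_lit 8) (nat_lit 2) (nat_lit 5))) (win (nat_lit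 7) (nat_lit 8) (nat_lit 3) (nat_lit 4)))))))))))))))))) (orK (nat_lit 147) (fin (add (start D366) (orK (nat_lit 130) (fin (add (start D5119) (orK (nat_lit 131) (fin (add (start (win (nat_lit 5) (nat_lit 7) (nat_lit 6) (nat_lit 3))) (win (nat_lit 5) (nat_lit 8) (nat_lit 6) (nat_lit 0))))))))))))))))))))) (orK (nat_lit 188) (fin (add (start D1232) (orK (nat_lit 110) (fin (add (start D3006) (orK (nat_lit 109) (fin (add (start D1094) (orK (nat_lit 89) (fin (add (start D5105) D4475))))))))))))) (orK (nat_lit 188) (fin (add (start D1232) D5151))))))) D5163) D5171))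
noncomputable def D3419 : OP := orK (nat_lit 152) (fin (add (start D124) (orK (nat_lit 172) (fin (add (start D125) D64)))))
noncomputable def D3415 : OP := orK (nat_lit 148) (fin (add (start D992) (orK (nat_lit 172) (fin (add (start D993) D127)))))
noncomputable def D3420 : AP := fin (add (add (start D3415) D3368) D3419)
noncomputable def D3421 : OP := orK (nat_lit 168) D3420
noncomputable def D2391 : OP := orK (nat_lit 147) (fin (add (start D1246) D1885))
noncomputable def D6768 : OP := orK (nat_lit 167) (fin (add (start D2391) D824))
noncomputable def D6763 : AP := fin (add (start D2391) D4987)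
noncomputable def D6764 : OP := orK (nat_lit 167) D6763
noncomputable def D11250 : OP := orK (nat_lit 168) (fin (add (add (start D6764) (orK (nat_lit 172) D5044)) D6768))
noncomputable def D7035 : OP := orK (nat_lit 211) (fin (add (start D4033) D4997))
noncomputable def D7332 : OP := win (nat_lit 6) (nat_lit 10) (nat_lit 5) (nat_lit 1)
noncomputable def D6742 : OP := win (nat_lit 5) (nat_lit 9) (nat_lit 6) (nat_lit 3)
noncomputable def D1778 : OP := win (nat_lit 4) (nat_lit 8) (nat_lit 6) (nat_lit 0)
noncomputable def D6654 : OP := win (nat_lit 3) (nat_lit 11) (nat_lit 5) (nat_lit 5)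
noncomputable def D3370 : OP := win (nat_lit 3) (nat_lit 11) (nat_lit 5) (nat_lit 4)
noncomputable def D8611 : OP := orK (nat_lit 112) (fin (add (start D3371) D3370))
noncomputable def D3797 : OP := orK (nat_lit 146) (fin (add (start D1874) (orK (nat_lit 166) (fin (add (start D1873) D1882)))))
noncomputable def D4638 : OP := win (nat_lit 4) (nat_lit 5) (nat_lit 7) (nat_lit 4)
noncomputable def D4264 : OP := win (nat_lit 2) (nat_lit 4) (nat_lit 7) (nat_lit 5)
noncomputable def D4263 : OP := win (nat_lit 2) (nat_lit 5) (nat_lit 7) (nat_lit 4)
noncomputable def D9923 : OP := orK (nat_lit 145) (fin (add (start D4263) (orK (nat_lit 165) (fin (add (start D4264) (orK (nat_lit 149) (fin (add (start D4638) D5901))))))))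
noncomputable def D9933 : OP := orK (nat_lit 186) (fin (add (start D1880) (orK (nat_lit 166) (fin (add (start D1879) D9923)))))
noncomputable def D922 : OP := win (nat_lit 4) (nat_lit 5) (nat_lit 7) (nat_lit 0)
noncomputable def D7983 : OP := orK (nat_lit 167) (fin (add (start D4985) D3797))
noncomputable def D11228 : OP := orK (nat_lit 168) (fin (add (add (add (start D3415) (orK (nat_lit 151) (fin (add (start D542) D7983)))) (orK (nat_lit 167) (fin (add (add (add (start D2391) (orK (nat_lit 186) (fin (add (start D1880) (orK (nat_lit 166) (fin (add (start D1879) (orK (nat_lit 148) (fin (add (start D992) (orK (nat_lit 149) (fin (add (start D922) D5901))))))))))))) D9933) D3797)))) (orK (nat_lit 151) (fin (add (start D542) (orK (nat_lit 150) (fin (add (start D322) (orK (nat_lit 191) (fin (add (start (orK (nat_lit 131) (fin (add (add (start (orK (nat_lit 111) (fin (add (start D1059) D8611)))) (orK (nat_lit 132) (fin (add (start D6654) (orK (nat_lit 149) (fin (add (start D1778) (orK (nat_lit 133) (fin (add (start D6742) (win (nat_lit 5) (nat_lit 10) (nat_lit 6) (nat_lit 0))))))))))))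 (orK (nat_lit 111) (fin (add (start D1059) (orK (nat_lit 110) (fin (add (start D7332) D1060)))))))))) D7035)))))))))))
noncomputable def D5286 : AP := fin (add (start D1628) (orK (nat_lit 130) (fin (add (start D1991) (win (nat_lit 3) (nat_lit 9) (nat_lit 6) (nat_lit 3))))))
noncomputable def D5287 : OP := orK (nat_lit 150) D5286
noncomputable def D3031 : OP := win (nat_lit 6) (nat_lit 9) (nat_lit 8) (nat_lit 3)
noncomputable def D3032 : AP := fin (add (start D3031) D2332)
noncomputable def D3033 : OP := orK (nat_lit 250) D3032
noncomputable def D3030 : OP := win (nat_lit 6) (nat_lit 9) (nat_lit 7) (nat_lit 0)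
noncomputable def D3034 : AP := fin (add (start D3030) D3033)
noncomputable def D4453 : OP := orK (nat_lit 230) D3034
noncomputable def D3945 : OP := win (nat_lit 6) (nat_lit 9) (nat_lit 8) (nat_lit 5)
noncomputable def D4459 : OP := orK (nat_lit 228) (fin (add (start D3036) (orK (nat_lit 227) (fin (add (start D2136) (orK (nat_lit 230) (fin (add (start D456) D3945))))))))
noncomputable def D5282 : OP := orK (nat_lit 229) (fin (add (start D5157) D4459))
noncomputable def D812 : OP := win (nat_lit 2) (nat_lit 9) (nat_lit 7) (nat_lit 0)
noncomputable def D5272 : OP := win (nat_lit 3) (nat_lit 9) (nat_lit 6) (nat_lit 4)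
noncomputable def D5274 : OP := orK (nat_lit 130) (fin (add (start D5119) D5272))
noncomputable def D5276 : OP := orK (nat_lit 129) (fin (add (start D1632) D5274))
noncomputable def D5277 : AP := fin (add (start D1633) D5276)
noncomputable def D5278 : OP := orK (nat_lit 208) D5277
noncomputable def D5279 : AP := fin (add (start D2962) D5278)
noncomputable def D5280 : OP := orK (nat_lit 149) D5279
noncomputable def D5288 : AP := fin (add (add (add (start D5280) D5282) D4453) D5287)
noncomputable def D4921 : AP := fin (add (start D2136) D209)
noncomputable def D7164 : OP := orK (nat_lit 227) D4921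
noncomputable def D3264 : OP := win (nat_lit 1) (nat_lit 8) (nat_lit 7) (nat_lit 0)
noncomputable def D7122 : OP := win (nat_lit 7) (nat_lit 8) (nat_lit 9) (nat_lit 4)
noncomputable def D7132 : OP := win (nat_lit 6) (nat_lit 9) (nat_lit 10) (nat_lit 5)
noncomputable def D5537 : OP := win (nat_lit 6) (nat_lit 9) (nat_lit 9) (nat_lit 4)
noncomputable def D7136 : OP := orK (nat_lit 270) (fin (add (start D5537) (orK (nat_lit 269) (fin (add (start D7132) D7122)))))
noncomputable def D7157 : OP := win (nat_lit 7) (nat_lit 8) (nat_lit 8) (nat_lit 5)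
noncomputable def D5536 : OP := win (nat_lit 1) (nat_lit 8) (nat_lit 9) (nat_lit 5)
noncomputable def D5535 : OP := win (nat_lit 1) (nat_lit 8) (nat_lit 8) (nat_lit 4)
noncomputable def D7125 : OP := win (nat_lit 3) (nat_lit 9) (nat_lit 10) (nat_lit 4)
noncomputable def D7148 : OP := orK (nat_lit 289) (fin (add (start D7125) (orK (nat_lit 290) (fin (add (start (win (nat_lit 6) (nat_lit 9) (nat_lit 10) (nat_lit 4))) (win (nat_lit 6) (nat_lit 9) (nat_lit 11) (nat_lit 5)))))))
noncomputable def D7124 : OP := win (nat_lit 1) (nat_lit 8) (nat_lit 11) (nat_lit 5)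
noncomputable def D7123 : OP := win (nat_lit 1) (nat_lit 8) (nat_lit 10) (nat_lit 4)
noncomputable def D5292 : OP := win (nat_lit 6) (nat_lit 9) (nat_lit 9) (nat_lit 5)
noncomputable def D5291 : OP := win (nat_lit 6) (nat_lit 9) (nat_lit 8) (nat_lit 4)
noncomputable def D7105 : OP := orK (nat_lit 250) (fin (add (start D5291) D5292))
noncomputable def D3993 : OP := win (nat_lit 3) (nat_lit 7) (nat_lit 9) (nat_lit 0)
noncomputable def D2869 : OP := win (nat_lit 0) (nat_lit 7) (nat_lit 10) (nat_lit 5)
noncomputable def D5405 : OP := win (nat_lit 2) (nat_lit 6) (nat_lit 10) (nat_lit 5)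
noncomputable def D5203 : AP := fin (add (start D2961) D1633)
noncomputable def D7195 : OP := orK (nat_lit 152) (fin (add (add (add (start (orK (nat_lit 168) (fin (add (start D124) (orK (nat_lit 188) (fin (add (start D61) (orK (nat_lit 189) (fin (add (start D2955) (orK (nat_lit 209) (fin (add (add (add (start (orK (nat_lit 149) (fin (add (start D2962) (orK (nat_lit 208) D5203))))) D4453) (orK (nat_lit 229) (fin (add (add (add (add (start (orK (nat_lit 248) (fin (add (start D5535) (orK (nat_lit 249) (fin (add (start D5536) D7105))))))) (orK (nat_lit 228) (fin (add (start D3036) (orK (nat_lit 230) (fin (add (start D3945) (orK (nat_lit 227) (fin (add (start D2136) (orK (nat_lit 207) (fin (add (start D5405) (orK (nat_lit 208) (fin (add (start D2869) (orK (nat_lit 247) (fin (add (start D3993) D457))))))))))))))))))) (orK (nat_lit 249) (fin (add (add (start D7105) (orK (nat_lit 269) (fin (add (start D7122) (orK (nat_lit 288) (fin (add (start D7123) (orK (nat_lit 289) (fin (add (start D7124) D7125)))))))))) D7136)))) (orK (nat_lit 248) (fin (add (start D5535) (orK (nat_lit 249) (fin (add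 (start D5536) D7136))))))) (orK (nat_lit 248) (fin (add (start D5535) (orK (nat_lit 249) (fin (add (start D5536) (orK (nat_lit 269) (fin (add (start D7122) D7148))))))))))))) (orK (nat_lit 229) (fin (add (add (start (orK (nat_lit 248) (fin (add (start D5535) (orK (nat_lit 249) (fin (add (start D5536) D7157))))))) (orK (nat_lit 249) (fin (add (start D7157) D7136)))) (orK (nat_lit 228) (fin (add (start D3036) (orK (nat_lit 208) (fin (add (start D3264) D7164)))))))))))))))))))))) (orK (nat_lit 189) (fin (add (add (start (orK (nat_lit 172) (fin (add (start D125) D45)))) (orK (nat_lit 188) (fin (add (start D2958) (orK (nat_lit 209) D5288))))) (orK (nat_lit 209) (fin (add (add (add (start (orK (nat_lit 149) (fin (add (start D2962) (orK (nat_lit 150) (fin (add (start D5035) (orK (nat_lit 172) (fin (add (start D812) D125)))))))))) D5282) D4453) D5287))))))) D5024) D5027))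
noncomputable def D11249 : OP := orK (nat_lit 149) (fin (add (add (add (start D5034) D5041) D2933) (orK (nat_lit 148) (fin (add (add (start D5032) (orK (nat_lit 189) (fin (add (add (start D7028) (orK (nat_lit 188) (fin (add (start D2958) (orK (nat_lit 129) (fin (add (start D1232) (orK (nat_lit 110) (fin (add (start D3006) (orK (nat_lit 109) (fin (add (start D1094) (orK (nat_lit 89) (fin (add (start D5105) (orK (nat_lit 128) (fin (add (start (win (nat_lit 1) (nat_lit 8) (nat_lit 3) (nat_lit 0))) D1625))))))))))))))))))) D5039)))) D2931)))))
noncomputable def D2942 : OP := orK (nat_lit 172) (fin (add (start D120) D58))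
noncomputable def D1931 : OP := win (nat_lit 2) (nat_lit 10) (nat_lit 7) (nat_lit 0)
noncomputable def D1930 : OP := win (nat_lit 2) (nat_lit 9) (nat_lit 7) (nat_lit 5)
noncomputable def D6873 : OP := orK (nat_lit 154) (fin (add (start D112) D113))
noncomputable def D6871 : OP := win (nat_lit 2) (nat_lit 10) (nat_lit 7) (nat_lit 4)
noncomputable def D6881 : OP := orK (nat_lit 193) (fin (add (start D49) (orK (nat_lit 173) (fin (add (start D50) (orK (nat_lit 150) (fin (add (start D1930) (orK (nat_lit 174) (fin (add (start D6871) D6873)))))))))))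
noncomputable def D6891 : OP := orK (nat_lit 172) (fin (add (add (add (start D58) (orK (nat_lit 152) (fin (add (start D125) (orK (nat_lit 168) (fin (add (start D124) D64))))))) D6881) (orK (nat_lit 193) (fin (add (start D49) (orK (nat_lit 173) (fin (add (start D50) (orK (nat_lit 150) (fin (add (start D1930) (orK (nat_lit 151) (fin (add (start D1931) D544))))))))))))))
noncomputable def D2414 : OP := win (nat_lit 7) (nat_lit 11) (nat_lit 5) (nat_lit 4)
noncomputable def D2413 : OP := win (nat_lit 7) (nat_lit 11) (nat_lit 4) (nat_lit 5)
noncomputable def D2416 : OP := orK (nat_lit 111) (fin (add (start D2413) D2414))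
noncomputable def D6737 : OP := win (nat_lit 1) (nat_lit 11) (nat_lit 5) (nat_lit 4)
noncomputable def D1493 : OP := win (nat_lit 1) (nat_lit 11) (nat_lit 6) (nat_lit 5)
noncomputable def D846 : OP := win (nat_lit 4) (nat_lit 9) (nat_lit 6) (nat_lit 2)
noncomputable def D847 : OP := win (nat_lit 3) (nat_lit 12) (nat_lit 5) (nat_lit 5)
noncomputable def D6748 : OP := orK (nat_lit 133) (fin (add (start D847) (orK (nat_lit 150) (fin (add (start D846) (orK (nat_lit 131) (fin (add (start D6742) D2404))))))))
noncomputable def D2410 : OP := win (nat_lit 3) (nat_lit 12) (nat_lit 5) (nat_lit 4)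
noncomputable def D2409 : OP := win (nat_lit 3) (nat_lit 12) (nat_lit 4) (nat_lit 5)
noncomputable def D2412 : OP := orK (nat_lit 113) (fin (add (start D2409) D2410))
noncomputable def D6762 : OP := orK (nat_lit 172) (fin (add (add (add (start D5248) D58) D5252) (orK (nat_lit 152) (fin (add (start D125) (orK (nat_lit 192) (fin (add (start D59) (orK (nat_lit 149) (fin (add (start D120) (orK (nat_lit 132) (fin (add (add (start (orK (nat_lit 191) (fin (add (start D1493) (orK (nat_lit 112) (fin (add (start D6737) D2412))))))) D6748) (orK (nat_lit 191) (fin (add (start D1493) (orK (nat_lit 112) (fin (add (start D6737) D2416))))))))))))))))))))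
noncomputable def D7067 : OP := orK (nat_lit 209) (fin (add (start D1629) D5037))
noncomputable def D7040 : AP := fin (add (start D7031) (orK (nat_lit 151) (fin (add (start D1064) (orK (nat_lit 191) (fin (add (start (orK (nat_lit 168) (fin (add (start D383) D322)))) D7035)))))))
noncomputable def D1403 : OP := win (nat_lit 5) (nat_lit 6) (nat_lit 5) (nat_lit 4)
noncomputable def D1406 : OP := win (nat_lit 5) (nat_lit 5) (nat_lit 5) (nat_lit 5)
noncomputable def D1472 : OP := orK (nat_lit 126) (fin (add (start D1406) D1403))
noncomputable def D1404 : OP := win (nat_lit 2) (nat_lit 6) (nat_lit 4) (nat_lit 4)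
noncomputable def D1405 : OP := win (nat_lit 2) (nat_lit 5) (nat_lit 4) (nat_lit 5)
noncomputable def D1464 : OP := orK (nat_lit 86) (fin (add (start D1405) D1404))
noncomputable def D1476 : OP := orK (nat_lit 106) (fin (add (start D1464) D1472))
noncomputable def D1297 : OP := win (nat_lit 4) (nat_lit 7) (nat_lit 4) (nat_lit 5)
noncomputable def D1467 : OP := orK (nat_lit 90) (fin (add (start (win (nat_lit 4) (nat_lit 6) (nat_lit 4) (nat_lit 4))) D1297))
noncomputable def D1105 : OP := win (nat_lit 4) (nat_lit 8) (nat_lit 4) (nat_lit 5)
noncomputable def D1129 : OP := win (nat_lit 4) (nat_lit 7) (nat_lit 4) (nat_lit 4)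
noncomputable def D1131 : OP := orK (nat_lit 91) (fin (add (start D1129) D1105))
noncomputable def D688 : OP := win (nat_lit 2) (nat_lit 7) (nat_lit 4) (nat_lit 4)
noncomputable def D687 : OP := win (nat_lit 2) (nat_lit 6) (nat_lit 4) (nat_lit 5)
noncomputable def D690 : OP := orK (nat_lit 87) (fin (add (start D687) D688))
noncomputable def D1132 : AP := fin (add (start D690) D1131)
noncomputable def D1470 : OP := orK (nat_lit 111) D1132
noncomputable def D1478 : OP := orK (nat_lit 107) (fin (add (add (start D1470) (orK (nat_lit 106) (fin (add (start D1467) D1472)))) D1476))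
noncomputable def D1382 : OP := win (nat_lit 0) (nat_lit 5) (nat_lit 4) (nat_lit 0)
noncomputable def D1381 : OP := win (nat_lit 2) (nat_lit 7) (nat_lit 4) (nat_lit 0)
noncomputable def D9982 : OP := win (nat_lit 1) (nat_lit 9) (nat_lit 5) (nat_lit 2)
noncomputable def D2984 : OP := win (nat_lit 2) (nat_lit 10) (nat_lit 8) (nat_lit 0)
noncomputable def D2983 : OP := win (nat_lit 0) (nat_lit 9) (nat_lit 8) (nat_lit 3)
noncomputable def D2986 : OP := orK (nat_lit 193) (fin (add (start D2983) D2984))
noncomputable def D2987 : AP := fin (add (start D1492) D2986)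
noncomputable def D2988 : OP := orK (nat_lit 192) D2987
noncomputable def D1941 : OP := orK (nat_lit 192) (fin (add (start D59) (orK (nat_lit 168) (fin (add (start D60) D995)))))
noncomputable def D6678 : OP := orK (nat_lit 172) (fin (add (add (start D1941) D58) D5252))
noncomputable def D2855 : OP := win (nat_lit 5) (nat_lit 6) (nat_lit 10) (nat_lit 3)
noncomputable def D3315 : AP := fin (add (start D2076) D2855)
noncomputable def D3318 : OP := orK (nat_lit 227) (fin (add (start D209) (orK (nat_lit 226) D3315)))
noncomputable def D4655 : OP := orK (nat_lit 228) (fin (add (start D392) D3318))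
noncomputable def D3160 : OP := win (nat_lit 0) (nat_lit 8) (nat_lit 10) (nat_lit 3)
noncomputable def D3183 : AP := fin (add (start D3160) D438)
noncomputable def D3253 : OP := orK (nat_lit 232) D3183
noncomputable def D3254 : AP := fin (add (start D2482) D3253)
noncomputable def D3255 : OP := orK (nat_lit 231) D3254
noncomputable def D4653 : OP := orK (nat_lit 230) (fin (add (start D4651) D3255))
noncomputable def D432 : OP := win (nat_lit 7) (nat_lit 10) (nat_lit 10) (nat_lit 0)
noncomputable def D4507 : OP := win (nat_lit 6) (nat_lit 11) (nat_lit 10) (nat_lit 5)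
noncomputable def D4505 : OP := win (nat_lit 6) (nat_lit 11) (nat_lit 9) (nat_lit 4)
noncomputable def D4617 : OP := orK (nat_lit 272) (fin (add (start D4505) (orK (nat_lit 271) (fin (add (start D4507) D432)))))
noncomputable def D4596 : OP := win (nat_lit 1) (nat_lit 10) (nat_lit 10) (nat_lit 5)
noncomputable def D4595 : OP := win (nat_lit 1) (nat_lit 10) (nat_lit 9) (nat_lit 4)
noncomputable def D4504 : OP := win (nat_lit 1) (nat_lit 10) (nat_lit 9) (nat_lit 5)
noncomputable def D4503 : OP := win (nat_lit 1) (nat_lit 10) (nat_lit 8) (nat_lit 4)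
noncomputable def D196 : OP := win (nat_lit 0) (nat_lit 8) (nat_lit 10) (nat_lit 5)
noncomputable def D2859 : OP := win (nat_lit 0) (nat_lit 7) (nat_lit 10) (nat_lit 4)
noncomputable def D4592 : OP := orK (nat_lit 231) (fin (add (start D196) (orK (nat_lit 207) (fin (add (start D2859) D725)))))
noncomputable def D4574 : OP := win (nat_lit 6) (nat_lit 6) (nat_lit 7) (nat_lit 3)
noncomputable def D4546 : OP := win (nat_lit 6) (nat_lit 7) (nat_lit 7) (nat_lit 3)
noncomputable def D4627 : OP := orK (nat_lit 211) (fin (add (add (start (orK (nat_lit 167) (fin (add (add (add (add (start D3797) (orK (nat_lit 187) (fin (add (start D821) (orK (nat_lit 147) (fin (add (start D1246) (orK (nat_lit 228) (fin (add (start D396) D4546)))))))))) (orK (nat_lit 191) (fin (add (start D383) (orK (nat_lit 186) (fin (add (start D1880) (orK (nat_lit 185) (fin (add (start (win (nat_lit 5) (nat_lit 5) (nat_lit 8) (nat_lit 3))) (orK (nat_lit 207) (fin (add (start (win (nat_lit 2) (nat_lit 5) (nat_lit 9) (nat_lit 3))) D725))))))))))))) (orK (nat_lit 191) (fin (add (start D383) (orK (nat_lit 146) (fin (add (start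 D1874) (orK (nat_lit 227) (fin (add (start D723) (orK (nat_lit 166) (fin (add (start D1873) (orK (nat_lit 207) (fin (add (start D722) (win (nat_lit 7) (nat_lit 6) (nat_lit 7) (nat_lit 2)))))))))))))))))) (orK (nat_lit 191) (fin (add (start D383) (orK (nat_lit 146) (fin (add (start D1874) (orK (nat_lit 166) (fin (add (start D1873) (orK (nat_lit 227) (fin (add (start D723) (orK (nat_lit 186) (fin (add (start D1879) (orK (nat_lit 207) (fin (add (start D722) D4574)))))))))))))))))))))) D4592) (orK (nat_lit 191) (fin (add (start D514) (orK (nat_lit 231) (fin (add (start D196) (orK (nat_lit 251) (fin (add (add (add (start (orK (nat_lit 250) (fin (add (start D4503) D4504)))) (orK (nat_lit 270) (fin (add (start D4595) (orK (nat_lit 271) (fin (add (start D4596) (orK (nat_lit 272) (fin (add (start D4505) D4507)))))))))) (orK (nat_lit 272) (fin (add (start D4505) (orK (nat_lit 271) (fin (add (start D4507) (orK (nat_lit 290) (fin (add (start (win (nat_lit 1) (nat_lit 10) (nat_lit 10) (nat_lit 4))) (orK (nat_lit 291) (fin (add (start (win (nat_lit 1) (nat_lit 10) (nat_lit 11) (nat_lit 5))) (win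 (nat_lit 7) (nat_lit 10) (nat_lit 10) (nat_lit 4))))))))))))))) (orK (nat_lit 230) (fin (add (start D3507) D4617))))))))))))))
noncomputable def D4650 : OP := orK (nat_lit 189) D2963
noncomputable def D933 : OP := win (nat_lit 1) (nat_lit 8) (nat_lit 4) (nat_lit 0)
noncomputable def D4484 : AP := fin (add (start D2962) (orK (nat_lit 129) (fin (add (add (add (start D4464) (orK (nat_lit 110) (fin (add (start D3006) (orK (nat_lit 109) (fin (add (start D1094) (orK (nat_lit 148) (fin (add (start D933) D1629)))))))))) (orK (nat_lit 110) (fin (add (start D3006) (orK (nat_lit 109) (fin (add (start D1094) (orK (nat_lit 89) (fin (add (start (win (nat_lit 1) (nat_lit 8) (nat_lit 4) (nat_lit 4))) D4475)))))))))) D3010))))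
noncomputable def D3577 : OP := win (nat_lit 1) (nat_lit 8) (nat_lit 8) (nat_lit 3)
noncomputable def D4497 : AP := fin (add (start D3577) D735)
noncomputable def D4499 : AP := fin (add (start D3264) (orK (nat_lit 248) D4497))
noncomputable def D4537 : OP := orK (nat_lit 228) D4499
noncomputable def D2872 : OP := orK (nat_lit 186) (fin (add (start D2043) D2042))
noncomputable def D4492 : OP := orK (nat_lit 206) (fin (add (start D2872) D2052))
noncomputable def D4534 : OP := orK (nat_lit 230) (fin (add (start D2869) D3033))
noncomputable def D4528 : OP := orK (nat_lit 149) D2963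
noncomputable def D4500 : OP := orK (nat_lit 189) D4499
noncomputable def D4502 : OP := orK (nat_lit 228) (fin (add (start D4500) D3318))
noncomputable def D3035 : OP := orK (nat_lit 189) D3034
noncomputable def D4496 : OP := orK (nat_lit 230) (fin (add (start D3035) D3255))
noncomputable def D3694 : OP := win (nat_lit 7) (nat_lit 8) (nat_lit 6) (nat_lit 3)
noncomputable def D1809 : OP := win (nat_lit 6) (nat_lit 8) (nat_lit 5) (nat_lit 0)
noncomputable def D4329 : AP := fin (add (start D3699) (orK (nat_lit 128) (fin (add (start D1809) D3694))))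
noncomputable def D3039 : OP := win (nat_lit 7) (nat_lit 8) (nat_lit 7) (nat_lit 5)
noncomputable def D4213 : OP := win (nat_lit 1) (nat_lit 6) (nat_lit 7) (nat_lit 5)
noncomputable def D2870 : OP := win (nat_lit 0) (nat_lit 6) (nat_lit 10) (nat_lit 4)
noncomputable def D4126 : OP := win (nat_lit 6) (nat_lit 7) (nat_lit 7) (nat_lit 5)
noncomputable def D4439 : AP := fin (add (start D4126) (orK (nat_lit 230) (fin (add (start D2869) (orK (nat_lit 206) (fin (add (start D2870) D4213)))))))
noncomputable def D4377 : OP := win (nat_lit 6) (nat_lit 6) (nat_lit 7) (nat_lit 5)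
noncomputable def D4376 : OP := win (nat_lit 3) (nat_lit 6) (nat_lit 6) (nat_lit 5)
noncomputable def D4379 : OP := orK (nat_lit 166) (fin (add (start D4376) D4377))
noncomputable def D3813 : OP := win (nat_lit 2) (nat_lit 6) (nat_lit 7) (nat_lit 3)
noncomputable def D4389 : OP := orK (nat_lit 146) (fin (add (start D3813) (orK (nat_lit 230) (fin (add (start D2869) (orK (nat_lit 206) (fin (add (start D2870) (orK (nat_lit 191) (fin (add (start D383) (orK (nat_lit 186) (fin (add (start D2043) D4379))))))))))))))
noncomputable def D4355 : OP := orK (nat_lit 228) (fin (add (start D396) (win (nat_lit 6) (nat_lit 7) (nat_lit 7) (nat_lit 2))))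
noncomputable def D2874 : OP := orK (nat_lit 206) (fin (add (start D2870) D2872))
noncomputable def D2875 : AP := fin (add (start D2869) D2874)
noncomputable def D2876 : OP := orK (nat_lit 230) D2875
noncomputable def D3169 : OP := win (nat_lit 6) (nat_lit 7) (nat_lit 8) (nat_lit 5)
noncomputable def D4133 : OP := win (nat_lit 1) (nat_lit 6) (nat_lit 8) (nat_lit 5)
noncomputable def D4132 : OP := win (nat_lit 1) (nat_lit 6) (nat_lit 7) (nat_lit 4)
noncomputable def D4400 : OP := win (nat_lit 6) (nat_lit 7) (nat_lit 7) (nat_lit 4)
noncomputable def D3589 : OP := win (nat_lit 5) (nat_lit 5) (nat_lit 10) (nat_lit 4)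
noncomputable def D3588 : OP := win (nat_lit 5) (nat_lit 4) (nat_lit 10) (nat_lit 5)
noncomputable def D3591 : OP := orK (nat_lit 225) (fin (add (start D3588) D3589))
noncomputable def D3951 : OP := win (nat_lit 2) (nat_lit 4) (nat_lit 9) (nat_lit 5)
noncomputable def D3950 : OP := win (nat_lit 2) (nat_lit 5) (nat_lit 9) (nat_lit 4)
noncomputable def D4393 : OP := orK (nat_lit 185) (fin (add (start D3950) (orK (nat_lit 205) (fin (add (start D3951) D3591)))))
noncomputable def D4397 : OP := orK (nat_lit 230) (fin (add (start D2869) (orK (nat_lit 206) (fin (add (start D2870) D4393)))))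
noncomputable def D4365 : OP := win (nat_lit 3) (nat_lit 6) (nat_lit 7) (nat_lit 3)
noncomputable def D4160 : OP := orK (nat_lit 231) (fin (add (start D2859) (orK (nat_lit 211) (fin (add (start D196) D725)))))
noncomputable def D4344 : OP := win (nat_lit 1) (nat_lit 6) (nat_lit 7) (nat_lit 2)
noncomputable def D4345 : AP := fin (add (start D4344) D2049)
noncomputable def D4350 : OP := orK (nat_lit 231) (fin (add (start D2859) D196))
noncomputable def D4352 : OP := orK (nat_lit 211) (fin (add (start D4350) D725))
noncomputable def D4003 : OP := orK (nat_lit 230) (fin (add (start D2870) D2869))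
noncomputable def D3261 : OP := orK (nat_lit 186) (fin (add (start D2042) (orK (nat_lit 206) (fin (add (start D2043) D2052)))))
noncomputable def D4334 : AP := fin (add (start D4133) (win (nat_lit 5) (nat_lit 6) (nat_lit 10) (nat_lit 2)))
noncomputable def D4337 : OP := orK (nat_lit 226) (fin (add (start D4132) (orK (nat_lit 227) D4334)))
noncomputable def D4660 : AP := fin (add (add (add (add (start (orK (nat_lit 148) (fin (add (start D992) (orK (nat_lit 189) D4329))))) (orK (nat_lit 147) (fin (add (start D1885) (orK (nat_lit 207) (fin (add (add (add (add (add (add (add (start (orK (nat_lit 167) (fin (add (start D1246) (orK (nat_lit 187) (fin (add (start D821) D4337))))))) (orK (nat_lit 208) (fin (add (add (start D2876) D4160) D3261)))) (orK (nat_lit 167) (fin (add (start D1246) (orK (nat_lit 208) (fin (add (add (add (start (orK (nat_lit 206) (fin (add (start D4003) (orK (nat_lit 226) D4345))))) D4352) (orK (nat_lit 211) (fin (add (start D4350) D4355)))) (orK (nat_lit 226) (fin (add (start D2050) (orK (nat_lit 206) D4345))))))))))) (orK (nat_lit 208) (fin (add (add (add (start D4160)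 (orK (nat_lit 191) (fin (add (start D383) (orK (nat_lit 226) (fin (add (start D2050) (orK (nat_lit 206) (fin (add (start D2049) (orK (nat_lit 186) (fin (add (start D2043) (orK (nat_lit 167) (fin (add (start D1246) D4365)))))))))))))))) D4389) D4397)))) (orK (nat_lit 167) (fin (add (start D1246) (orK (nat_lit 187) (fin (add (start D821) (orK (nat_lit 228) (fin (add (start D4400) (orK (nat_lit 227) (fin (add (start D3169) (orK (nat_lit 226) (fin (add (start D4133) D2077)))))))))))))))) (orK (nat_lit 167) (fin (add (start D1246) (orK (nat_lit 187) (fin (add (start D821) (orK (nat_lit 226) (fin (add (start D4132) (orK (nat_lit 227) (fin (add (start D4133) (orK (nat_lit 228) (fin (add (start D2077) D3169)))))))))))))))) (orK (nat_lit 208) (fin (add (add (add (start (orK (nat_lit 167) (fin (add (start D1246) (orK (nat_lit 187) (fin (add (start D721) D4126))))))) D2876) (orK (nat_lit 231) (fin (add (start D2859) (orK (nat_lit 191) (fin (add (start D383) (orK (nat_lit 211) (fin (add (start D196) (orK (nat_lit 167) (fin (add (start D1246) D4355))))))))))))) D4389)))) (orK (nat_lit 167) (fin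 (add (start D1246) (orK (nat_lit 187) (fin (add (start D821) (orK (nat_lit 208) D4439)))))))))))))) (orK (nat_lit 189) (fin (add (add (add (start D4453) (orK (nat_lit 229) (fin (add (start D3039) D4459)))) (orK (nat_lit 149) D4484)) (orK (nat_lit 148) D4329))))) (orK (nat_lit 208) (fin (add (add (add (add (start D4496) D4502) (orK (nat_lit 228) (fin (add (add (start D4500) D2081) (orK (nat_lit 189) (fin (add (start D3264) (orK (nat_lit 191) (fin (add (start D383) (orK (nat_lit 211) (fin (add (start D396) (orK (nat_lit 231) (fin (add (start D196) (orK (nat_lit 250) (fin (add (start D4503) (orK (nat_lit 251) (fin (add (start D4504) (orK (nat_lit 272) (fin (add (start D4505) (orK (nat_lit 248) (fin (add (start D735) (orK (nat_lit 271) (fin (add (start (win (nat_lit 0) (nat_lit 8) (nat_lit 12) (nat_lit 1))) D4507))))))))))))))))))))))))))))))) (orK (nat_lit 189) (fin (add (add (start D4528) (orK (nat_lit 207) (fin (add (start D4534) D4492)))) D4537)))) D4627)))) (orK (nat_lit 149) (fin (add (add (start (orK (nat_lit 167) (fin (add (add (add (start D2391) (orK (nat_lit 148) (fin (add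 (start D992) (orK (nat_lit 166) (fin (add (start D922) D1882))))))) (orK (nat_lit 186) (fin (add (start D1880) (orK (nat_lit 166) (fin (add (start D1879) (orK (nat_lit 145) (fin (add (start D4263) (orK (nat_lit 165) (fin (add (start D4264) D4638))))))))))))) D3797)))) (orK (nat_lit 189) D4484)) (orK (nat_lit 208) (fin (add (add (add (start D4650) D4627) D4653) D4655)))))))
noncomputable def D4661 : OP := orK (nat_lit 209) D4660
noncomputable def D3888 : OP := orK (nat_lit 192) (fin (add (start D60) (orK (nat_lit 172) (fin (add (start D59) D127)))))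
noncomputable def D3810 : OP := orK (nat_lit 192) (fin (add (start D60) (orK (nat_lit 172) (fin (add (start D59) D995)))))
noncomputable def D4664 : AP := fin (add (add (add (start D3810) D3888) D3415) (orK (nat_lit 152) (fin (add (start D124) D4661))))
noncomputable def D6667 : AP := fin (add (start D4033) D2837)
noncomputable def D6670 : OP := orK (nat_lit 151) (fin (add (start D1506) (orK (nat_lit 211) D6667)))
noncomputable def D6655 : OP := win (nat_lit 7) (nat_lit 10) (nat_lit 5) (nat_lit 5)
noncomputable def D6658 : OP := orK (nat_lit 130) (fin (add (start D6655) D6656))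
noncomputable def D6653 : OP := win (nat_lit 3) (nat_lit 11) (nat_lit 6) (nat_lit 4)
noncomputable def D6466 : OP := win (nat_lit 6) (nat_lit 11) (nat_lit 9) (nat_lit 5)
noncomputable def D6639 : OP := orK (nat_lit 252) (fin (add (start (win (nat_lit 6) (nat_lit 11) (nat_lit 8) (nat_lit 4))) D6466))
noncomputable def D6635 : OP := win (nat_lit 3) (nat_lit 11) (nat_lit 7) (nat_lit 5)
noncomputable def D1494 : AP := fin (add (start D839) D1493)
noncomputable def D1500 : AP := fin (add (start D125) (orK (nat_lit 192) (fin (add (start D59) (orK (nat_lit 191) (fin (add (start D1492) (orK (nat_lit 132) D1494))))))))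
noncomputable def D6629 : OP := orK (nat_lit 172) D1500
noncomputable def D6674 : OP := orK (nat_lit 152) (fin (add (add (add (start D6629) (orK (nat_lit 191) (fin (add (add (start D2988) (orK (nat_lit 211) (fin (add (add (add (start D6633) (orK (nat_lit 231) (fin (add (start D6634) (orK (nat_lit 230) (fin (add (start D3507) (orK (nat_lit 172) (fin (add (start D6635) (orK (nat_lit 251) (fin (add (start (win (nat_lit 3) (nat_lit 11) (nat_lit 8) (nat_lit 4))) D6639))))))))))))) D6652) (orK (nat_lit 151) (fin (add (start D4033) (orK (nat_lit 132) (fin (add (start D6653) (orK (nat_lit 131) (fin (add (start D6654) D6658))))))))))))) D6670)))) D5024) D5027))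
noncomputable def D11025 : OP := win (nat_lit 7) (nat_lit 10) (nat_lit 7) (nat_lit 3)
noncomputable def D11049 : OP := orK (nat_lit 231) (fin (add (start D196) (orK (nat_lit 191) (fin (add (start D514) D11025)))))
noncomputable def D5574 : AP := fin (add (start D1633) (orK (nat_lit 129) (fin (add (start D1632) D4464))))
noncomputable def D8184 : OP := orK (nat_lit 191) (fin (add (start D514) D725))
noncomputable def D3306 : OP := orK (nat_lit 186) (fin (add (start D3303) (orK (nat_lit 188) D2070)))
noncomputable def D8198 : OP := orK (nat_lit 187) (fin (add (add (add (start D3306) (orK (nat_lit 211) (fin (add (start D720) (orK (nat_lit 231) (fin (add (start D196) (orK (nat_lit 207) (fin (add (start D2859) D8184)))))))))) (orK (nat_lit 207) (fin (add (start D721) (orK (nat_lit 231) (fin (add (start D2859) (orK (nat_lit 211) (fin (add (start D196) D8184)))))))))) D3340))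
noncomputable def D2483 : OP := win (nat_lit 0) (nat_lit 6) (nat_lit 9) (nat_lit 0)
noncomputable def D2970 : OP := orK (nat_lit 187) (fin (add (start D2483) D2067))
noncomputable def D7972 : AP := fin (add (start D5157) (orK (nat_lit 250) (fin (add (start D5291) (orK (nat_lit 249) (fin (add (start D5292) (orK (nat_lit 188) (fin (add (start D225) D2970))))))))))
noncomputable def D2868 : OP := orK (nat_lit 228) D2080
noncomputable def D2861 : OP := orK (nat_lit 187) (fin (add (start D721) D720))
noncomputable def D2865 : OP := orK (nat_lit 231) (fin (add (start D196) (orK (nat_lit 207) (fin (add (start D2859) D2861)))))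
noncomputable def D2880 : OP := orK (nat_lit 227) (fin (add (add (start (orK (nat_lit 211) (fin (add (start D723) D2865)))) D2868) (orK (nat_lit 207) (fin (add (start D722) D2876)))))
noncomputable def D5436 : OP := win (nat_lit 3) (nat_lit 7) (nat_lit 6) (nat_lit 5)
noncomputable def D3815 : OP := win (nat_lit 0) (nat_lit 6) (nat_lit 7) (nat_lit 3)
noncomputable def D5448 : OP := win (nat_lit 7) (nat_lit 6) (nat_lit 6) (nat_lit 5)
noncomputable def D5449 : OP := win (nat_lit 7) (nat_lit 6) (nat_lit 7) (nat_lit 4)
noncomputable def D10392 : OP := orK (nat_lit 146) (fin (add (start D5449) (orK (nat_lit 147) (fin (add (start D5448) (orK (nat_lit 148) (fin (add (start D3815) D5436))))))))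
noncomputable def D9955 : OP := win (nat_lit 3) (nat_lit 11) (nat_lit 7) (nat_lit 2)
noncomputable def D10564 : OP := orK (nat_lit 152) (fin (add (start D9955) D125))
noncomputable def D10585 : OP := orK (nat_lit 172) (fin (add (add (start D10564) (orK (nat_lit 149) (fin (add (start D120) (orK (nat_lit 150) (fin (add (start D812) (win (nat_lit 7) (nat_lit 10) (nat_lit 7) (nat_lit 2))))))))) D5264))
noncomputable def D10506 : OP := win (nat_lit 1) (nat_lit 11) (nat_lit 4) (nat_lit 4)
noncomputable def D1791 : OP := win (nat_lit 2) (nat_lit 8) (nat_lit 6) (nat_lit 5)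
noncomputable def D795 : OP := win (nat_lit 4) (nat_lit 9) (nat_lit 6) (nat_lit 5)
noncomputable def D834 : OP := win (nat_lit 1) (nat_lit 11) (nat_lit 4) (nat_lit 0)
noncomputable def D10518 : OP := orK (nat_lit 92) (fin (add (start D10506) (orK (nat_lit 73) (fin (add (start (win (nat_lit 3) (nat_lit 12) (nat_lit 3) (nat_lit 4))) (orK (nat_lit 72) (fin (add (start (win (nat_lit 3) (nat_lit 12) (nat_lit 2) (nat_lit 5))) (orK (nat_lit 71) (fin (add (start (win (nat_lit 7) (nat_lit 11) (nat_lit 2) (nat_lit 5))) (win (nat_lit 7) (nat_lit 11) (nat_lit 3) (nat_lit 4)))))))))))))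
noncomputable def D10562 : OP := orK (nat_lit 172) (fin (add (add (add (start D5248) D58) D5252) (orK (nat_lit 152) (fin (add (start D125) (orK (nat_lit 192) (fin (add (start D59) (orK (nat_lit 132) (fin (add (add (add (add (start (orK (nat_lit 113) (fin (add (start D2410) (orK (nat_lit 112) (fin (add (start D2409) D2416))))))) (orK (nat_lit 149) (fin (add (start D120) D6748)))) (orK (nat_lit 112) (fin (add (add (start D2412) D10518) (orK (nat_lit 149) (fin (add (start D120) (orK (nat_lit 151) (fin (add (start D834) (orK (nat_lit 133) (fin (add (start D847) (win (nat_lit 4) (nat_lit 9) (nat_lit 6) (nat_lit 1))))))))))))))) (orK (nat_lit 112) (fin (add (add (start D2416) D10518) (orK (nat_lit 131) (fin (add (start D2404) (orK (nat_lit 151) (fin (add (start D834) (orK (nat_lit 149) (fin (add (start D120) (orK (nat_lit 150) (fin (add (start D795) (orK (nat_lit 129) (fin (add (start D1791) (orK (nat_lit 109) (fin (add (start D1093) (orK (nat_lit 108) (fin (add (start (win (nat_lit 2) (nat_lit 8) (nat_lit 5) (nat_lit 2))) D1218))))))))))))))))))))))))) (orK (nat_lit 111) (fin (add (start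 D2414) (orK (nat_lit 112) (fin (add (start D2413) (orK (nat_lit 92) (fin (add (start D10506) (orK (nat_lit 93) (fin (add (start (win (nat_lit 3) (nat_lit 12) (nat_lit 3) (nat_lit 5))) (win (nat_lit 3) (nat_lit 12) (nat_lit 4) (nat_lit 4)))))))))))))))))))))))))
noncomputable def D6682 : OP := win (nat_lit 3) (nat_lit 11) (nat_lit 8) (nat_lit 0)
noncomputable def D10570 : OP := orK (nat_lit 172) (fin (add (add (start D10564) (orK (nat_lit 192) (fin (add (start D59) (orK (nat_lit 191) (fin (add (start D6682) D7283))))))) D58))
noncomputable def D10497 : OP := orK (nat_lit 191) (fin (add (start D514) D6634))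
noncomputable def D10613 : OP := orK (nat_lit 171) (fin (add (add (add (start D10497) D10570) D10562) D10585))
noncomputable def D5335 : OP := win (nat_lit 6) (nat_lit 7) (nat_lit 10) (nat_lit 5)
noncomputable def D5334 : OP := win (nat_lit 6) (nat_lit 7) (nat_lit 9) (nat_lit 4)
noncomputable def D5337 : OP := orK (nat_lit 268) (fin (add (start D5334) D5335))
noncomputable def D5327 : OP := win (nat_lit 1) (nat_lit 6) (nat_lit 10) (nat_lit 5)
noncomputable def D5326 : OP := win (nat_lit 1) (nat_lit 6) (nat_lit 9) (nat_lit 4)
noncomputable def D5459 : OP := orK (nat_lit 266) (fin (add (start D5326) (orK (nat_lit 267) (fin (add (start D5327) D5337)))))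
noncomputable def D5365 : OP := win (nat_lit 3) (nat_lit 7) (nat_lit 9) (nat_lit 5)
noncomputable def D4197 : OP := win (nat_lit 6) (nat_lit 7) (nat_lit 9) (nat_lit 5)
noncomputable def D8220 : OP := orK (nat_lit 247) (fin (add (start D4197) (orK (nat_lit 266) (fin (add (start D5326) (orK (nat_lit 267) (fin (add (start D5327) D5365))))))))
noncomputable def D4196 : OP := win (nat_lit 6) (nat_lit 7) (nat_lit 8) (nat_lit 4)
noncomputable def D8222 : OP := orK (nat_lit 248) (fin (add (start D4196) D8220))
noncomputable def D10394 : OP := orK (nat_lit 167) (fin (add (start D10392) D8222))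
noncomputable def D3168 : OP := win (nat_lit 6) (nat_lit 7) (nat_lit 7) (nat_lit 0)
noncomputable def D3170 : AP := fin (add (start D3168) D3169)
noncomputable def D3171 : OP := orK (nat_lit 167) D3170
noncomputable def D3307 : AP := fin (add (start D209) D3171)
noncomputable def D3308 : OP := orK (nat_lit 228) D3307
noncomputable def D2858 : OP := orK (nat_lit 226) (fin (add (start D2855) (orK (nat_lit 228) D2078)))
noncomputable def D10821 : OP := orK (nat_lit 227) (fin (add (add (add (start D2858) (orK (nat_lit 187) (fin (add (add (add (start (orK (nat_lit 211) (fin (add (start D720) D723)))) (orK (nat_lit 207) (fin (add (start D721) D3308)))) (orK (nat_lit 207) (fin (add (start D721) D10394)))) D6165)))) D2868) (orK (nat_lit 207) (fin (add (start D722) (orK (nat_lit 187) (fin (add (start D721) (orK (nat_lit 167) (fin (add (add (start (orK (nat_lit 188) (fin (add (start D2067) (orK (nat_lit 147) (fin (add (start D2111) (orK (nat_lit 146) (fin (add (start D5448) D5449)))))))))) (orK (nat_lit 247) (fin (add (start D5459) (orK (nat_lit 211) (fin (add (start D720) (orK (nat_lit 231)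 (fin (add (start D196) D10613)))))))))) D10392)))))))))))
noncomputable def D6211 : AP := fin (add (start D2067) (orK (nat_lit 167) (fin (add (start D2110) (orK (nat_lit 147) (fin (add (start D2111) D4546)))))))
noncomputable def D6223 : OP := win (nat_lit 7) (nat_lit 7) (nat_lit 9) (nat_lit 0)
noncomputable def D3322 : OP := win (nat_lit 7) (nat_lit 7) (nat_lit 8) (nat_lit 3)
noncomputable def D7878 : OP := win (nat_lit 4) (nat_lit 4) (nat_lit 9) (nat_lit 5)
noncomputable def D4221 : OP := win (nat_lit 2) (nat_lit 3) (nat_lit 9) (nat_lit 5)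
noncomputable def D4222 : OP := win (nat_lit 2) (nat_lit 4) (nat_lit 9) (nat_lit 4)
noncomputable def D10599 : OP := orK (nat_lit 184) (fin (add (start D4222) (orK (nat_lit 204) (fin (add (start D4221) D7878)))))
noncomputable def D6281 : OP := win (nat_lit 0) (nat_lit 5) (nat_lit 10) (nat_lit 5)
noncomputable def D3312 : OP := orK (nat_lit 207) (fin (add (start D721) (orK (nat_lit 227) (fin (add (start D722) D3308)))))
noncomputable def D3587 : OP := win (nat_lit 4) (nat_lit 5) (nat_lit 9) (nat_lit 4)
noncomputable def D5207 : OP := win (nat_lit 4) (nat_lit 5) (nat_lit 9) (nat_lit 0)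
noncomputable def D10993 : OP := win (nat_lit 1) (nat_lit 6) (nat_lit 7) (nat_lit 1)
noncomputable def D7408 : OP := orK (nat_lit 189) D5286
noncomputable def D3143 : OP := win (nat_lit 7) (nat_lit 8) (nat_lit 9) (nat_lit 5)
noncomputable def D3265 : OP := win (nat_lit 3) (nat_lit 8) (nat_lit 8) (nat_lit 3)
noncomputable def D3266 : AP := fin (add (start D3265) D735)
noncomputable def D3267 : OP := orK (nat_lit 248) D3266
noncomputable def D3268 : AP := fin (add (start D3264) D3267)
noncomputable def D10861 : OP := orK (nat_lit 228) D3268
noncomputable def D736 : AP := fin (add (start (win (nat_lit 3) (nat_lit 8) (nat_lit 8) (nat_lit 5))) D735)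
noncomputable def D737 : OP := orK (nat_lit 189) D736
noncomputable def D3323 : OP := win (nat_lit 6) (nat_lit 7) (nat_lit 8) (nat_lit 3)
noncomputable def D3324 : AP := fin (add (start D3168) D3323)
noncomputable def D738 : OP := win (nat_lit 3) (nat_lit 8) (nat_lit 9) (nat_lit 5)
noncomputable def D3342 : OP := orK (nat_lit 187) (fin (add (add (add (start D3306) D3312) (orK (nat_lit 228) (fin (add (add (start D3318) (orK (nat_lit 248) (fin (add (add (start (orK (nat_lit 268) (fin (add (start D738) (win (nat_lit 7) (nat_lit 7) (nat_lit 9) (nat_lit 4)))))) (orK (nat_lit 167) (fin (add (start D3322) (orK (nat_lit 207) D3324))))) (orK (nat_lit 189) (fin (add (start D735) (orK (nat_lit 169) (fin (add (start D3264) D3265)))))))))) (orK (nat_lit 188) (fin (add (start D2067) (orK (nat_lit 248) (fin (add (start D2738) D737)))))))))) D3340))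
noncomputable def D10866 : AP := fin (add (start D366) (orK (nat_lit 171) (fin (add (start D5030) D1314))))
noncomputable def D3508 : AP := fin (add (start D2989) D3507)
noncomputable def D3509 : OP := orK (nat_lit 171) D3508
noncomputable def D3511 : OP := orK (nat_lit 191) (fin (add (start D514) D3509))
noncomputable def D7910 : OP := orK (nat_lit 231) (fin (add (start D196) (orK (nat_lit 230) (fin (add (start D2482) D3511)))))
noncomputable def D10855 : AP := fin (add (start D2962) D5276)
noncomputable def D10952 : OP := orK (nat_lit 207) (fin (add (start D721) (orK (nat_lit 167) (fin (add (start D5436) D4126)))))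
noncomputable def D5675 : OP := win (nat_lit 4) (nat_lit 7) (nat_lit 6) (nat_lit 4)
noncomputable def D5677 : OP := orK (nat_lit 131) (fin (add (start D5675) D778))
noncomputable def D7393 : OP := orK (nat_lit 151) (fin (add (start D4033) (orK (nat_lit 152) (fin (add (start D2837) D5025)))))
noncomputable def D10498 : AP := fin (add (start D196) D10497)
noncomputable def D10868 : OP := orK (nat_lit 231) D10498
noncomputable def D10867 : OP := orK (nat_lit 147) D10866
noncomputable def D10856 : OP := orK (nat_lit 149) D10855
noncomputable def D3593 : OP := orK (nat_lit 205) (fin (add (start D3587) D3591))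
noncomputable def D3598 : AP := fin (add (start D2869) (orK (nat_lit 186) (fin (add (start D2042) (orK (nat_lit 206) (fin (add (start D2043) D3593)))))))
noncomputable def D4228 : OP := orK (nat_lit 224) (fin (add (start (win (nat_lit 5) (nat_lit 3) (nat_lit 10) (nat_lit 5))) (win (nat_lit 5) (nat_lit 4) (nat_lit 10) (nat_lit 4))))
noncomputable def D6289 : AP := fin (add (start (win (nat_lit 0) (nat_lit 4) (nat_lit 10) (nat_lit 4))) D4228)
noncomputable def D6290 : OP := orK (nat_lit 204) D6289
noncomputable def D3611 : OP := win (nat_lit 7) (nat_lit 9) (nat_lit 9) (nat_lit 1)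
noncomputable def D8742 : OP := win (nat_lit 6) (nat_lit 7) (nat_lit 9) (nat_lit 3)
noncomputable def D6604 : OP := orK (nat_lit 231) (fin (add (start D2859) (orK (nat_lit 211) (fin (add (start D196) D2861)))))
noncomputable def D6606 : OP := orK (nat_lit 207) (fin (add (add (start D6604) D3261) D4160))
noncomputable def D5641 : OP := win (nat_lit 6) (nat_lit 6) (nat_lit 7) (nat_lit 1)
noncomputable def D5664 : OP := orK (nat_lit 207) (fin (add (add (add (start D4160) D3261) (orK (nat_lit 231) (fin (add (start D2859) (orK (nat_lit 211) (fin (add (start D196) (orK (nat_lit 186) (fin (add (start D2042) (orK (nat_lit 206) (fin (add (start D2043) (orK (nat_lit 227) (fin (add (start D723) D5641)))))))))))))))) (orK (nat_lit 230) (fin (add (start D2869) (orK (nat_lit 186) (fin (add (start D2042) (orK (nat_lit 206) (fin (add (start D2043) (orK (nat_lit 225) (fin (add (start D3589) (orK (nat_lit 205) (fin (add (start (win (nat_lit 1) (nat_lit 5) (nat_lit 7) (nat_lit 1))) D3588)))))))))))))))))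
noncomputable def D6038 : OP := orK (nat_lit 146) (fin (add (start (win (nat_lit 0) (nat_lit 6) (nat_lit 7) (nat_lit 1))) D5664))
noncomputable def D8108 : OP := orK (nat_lit 171) (fin (add (start D6634) (orK (nat_lit 230) D3508)))
noncomputable def D9438 : OP := orK (nat_lit 191) (fin (add (start D514) (orK (nat_lit 231) (fin (add (start D196) D8108)))))
noncomputable def D9440 : OP := orK (nat_lit 211) (fin (add (start D396) D9438))
noncomputable def D11009 : AP := fin (add (add (add (add (add (add (start (orK (nat_lit 189) (fin (add (add (add (start D4528) (orK (nat_lit 228) (fin (add (start D3267) D9440)))) D10856) D10861)))) (orK (nat_lit 149) (fin (add (add (add (start D4650) (orK (nat_lit 148) (fin (add (add (start D10867) D6038) (orK (nat_lit 171) (fin (add (start D1314) (orK (nat_lit 211) (fin (add (add (start D10868) D4592) (orK (nat_lit 191) (fin (add (start D514) (orK (nat_lit 151) (fin (add (start D4033) (orK (nat_lit 152) (fin (add (start D2837) (orK (nat_lit 228) (fin (add (start D396) D5025)))))))))))))))))))))) D4653) D4655)))) D6606) (orK (nat_lit 189) (fin (add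 (add (add (start D4528) (orK (nat_lit 207) (fin (add (add (add (add (start D3261) (orK (nat_lit 187) (fin (add (start D721) (orK (nat_lit 227) (fin (add (start D722) (orK (nat_lit 248) (fin (add (add (start (orK (nat_lit 268) (fin (add (start (win (nat_lit 3) (nat_lit 8) (nat_lit 9) (nat_lit 2))) D8742)))) D8220) (orK (nat_lit 228) (fin (add (start D3265) D2814))))))))))))) (orK (nat_lit 230) (fin (add (start D2869) (orK (nat_lit 270) (fin (add (start D3611) (orK (nat_lit 206) (fin (add (add (add (start D2052) (orK (nat_lit 205) (fin (add (start D3587) (orK (nat_lit 184) (fin (add (start D4222) (orK (nat_lit 204) (fin (add (start D4221) (orK (nat_lit 227) (fin (add (start (win (nat_lit 0) (nat_lit 4) (nat_lit 10) (nat_lit 5))) D722))))))))))))) (orK (nat_lit 205) (fin (add (start D3587) (orK (nat_lit 184) (fin (add (start D4222) (orK (nat_lit 204) (fin (add (start D4221) (orK (nat_lit 228) D6289))))))))))) D3593)))))))))) (orK (nat_lit 230) (fin (add (start D2869) (orK (nat_lit 250) (fin (add (start D2332) (orK (nat_lit 228) (fin (add (add (start D3267) (orK (nat_lit 186) (fin (add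 (start D2042) (orK (nat_lit 206) (fin (add (start D2043) (orK (nat_lit 205) (fin (add (start D3587) D6290)))))))))) (orK (nat_lit 187) (fin (add (start D721) (orK (nat_lit 248) (fin (add (start D735) (orK (nat_lit 167) D3324))))))))))))))))) (orK (nat_lit 230) D3598))))) D10856) D10861)))) (orK (nat_lit 149) (fin (add (add (add (start D4650) (orK (nat_lit 148) (fin (add (add (add (start D10867) (orK (nat_lit 171) (fin (add (start D1314) (orK (nat_lit 211) (fin (add (add (start D10868) D2865) (orK (nat_lit 187) (fin (add (start D720) (orK (nat_lit 191) (fin (add (start D514) D7393))))))))))))) (orK (nat_lit 147) (fin (add (start D366) (orK (nat_lit 187) (fin (add (add (start D10952) D6165) (orK (nat_lit 188) (fin (add (start D2067) (orK (nat_lit 127) (fin (add (start (win (nat_lit 6) (nat_lit 7) (nat_lit 6) (nat_lit 2))) (orK (nat_lit 150) (fin (add (start D367) (orK (nat_lit 151) (fin (add (start D368) D5677))))))))))))))))))) (orK (nat_lit 147) (fin (add (start D366) (orK (nat_lit 171) (fin (add (start D1314) (orK (nat_lit 187) (fin (add (start D10952) (orK (nat_lit 211) (fin (add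 (start D720) (orK (nat_lit 191) (fin (add (start D514) (orK (nat_lit 151) (fin (add (start D4033) (orK (nat_lit 132) (fin (add (start D6653) (orK (nat_lit 131) (fin (add (start D6654) (orK (nat_lit 130) (fin (add (start (win (nat_lit 5) (nat_lit 8) (nat_lit 6) (nat_lit 3))) D6655))))))))))))))))))))))))))))))) (orK (nat_lit 189) D10855)) (orK (nat_lit 189) D5277))))) (orK (nat_lit 187) (fin (add (add (start (orK (nat_lit 211) (fin (add (start D720) D7910)))) (orK (nat_lit 207) (fin (add (start D721) (orK (nat_lit 226) (fin (add (start D2050) (orK (nat_lit 206) (fin (add (start D2049) (orK (nat_lit 230) (fin (add (start D2869) (orK (nat_lit 149) (fin (add (start D4651) (orK (nat_lit 147) (fin (add (start D10993) (orK (nat_lit 148) D10866)))))))))))))))))))) D3340)))) D3342)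
noncomputable def D4216 : OP := win (nat_lit 0) (nat_lit 5) (nat_lit 10) (nat_lit 4)
noncomputable def D8901 : OP := orK (nat_lit 205) (fin (add (start D4216) D3591))
noncomputable def D2850 : OP := win (nat_lit 0) (nat_lit 6) (nat_lit 10) (nat_lit 5)
noncomputable def D2894 : AP := fin (add (start D2067) D2110)
noncomputable def D3314 : OP := orK (nat_lit 211) (fin (add (start D720) D396))
noncomputable def D9190 : OP := win (nat_lit 4) (nat_lit 5) (nat_lit 11) (nat_lit 5)
noncomputable def D5316 : OP := win (nat_lit 4) (nat_lit 4) (nat_lit 11) (nat_lit 0)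
noncomputable def D4191 : OP := win (nat_lit 1) (nat_lit 6) (nat_lit 9) (nat_lit 5)
noncomputable def D3201 : OP := win (nat_lit 3) (nat_lit 7) (nat_lit 10) (nat_lit 0)
noncomputable def D9270 : OP := win (nat_lit 1) (nat_lit 7) (nat_lit 9) (nat_lit 0)
noncomputable def D746 : OP := win (nat_lit 6) (nat_lit 8) (nat_lit 10) (nat_lit 5)
noncomputable def D745 : OP := win (nat_lit 6) (nat_lit 8) (nat_lit 9) (nat_lit 4)
noncomputable def D748 : OP := orK (nat_lit 269) (fin (add (start D745) D746))
noncomputable def D8966 : OP := win (nat_lit 7) (nat_lit 7) (nat_lit 10) (nat_lit 0)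
noncomputable def D7918 : AP := fin (add (start D2814) D6223)
noncomputable def D7900 : OP := orK (nat_lit 205) (fin (add (start D4216) (orK (nat_lit 185) (fin (add (start D3951) D3950)))))
noncomputable def D8080 : OP := win (nat_lit 3) (nat_lit 11) (nat_lit 7) (nat_lit 4)
noncomputable def D6487 : OP := orK (nat_lit 207) (fin (add (start D2859) D721))
noncomputable def D3181 : AP := fin (add (start (win (nat_lit 2) (nat_lit 8) (nat_lit 10) (nat_lit 3))) D438)
noncomputable def D3250 : OP := orK (nat_lit 232) D3181
noncomputable def D3251 : AP := fin (add (start D2482) D3250)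
noncomputable def D6202 : OP := orK (nat_lit 230) D3251
noncomputable def D2692 : OP := orK (nat_lit 267) (fin (add (start D739) (orK (nat_lit 268) (fin (add (start D740) D748)))))
noncomputable def D5460 : OP := win (nat_lit 4) (nat_lit 6) (nat_lit 11) (nat_lit 5)
noncomputable def D6249 : OP := win (nat_lit 4) (nat_lit 5) (nat_lit 11) (nat_lit 0)
noncomputable def D7834 : OP := orK (nat_lit 188) (fin (add (start D2740) (orK (nat_lit 247) (fin (add (start D2089) (orK (nat_lit 246) (fin (add (start D6249) (orK (nat_lit 249) (fin (add (start D5460) D232)))))))))))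
noncomputable def D8866 : OP := orK (nat_lit 191) (fin (add (start D514) (orK (nat_lit 171) (fin (add (start D2989) D6634)))))
noncomputable def D3136 : OP := win (nat_lit 0) (nat_lit 8) (nat_lit 11) (nat_lit 5)
noncomputable def D3123 : OP := win (nat_lit 5) (nat_lit 7) (nat_lit 11) (nat_lit 5)
noncomputable def D8800 : AP := fin (add (start D2549) D3123)
noncomputable def D10589 : OP := orK (nat_lit 171) (fin (add (add (add (start (orK (nat_lit 211) D10498)) D10562) (orK (nat_lit 211) (fin (add (start D196) D10570)))) (orK (nat_lit 211) (fin (add (start D196) D10585)))))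
noncomputable def D9452 : OP := win (nat_lit 1) (nat_lit 7) (nat_lit 12) (nat_lit 5)
noncomputable def D9451 : OP := win (nat_lit 1) (nat_lit 7) (nat_lit 11) (nat_lit 4)
noncomputable def D3550 : OP := win (nat_lit 3) (nat_lit 8) (nat_lit 10) (nat_lit 4)
noncomputable def D10662 : OP := orK (nat_lit 188) (fin (add (start D232) D2740))
noncomputable def D10695 : OP := orK (nat_lit 249) (fin (add (add (start D10662) (orK (nat_lit 288) (fin (add (start D3550) (orK (nat_lit 307) (fin (add (start D9451) (orK (nat_lit 308) (fin (add (start D9452) (orK (nat_lit 328) (fin (add (start (win (nat_lit 3) (nat_lit 8) (nat_lit 12) (nat_lit 4))) (orK (nat_lit 329) (fin (add (start (win (nat_lit 6) (nat_lit 8) (nat_lit 12) (nat_lit 4))) (win (nat_lit 6) (nat_lit 8) (nat_lit 13) (nat_lit 5)))))))))))))))))) (orK (nat_lit 231) (fin (add (add (start D10589) (orK (nat_lit 229) (fin (add (start D2737) (orK (nat_lit 230) D8800))))) (orK (nat_lit 229) (fin (add (start D2737) (orK (nat_lit 230) (fin (add (start D3123) (orK (nat_lit 251) (fin (add (start D3136) (orK (nat_lit 271) (fin (add (start D432) (orK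 (nat_lit 272) (fin (add (start (win (nat_lit 0) (nat_lit 8) (nat_lit 12) (nat_lit 2))) (orK (nat_lit 211) (fin (add (start D4507) D8866)))))))))))))))))))))))
noncomputable def D3549 : OP := win (nat_lit 1) (nat_lit 7) (nat_lit 11) (nat_lit 5)
noncomputable def D3548 : OP := win (nat_lit 1) (nat_lit 7) (nat_lit 10) (nat_lit 4)
noncomputable def D3554 : OP := orK (nat_lit 287) (fin (add (start D3548) (orK (nat_lit 288) (fin (add (start D3549) D3550)))))
noncomputable def D8821 : OP := win (nat_lit 5) (nat_lit 7) (nat_lit 11) (nat_lit 1)
noncomputable def D10703 : OP := orK (nat_lit 231) (fin (add (start D8821) D10589))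
noncomputable def D3225 : OP := orK (nat_lit 268) (fin (add (start D2737) D746))
noncomputable def D7839 : OP := win (nat_lit 2) (nat_lit 7) (nat_lit 12) (nat_lit 0)
noncomputable def D9350 : OP := win (nat_lit 0) (nat_lit 5) (nat_lit 12) (nat_lit 0)
noncomputable def D3539 : OP := orK (nat_lit 188) (fin (add (start D2089) D2740))
noncomputable def D8824 : OP := win (nat_lit 7) (nat_lit 8) (nat_lit 11) (nat_lit 0)
noncomputable def D8825 : AP := fin (add (start (win (nat_lit 7) (nat_lit 8) (nat_lit 10) (nat_lit 3))) D8824)
noncomputable def D9049 : OP := win (nat_lit 6) (nat_lit 8) (nat_lit 10) (nat_lit 3)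
noncomputable def D3562 : OP := orK (nat_lit 188) (fin (add (start D745) D2740))
noncomputable def D9106 : OP := win (nat_lit 5) (nat_lit 7) (nat_lit 11) (nat_lit 0)
noncomputable def D6250 : OP := win (nat_lit 4) (nat_lit 6) (nat_lit 11) (nat_lit 3)
noncomputable def D9463 : OP := win (nat_lit 6) (nat_lit 8) (nat_lit 12) (nat_lit 5)
noncomputable def D9462 : OP := win (nat_lit 6) (nat_lit 8) (nat_lit 11) (nat_lit 4)
noncomputable def D10660 : OP := orK (nat_lit 288) (fin (add (start D3550) (orK (nat_lit 307) (fin (add (start D9451) (orK (nat_lit 308) (fin (add (start D9452) (orK (nat_lit 309) (fin (add (start D9462) D9463)))))))))))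
noncomputable def D742 : OP := orK (nat_lit 267) (fin (add (start D739) D740))
noncomputable def D3270 : OP := win (nat_lit 4) (nat_lit 7) (nat_lit 11) (nat_lit 3)
noncomputable def D6238 : OP := win (nat_lit 4) (nat_lit 6) (nat_lit 11) (nat_lit 4)
noncomputable def D9117 : OP := win (nat_lit 5) (nat_lit 5) (nat_lit 12) (nat_lit 4)
noncomputable def D9118 : OP := win (nat_lit 5) (nat_lit 4) (nat_lit 12) (nat_lit 5)
noncomputable def D9145 : OP := orK (nat_lit 265) (fin (add (start D9118) D9117))
noncomputable def D9143 : OP := win (nat_lit 2) (nat_lit 4) (nat_lit 11) (nat_lit 5)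
noncomputable def D9142 : OP := win (nat_lit 2) (nat_lit 5) (nat_lit 11) (nat_lit 4)
noncomputable def D9149 : OP := orK (nat_lit 225) (fin (add (start D9142) (orK (nat_lit 245) (fin (add (start D9143) D9145)))))
noncomputable def D9409 : OP := orK (nat_lit 270) (fin (add (start (win (nat_lit 0) (nat_lit 6) (nat_lit 12) (nat_lit 0))) (orK (nat_lit 271) (fin (add (start (win (nat_lit 0) (nat_lit 7) (nat_lit 12) (nat_lit 3))) (win (nat_lit 2) (nat_lit 8) (nat_lit 12) (nat_lit 0)))))))
noncomputable def D8826 : OP := orK (nat_lit 289) D8825
noncomputable def D8830 : OP := win (nat_lit 5) (nat_lit 6) (nat_lit 12) (nat_lit 0)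
noncomputable def D9048 : OP := win (nat_lit 6) (nat_lit 8) (nat_lit 9) (nat_lit 0)
noncomputable def D9222 : OP := orK (nat_lit 269) (fin (add (start D9048) D8826))
noncomputable def D8829 : OP := win (nat_lit 5) (nat_lit 5) (nat_lit 12) (nat_lit 5)
noncomputable def D9374 : OP := orK (nat_lit 266) (fin (add (start D8829) (win (nat_lit 5) (nat_lit 6) (nat_lit 12) (nat_lit 4))))
noncomputable def D9068 : OP := win (nat_lit 0) (nat_lit 7) (nat_lit 12) (nat_lit 5)
noncomputable def D9367 : OP := win (nat_lit 0) (nat_lit 6) (nat_lit 12) (nat_lit 4)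
noncomputable def D8831 : OP := win (nat_lit 3) (nat_lit 7) (nat_lit 11) (nat_lit 0)
noncomputable def D5461 : OP := win (nat_lit 2) (nat_lit 5) (nat_lit 11) (nat_lit 5)
noncomputable def D8822 : OP := win (nat_lit 0) (nat_lit 6) (nat_lit 12) (nat_lit 5)
noncomputable def D8844 : OP := orK (nat_lit 246) (fin (add (start D6249) (orK (nat_lit 249) (fin (add (start (orK (nat_lit 269) (fin (add (start D8822) D8826)))) (orK (nat_lit 266) (fin (add (start D8829) (orK (nat_lit 267) (fin (add (start D8830) (orK (nat_lit 226) (fin (add (start D5461) (orK (nat_lit 287) (fin (add (start D8831) (win (nat_lit 6) (nat_lit 6) (nat_lit 10) (nat_lit 0)))))))))))))))))))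
noncomputable def D3564 : OP := orK (nat_lit 269) (fin (add (start D746) D3562))
noncomputable def D6377 : OP := win (nat_lit 6) (nat_lit 8) (nat_lit 11) (nat_lit 5)
noncomputable def D6376 : OP := win (nat_lit 6) (nat_lit 8) (nat_lit 10) (nat_lit 4)
noncomputable def D6379 : OP := orK (nat_lit 289) (fin (add (start D6376) D6377))
noncomputable def D6381 : OP := orK (nat_lit 288) (fin (add (start D3550) D6379))
noncomputable def D6385 : OP := orK (nat_lit 267) (fin (add (start D739) (orK (nat_lit 268) (fin (add (start D740) D6381)))))
noncomputable def D749 : AP := fin (add (start D742) D748)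
noncomputable def D750 : OP := orK (nat_lit 268) D749
noncomputable def D3079 : OP := win (nat_lit 2) (nat_lit 6) (nat_lit 12) (nat_lit 5)
noncomputable def D7841 : OP := orK (nat_lit 247) (fin (add (start D3079) D7839))
noncomputable def D8781 : OP := win (nat_lit 4) (nat_lit 6) (nat_lit 12) (nat_lit 5)
noncomputable def D8780 : OP := win (nat_lit 4) (nat_lit 5) (nat_lit 12) (nat_lit 0)
noncomputable def D8783 : OP := orK (nat_lit 266) (fin (add (start D8780) D8781))
noncomputable def D8772 : OP := win (nat_lit 6) (nat_lit 9) (nat_lit 10) (nat_lit 1)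
noncomputable def D7835 : OP := win (nat_lit 0) (nat_lit 7) (nat_lit 13) (nat_lit 5)
noncomputable def D8768 : OP := orK (nat_lit 287) (fin (add (start D3548) (orK (nat_lit 288) (fin (add (start D3549) D6379)))))
noncomputable def D8797 : OP := orK (nat_lit 268) (fin (add (add (add (start D3554) D6381) D8768) (orK (nat_lit 269) (fin (add (start D746) (orK (nat_lit 267) (fin (add (start D740) (orK (nat_lit 270) (fin (add (start (orK (nat_lit 249) (fin (add (start (orK (nat_lit 290) (fin (add (start D7835) D8772)))) D8783)))) D7841)))))))))))
noncomputable def D3560 : OP := orK (nat_lit 188) (fin (add (start D2740) (orK (nat_lit 269) (fin (add (start D745) (orK (nat_lit 268) (fin (add (start D746) D3554))))))))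
noncomputable def D9283 : AP := fin (add (start (win (nat_lit 3) (nat_lit 7) (nat_lit 10) (nat_lit 3))) D8831)
noncomputable def D9288 : AP := fin (add (start D9270) (orK (nat_lit 287) D9283))
noncomputable def D9412 : OP := orK (nat_lit 267) D9288
noncomputable def D9271 : OP := win (nat_lit 1) (nat_lit 7) (nat_lit 10) (nat_lit 3)
noncomputable def D3122 : OP := win (nat_lit 4) (nat_lit 6) (nat_lit 10) (nat_lit 1)
noncomputable def D9202 : OP := orK (nat_lit 245) (fin (add (start (orK (nat_lit 225) (fin (add (start D9143) D9142)))) D9145))
noncomputable def D9057 : AP := fin (add (start D6249) D5460)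
noncomputable def D9061 : OP := orK (nat_lit 229) D9057
noncomputable def D5462 : OP := win (nat_lit 2) (nat_lit 6) (nat_lit 11) (nat_lit 0)
noncomputable def D9129 : OP := orK (nat_lit 265) (fin (add (start D9117) (orK (nat_lit 245) (fin (add (start D9118) (orK (nat_lit 224) (fin (add (start (win (nat_lit 2) (nat_lit 4) (nat_lit 11) (nat_lit 4))) (orK (nat_lit 244) (fin (add (start (win (nat_lit 2) (nat_lit 3) (nat_lit 11) (nat_lit 5))) (win (nat_lit 4) (nat_lit 4) (nat_lit 11) (nat_lit 4)))))))))))))
noncomputable def D3284 : OP := win (nat_lit 2) (nat_lit 7) (nat_lit 11) (nat_lit 0)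
noncomputable def D9091 : OP := win (nat_lit 2) (nat_lit 6) (nat_lit 11) (nat_lit 5)
noncomputable def D9092 : AP := fin (add (start D9091) D3284)
noncomputable def D9093 : OP := orK (nat_lit 250) D9092
noncomputable def D9137 : OP := orK (nat_lit 231) (fin (add (start (win (nat_lit 4) (nat_lit 7) (nat_lit 11) (nat_lit 4))) (win (nat_lit 4) (nat_lit 8) (nat_lit 11) (nat_lit 5))))
noncomputable def D3139 : OP := win (nat_lit 0) (nat_lit 8) (nat_lit 12) (nat_lit 5)
noncomputable def D9109 : OP := win (nat_lit 0) (nat_lit 7) (nat_lit 12) (nat_lit 4)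
noncomputable def D9141 : OP := orK (nat_lit 271) (fin (add (start D9109) (orK (nat_lit 251) (fin (add (start D3139) D9137)))))
noncomputable def D9177 : OP := win (nat_lit 2) (nat_lit 6) (nat_lit 11) (nat_lit 4)
noncomputable def D9058 : OP := orK (nat_lit 246) D9057
noncomputable def D9067 : OP := win (nat_lit 4) (nat_lit 7) (nat_lit 11) (nat_lit 5)
noncomputable def D9110 : OP := win (nat_lit 2) (nat_lit 7) (nat_lit 11) (nat_lit 5)
noncomputable def D3219 : OP := win (nat_lit 4) (nat_lit 6) (nat_lit 11) (nat_lit 0)
noncomputable def D3210 : OP := win (nat_lit 7) (nat_lit 9) (nat_lit 10) (nat_lit 0)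
noncomputable def D9103 : OP := orK (nat_lit 250) (fin (add (start D3284) (orK (nat_lit 230) (fin (add (start D9067) (orK (nat_lit 270) (fin (add (start D9068) (orK (nat_lit 229) (fin (add (start D3219) D3210)))))))))))
noncomputable def D9054 : OP := win (nat_lit 0) (nat_lit 5) (nat_lit 11) (nat_lit 0)
noncomputable def D9088 : OP := orK (nat_lit 226) (fin (add (start D9054) D2077))
noncomputable def D9072 : OP := win (nat_lit 6) (nat_lit 10) (nat_lit 12) (nat_lit 5)
noncomputable def D9071 : OP := win (nat_lit 6) (nat_lit 10) (nat_lit 11) (nat_lit 4)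
noncomputable def D3069 : OP := win (nat_lit 7) (nat_lit 9) (nat_lit 10) (nat_lit 4)
noncomputable def D9055 : AP := fin (add (start D9054) D5462)
noncomputable def D9215 : AP := fin (add (add (add (add (add (add (start (orK (nat_lit 227) (fin (add (add (start (orK (nat_lit 226) D9055)) (orK (nat_lit 250) (fin (add (start D3284) (orK (nat_lit 230) (fin (add (start D9067) (orK (nat_lit 270) (fin (add (start D9068) (orK (nat_lit 290) (fin (add (start D3069) (orK (nat_lit 309) (fin (add (start (win (nat_lit 1) (nat_lit 9) (nat_lit 11) (nat_lit 4))) (orK (nat_lit 310) (fin (add (start (win (nat_lit 1) (nat_lit 9) (nat_lit 12) (nat_lit 5))) (orK (nat_lit 311) (fin (add (start D9071) D9072)))))))))))))))))))))) D9088)))) (orK (nat_lit 227) (fin (add (add (start D9093) (orK (nat_lit 229) (fin (add (start D2136) D9058)))) D9103)))) (orK (nat_lit 230) (fin (add (add (start (orK (nat_lit 229) (fin (add (start D3219) D9106)))) (orK (nat_lit 250) (fin (add (start D9067) (orK (nat_lit 271) (fin (add (start D9109) (orK (nat_lit 251) (fin (add (start D3139) D9110)))))))))) (orK (nat_lit 246) (fin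 (add (start D6238) D9129))))))) (orK (nat_lit 250) (fin (add (add (add (start D9141) (orK (nat_lit 230) (fin (add (start D9067) (orK (nat_lit 246) (fin (add (start D6238) D9149))))))) (orK (nat_lit 271) (fin (add (start D9109) (orK (nat_lit 251) (fin (add (start D3139) (orK (nat_lit 252) (fin (add (start (win (nat_lit 2) (nat_lit 8) (nat_lit 11) (nat_lit 4))) (orK (nat_lit 232) (fin (add (start (win (nat_lit 4) (nat_lit 8) (nat_lit 11) (nat_lit 4))) (win (nat_lit 4) (nat_lit 9) (nat_lit 11) (nat_lit 5))))))))))))))) (orK (nat_lit 271) (fin (add (start D9109) (orK (nat_lit 251) (fin (add (start D3139) (orK (nat_lit 229) (fin (add (start (win (nat_lit 2) (nat_lit 8) (nat_lit 11) (nat_lit 0))) (orK (nat_lit 288) (fin (add (start (win (nat_lit 3) (nat_lit 8) (nat_lit 10) (nat_lit 1))) D9058)))))))))))))))) (orK (nat_lit 246) (fin (add (add (add (start D9149) (orK (nat_lit 226) (fin (add (start D5461) (orK (nat_lit 250) (fin (add (start D9177) D9141))))))) (orK (nat_lit 265) (fin (add (start D9117) (orK (nat_lit 245) (fin (add (start D9118) (orK (nat_lit 227) (fin (add (start D5316) D9093))))))))))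 D9129)))) (orK (nat_lit 246) (fin (add (add (start (orK (nat_lit 245) (fin (add (start D9190) D9145)))) D9202) (orK (nat_lit 226) (fin (add (start D5461) (orK (nat_lit 227) (fin (add (start D5462) D2077)))))))))) (orK (nat_lit 246) (fin (add (add (start D9061) D9202) (orK (nat_lit 229) (fin (add (start D5460) (orK (nat_lit 226) (fin (add (start D5461) D3122))))))))))
noncomputable def D9369 : OP := orK (nat_lit 270) (fin (add (start D9367) D9068))
noncomputable def D9376 : OP := orK (nat_lit 246) (fin (add (start D9369) D9374))
noncomputable def D9297 : OP := orK (nat_lit 227) D9092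
noncomputable def D9296 : OP := win (nat_lit 5) (nat_lit 6) (nat_lit 12) (nat_lit 5)
noncomputable def D9351 : OP := win (nat_lit 2) (nat_lit 6) (nat_lit 12) (nat_lit 0)
noncomputable def D3514 : OP := win (nat_lit 0) (nat_lit 7) (nat_lit 11) (nat_lit 4)
noncomputable def D3518 : OP := orK (nat_lit 251) (fin (add (start D3136) (orK (nat_lit 227) (fin (add (start D3514) D2136)))))
noncomputable def D8034 : OP := orK (nat_lit 231) (fin (add (start D2549) D3518))
noncomputable def D6342 : OP := win (nat_lit 0) (nat_lit 7) (nat_lit 12) (nat_lit 2)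
noncomputable def D3208 : OP := win (nat_lit 0) (nat_lit 7) (nat_lit 11) (nat_lit 5)
noncomputable def D8813 : OP := orK (nat_lit 230) (fin (add (add (start (orK (nat_lit 231) D8800)) (orK (nat_lit 227) (fin (add (start D2136) (orK (nat_lit 250) (fin (add (start D3208) (orK (nat_lit 247) (fin (add (start D457) (orK (nat_lit 270) (fin (add (start D3210) (orK (nat_lit 271) (fin (add (start D6342) D2719)))))))))))))))) D8034))
noncomputable def D9309 : OP := win (nat_lit 5) (nat_lit 6) (nat_lit 12) (nat_lit 3)
noncomputable def D9304 : OP := win (nat_lit 4) (nat_lit 6) (nat_lit 12) (nat_lit 3)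
noncomputable def D9337 : OP := orK (nat_lit 267) (fin (add (start D740) (orK (nat_lit 249) (fin (add (add (add (start (orK (nat_lit 188) (fin (add (start D739) D232)))) (orK (nat_lit 266) (fin (add (start D8780) (orK (nat_lit 250) (fin (add (start D9304) D9309))))))) (orK (nat_lit 266) (fin (add (start D8780) (orK (nat_lit 269) (fin (add (start D8781) D9048))))))) (orK (nat_lit 247) (fin (add (start D9270) (orK (nat_lit 266) (fin (add (start D8780) D8830)))))))))))
noncomputable def D9220 : OP := orK (nat_lit 269) (fin (add (start D9048) (orK (nat_lit 289) (fin (add (start D9049) D8824)))))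
noncomputable def D3283 : OP := win (nat_lit 2) (nat_lit 6) (nat_lit 11) (nat_lit 3)
noncomputable def D3285 : AP := fin (add (start D3283) D3284)
noncomputable def D9229 : OP := win (nat_lit 0) (nat_lit 5) (nat_lit 12) (nat_lit 4)
noncomputable def D9433 : AP := fin (add (add (add (add (add (add (add (start (orK (nat_lit 249) (fin (add (add (add (start (orK (nat_lit 247) D9215)) D9220) D9222) (orK (nat_lit 227) (fin (add (add (start D9088) (orK (nat_lit 247) (fin (add (add (add (start (orK (nat_lit 269) (fin (add (start D9048) (orK (nat_lit 246) (fin (add (start D8822) (orK (nat_lit 245) (fin (add (start D9229) D5316)))))))))) D9103) (orK (nat_lit 269) (fin (add (start D9048) (orK (nat_lit 250) (fin (add (start D3284) (orK (nat_lit 270) (fin (add (start D9068) (orK (nat_lit 230) (fin (add (start D9067) (orK (nat_lit 290) (fin (add (start D8772) (orK (nat_lit 311) (fin (add (start D9071) (orK (nat_lit 310) (fin (add (start D9072) (win (nat_lit 7) (nat_lit 9) (nat_lit 12) (nat_lit 0)))))))))))))))))))))))) (orK (nat_lit 250) (fin (add (start D3284) (orK (nat_lit 230) (fin (add (start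 D9067) (orK (nat_lit 246) (fin (add (start D6238) (orK (nat_lit 245) (fin (add (start D5316) (orK (nat_lit 269) (fin (add (start D9229) D9048))))))))))))))))))) (orK (nat_lit 226) (fin (add (start D9054) (orK (nat_lit 250) D3285))))))))))) (orK (nat_lit 267) (fin (add (add (add (start (orK (nat_lit 268) (fin (add (start D740) (orK (nat_lit 269) (fin (add (start D746) (orK (nat_lit 249) (fin (add (start D9048) D8783)))))))))) (orK (nat_lit 287) (fin (add (start D9271) (orK (nat_lit 247) D9283))))) (orK (nat_lit 247) D9288)) (orK (nat_lit 249) (fin (add (add (start (orK (nat_lit 250) (fin (add (add (start (orK (nat_lit 227) (fin (add (start D3284) (orK (nat_lit 226) (fin (add (start D9054) D3283))))))) (orK (nat_lit 251) (fin (add (start D9110) (win (nat_lit 5) (nat_lit 7) (nat_lit 12) (nat_lit 4)))))) (orK (nat_lit 266) (fin (add (start D9309) (orK (nat_lit 268) (fin (add (start D8780) D9304)))))))))) D9220) (orK (nat_lit 247) (fin (add (start D9270) (orK (nat_lit 250) (fin (add (start D9296) D9297))))))))))))) (orK (nat_lit 268) (fin (add (add (start D3554) D9337) (orK (nat_lit 229)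 (fin (add (start D2737) D8813))))))) D8797) (orK (nat_lit 268) (fin (add (add (start D3554) (orK (nat_lit 269) (fin (add (start D746) (orK (nat_lit 249) (fin (add (start D9048) (orK (nat_lit 267) (fin (add (start D740) D8783)))))))))) D6381)))) (orK (nat_lit 268) (fin (add (add (start D3554) D6381) (orK (nat_lit 267) (fin (add (start D740) (orK (nat_lit 269) (fin (add (start D746) (orK (nat_lit 247) (fin (add (start D9270) (orK (nat_lit 246) (fin (add (start D9350) D9351)))))))))))))))) (orK (nat_lit 249) (fin (add (add (add (start D9222) (orK (nat_lit 250) (fin (add (add (start (orK (nat_lit 227) (fin (add (start D3284) (orK (nat_lit 226) (fin (add (start D9054) (win (nat_lit 0) (nat_lit 6) (nat_lit 11) (nat_lit 3))))))))) (orK (nat_lit 247) (fin (add (add (start D9376) (orK (nat_lit 251) (fin (add (start (orK (nat_lit 271) (fin (add (start D9109) D3139)))) D9137)))) (orK (nat_lit 246) (fin (add (start D9061) D9374))))))) (orK (nat_lit 247) (fin (add (add (start (orK (nat_lit 227) (fin (add (start D9091) (orK (nat_lit 267) (fin (add (start D3201) D9296))))))) D9376) (orK (nat_lit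 246) (fin (add (start D9369) (orK (nat_lit 226) (fin (add (start D5461) D9177))))))))))))) (orK (nat_lit 247) (fin (add (add (start (orK (nat_lit 250) (fin (add (start D9297) D9376)))) (orK (nat_lit 269) (fin (add (start D9048) D9409)))) D9412)))) (orK (nat_lit 247) (fin (add (add (start D9412) (orK (nat_lit 246) (fin (add (add (start D9061) D9202) (orK (nat_lit 250) (fin (add (start (orK (nat_lit 230) (fin (add (start D6238) D9067)))) D9374))))))) (orK (nat_lit 226) (fin (add (add (start (orK (nat_lit 227) D9055)) (orK (nat_lit 229) (fin (add (start D3122) D9058)))) (orK (nat_lit 246) (fin (add (start D5461) D9061))))))))))))) (orK (nat_lit 247) (fin (add (add (start (orK (nat_lit 249) D9215)) (orK (nat_lit 267) (fin (add (start D9270) (orK (nat_lit 287) (fin (add (start D9271) D8831))))))) D9412))))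
noncomputable def D9434 : OP := orK (nat_lit 248) D9433
noncomputable def D4494 : OP := orK (nat_lit 207) (fin (add (add (start (orK (nat_lit 206) (fin (add (start D4003) D2872)))) D4352) D4492))
noncomputable def D6280 : OP := win (nat_lit 0) (nat_lit 4) (nat_lit 10) (nat_lit 0)
noncomputable def D6298 : OP := orK (nat_lit 206) (fin (add (add (add (start D2052) (orK (nat_lit 227) (fin (add (start D722) (orK (nat_lit 228) (fin (add (start D209) (orK (nat_lit 205) (fin (add (start D6280) D6281)))))))))) (orK (nat_lit 185) (fin (add (start D3950) (orK (nat_lit 205) (fin (add (start D3951) (orK (nat_lit 228) (fin (add (start D6281) D6290)))))))))) D4393))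
noncomputable def D8175 : OP := orK (nat_lit 268) (fin (add (add (start (orK (nat_lit 188) D749)) (orK (nat_lit 288) (fin (add (start D3550) (orK (nat_lit 287) (fin (add (start D3548) D3549))))))) D6381))
noncomputable def D4276 : OP := win (nat_lit 5) (nat_lit 3) (nat_lit 8) (nat_lit 5)
noncomputable def D4311 : OP := win (nat_lit 2) (nat_lit 3) (nat_lit 7) (nat_lit 5)
noncomputable def D10429 : OP := win (nat_lit 7) (nat_lit 5) (nat_lit 7) (nat_lit 5)
noncomputable def D10451 : OP := win (nat_lit 1) (nat_lit 5) (nat_lit 8) (nat_lit 5)
noncomputable def D9603 : OP := win (nat_lit 7) (nat_lit 5) (nat_lit 6) (nat_lit 5)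
noncomputable def D10462 : OP := orK (nat_lit 145) (fin (add (start D9603) (win (nat_lit 7) (nat_lit 5) (nat_lit 7) (nat_lit 4))))
noncomputable def D10453 : OP := win (nat_lit 3) (nat_lit 6) (nat_lit 7) (nat_lit 4)
noncomputable def D10452 : OP := win (nat_lit 1) (nat_lit 5) (nat_lit 7) (nat_lit 4)
noncomputable def D10418 : OP := orK (nat_lit 185) (fin (add (start (win (nat_lit 7) (nat_lit 5) (nat_lit 8) (nat_lit 5))) (win (nat_lit 7) (nat_lit 5) (nat_lit 9) (nat_lit 4))))
noncomputable def D10438 : OP := win (nat_lit 6) (nat_lit 6) (nat_lit 10) (nat_lit 5)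
noncomputable def D10437 : OP := win (nat_lit 6) (nat_lit 6) (nat_lit 9) (nat_lit 4)
noncomputable def D10413 : OP := win (nat_lit 1) (nat_lit 5) (nat_lit 10) (nat_lit 5)
noncomputable def D10412 : OP := win (nat_lit 1) (nat_lit 5) (nat_lit 9) (nat_lit 4)
noncomputable def D6201 : OP := orK (nat_lit 232) (fin (add (start D3160) (orK (nat_lit 230) D3181)))
noncomputable def D3167 : OP := orK (nat_lit 206) (fin (add (start D2870) D2052))
noncomputable def D4142 : OP := orK (nat_lit 230) (fin (add (start D2869) D3167))
noncomputable def D10853 : AP := fin (add (add (add (add (add (add (add (add (start (orK (nat_lit 207) (fin (add (add (add (start D2876) D4142) D3261) (orK (nat_lit 187) (fin (add (start D721) (orK (nat_lit 231) (fin (add (start D2859) (orK (nat_lit 227) (fin (add (start D722) D10394))))))))))))) (orK (nat_lit 187) (fin (add (add (add (start D6165) (orK (nat_lit 211) (fin (add (start D720) D9438)))) (orK (nat_lit 231) (fin (add (add (start D6487) D6201) (orK (nat_lit 186) (fin (add (start D3303) (orK (nat_lit 206) (fin (add (start (orK (nat_lit 226) (fin (add (add (add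 (start (orK (nat_lit 167) (fin (add (start (win (nat_lit 3) (nat_lit 6) (nat_lit 8) (nat_lit 0))) (orK (nat_lit 147) (fin (add (start (win (nat_lit 1) (nat_lit 6) (nat_lit 6) (nat_lit 0))) D4365))))))) (orK (nat_lit 246) (fin (add (start (win (nat_lit 3) (nat_lit 6) (nat_lit 8) (nat_lit 5))) (orK (nat_lit 265) (fin (add (start D10412) (orK (nat_lit 266) (fin (add (start D10413) (orK (nat_lit 247) (fin (add (start (win (nat_lit 6) (nat_lit 6) (nat_lit 9) (nat_lit 5))) D10418))))))))))))) (orK (nat_lit 246) (fin (add (add (start (orK (nat_lit 245) (fin (add (start (win (nat_lit 1) (nat_lit 5) (nat_lit 9) (nat_lit 5))) (orK (nat_lit 166) (fin (add (start (win (nat_lit 1) (nat_lit 5) (nat_lit 8) (nat_lit 4))) (orK (nat_lit 165) (fin (add (start D10429) (win (nat_lit 7) (nat_lit 5) (nat_lit 8) (nat_lit 4)))))))))))) (orK (nat_lit 265) (fin (add (start D10412) (orK (nat_lit 266) (fin (add (start D10413) (orK (nat_lit 267) (fin (add (start D10437) D10438)))))))))) (orK (nat_lit 267) (fin (add (start D10437) (orK (nat_lit 266) (fin (add (start D10438) D10418)))))))))) (orK (nat_lit 166)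 (fin (add (add (add (start (orK (nat_lit 225) (fin (add (start D10451) (orK (nat_lit 146) (fin (add (start D10452) (orK (nat_lit 147) (fin (add (start D4376) D10453)))))))))) (orK (nat_lit 225) (fin (add (start D10451) (orK (nat_lit 146) (fin (add (start D10452) D10462))))))) (orK (nat_lit 147) (fin (add (start D10453) (orK (nat_lit 146) (fin (add (start D4376) D10462))))))) (orK (nat_lit 225) (fin (add (start D10451) (orK (nat_lit 167) (fin (add (start (win (nat_lit 3) (nat_lit 6) (nat_lit 7) (nat_lit 5))) (orK (nat_lit 165) (fin (add (start D10429) (orK (nat_lit 164) (fin (add (start (win (nat_lit 0) (nat_lit 3) (nat_lit 8) (nat_lit 0))) (orK (nat_lit 144) (fin (add (start D4311) (orK (nat_lit 184) (fin (add (start D4276) (orK (nat_lit 204) (fin (add (start (win (nat_lit 6) (nat_lit 4) (nat_lit 7) (nat_lit 4))) (orK (nat_lit 203) (fin (add (start (win (nat_lit 1) (nat_lit 3) (nat_lit 7) (nat_lit 5))) (win (nat_lit 5) (nat_lit 3) (nat_lit 9) (nat_lit 2))))))))))))))))))))))))))))))))) D10589)))))))))) (orK (nat_lit 207) (fin (add (start D721) (orK (nat_lit 230) (fin (add (start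 D2869) (orK (nat_lit 206) (fin (add (start D2870) (orK (nat_lit 225) (fin (add (start D3589) (orK (nat_lit 205) (fin (add (start D3588) D10599))))))))))))))))))) (orK (nat_lit 231) (fin (add (add (add (start (orK (nat_lit 211) (fin (add (start D196) (orK (nat_lit 228) (fin (add (start D396) (orK (nat_lit 171) (fin (add (add (add (start D10497) D10570) (orK (nat_lit 248) (fin (add (start D10562) D8175)))) D10585)))))))))) D6202) (orK (nat_lit 230) D3254)) (orK (nat_lit 207) (fin (add (start D2859) D6298))))))) D4494) (orK (nat_lit 228) (fin (add (add (add (start D2081) D9440) D9434) (orK (nat_lit 248) (fin (add (add (add (add (add (add (add (add (start D3560) D8797) (orK (nat_lit 188) (fin (add (start D2740) D750)))) (orK (nat_lit 188) (fin (add (start D2740) D6385)))) (orK (nat_lit 268) (fin (add (add (start D3564) D10660) D10695)))) (orK (nat_lit 247) (fin (add (add (add (start D3539) (orK (nat_lit 229) (fin (add (start D10703) D8844)))) (orK (nat_lit 249) (fin (add (add (start (orK (nat_lit 246) (fin (add (start (orK (nat_lit 270) (fin (add (start D9367) (orK (nat_lit 250) (fin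 (add (start D9068) D9374))))))) (orK (nat_lit 225) (fin (add (start D9142) (orK (nat_lit 245) (fin (add (start D9143) D9190)))))))))) D9222) (orK (nat_lit 267) (fin (add (start D9270) (orK (nat_lit 266) (fin (add (start D8830) (orK (nat_lit 265) (fin (add (start (win (nat_lit 4) (nat_lit 4) (nat_lit 12) (nat_lit 0))) (win (nat_lit 5) (nat_lit 5) (nat_lit 12) (nat_lit 3))))))))))))))) (orK (nat_lit 249) (fin (add (add (start D10662) (orK (nat_lit 269) (fin (add (start D8826) D9409)))) (orK (nat_lit 246) (fin (add (start D9149) (orK (nat_lit 230) (fin (add (start D6238) (orK (nat_lit 231) (fin (add (start D3270) D3253)))))))))))))))) (orK (nat_lit 188) (fin (add (start D2740) (orK (nat_lit 268) (fin (add (add (start D742) D10660) (orK (nat_lit 229) (fin (add (start D2737) (orK (nat_lit 247) (fin (add (start D2089) (orK (nat_lit 246) (fin (add (start D6249) (orK (nat_lit 230) (fin (add (start D6250) D9106))))))))))))))))))) (orK (nat_lit 269) (fin (add (add (start D3562) (orK (nat_lit 289) (fin (add (start D9049) (orK (nat_lit 249) D8825))))) (orK (nat_lit 247) (fin (add (add (start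 D3539) (orK (nat_lit 268) (fin (add (start D746) (orK (nat_lit 246) (fin (add (start D9350) (orK (nat_lit 270) (fin (add (start (win (nat_lit 2) (nat_lit 6) (nat_lit 12) (nat_lit 3))) D7839)))))))))) (orK (nat_lit 229) (fin (add (start D3225) D10703)))))))))) (orK (nat_lit 268) (fin (add (add (add (start D3554) D2744) D10695) (orK (nat_lit 229) (fin (add (start D2737) D7834))))))))))))) (orK (nat_lit 231) (fin (add (add (start (orK (nat_lit 211) (fin (add (start D196) (orK (nat_lit 188) (fin (add (start D200) (orK (nat_lit 228) (fin (add (start D396) (orK (nat_lit 248) (fin (add (start D2692) D10613))))))))))))) D6202) (orK (nat_lit 187) (fin (add (add (start D6487) (orK (nat_lit 211) (fin (add (start D720) (orK (nat_lit 191) (fin (add (start D514) (orK (nat_lit 171) (fin (add (start D6634) (orK (nat_lit 151) (fin (add (start D4033) (orK (nat_lit 152) (fin (add (start D2837) D8080)))))))))))))))) D6165))))))) D6606) D10821) (orK (nat_lit 207) (fin (add (add (add (add (start (orK (nat_lit 226) (fin (add (start D2050) (orK (nat_lit 206) (fin (add (start D2049) (orK (nat_lit 229) (fin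 (add (start D2850) D7900)))))))))) (orK (nat_lit 227) (fin (add (start D722) (orK (nat_lit 228) (fin (add (start D209) (orK (nat_lit 248) (fin (add (add (start (orK (nat_lit 187) D7918)) (orK (nat_lit 268) (fin (add (start D8966) (orK (nat_lit 267) (fin (add (start D740) (orK (nat_lit 188) (fin (add (start D739) D748)))))))))) (orK (nat_lit 187) (fin (add (start D2814) (orK (nat_lit 247) (fin (add (start (orK (nat_lit 267) (fin (add (start D9270) D3201)))) (orK (nat_lit 246) (fin (add (start D4191) (orK (nat_lit 245) (fin (add (start D5316) D9190)))))))))))))))))))))) D3261) (orK (nat_lit 187) (fin (add (start D721) (orK (nat_lit 228) (fin (add (add (add (start D3314) (orK (nat_lit 167) (fin (add (start D3168) (orK (nat_lit 227) (fin (add (start D209) D3169))))))) (orK (nat_lit 167) (fin (add (start D3168) (orK (nat_lit 248) (fin (add (start D3323) D3322))))))) (orK (nat_lit 167) (fin (add (start D3168) (orK (nat_lit 188) D2894))))))))))) (orK (nat_lit 186) (fin (add (start D2042) (orK (nat_lit 206) (fin (add (start D2043) (orK (nat_lit 229) (fin (add (start D2850) D8901)))))))))))))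
noncomputable def D5301 : OP := win (nat_lit 4) (nat_lit 7) (nat_lit 10) (nat_lit 3)
noncomputable def D5304 : OP := orK (nat_lit 211) (fin (add (start D5301) (win (nat_lit 5) (nat_lit 7) (nat_lit 10) (nat_lit 3))))
noncomputable def D5305 : AP := fin (add (start D2136) D5304)
noncomputable def D5549 : AP := fin (add (start D5157) (orK (nat_lit 228) (fin (add (start D3036) (orK (nat_lit 227) D5305)))))
noncomputable def D5550 : OP := orK (nat_lit 189) D5549
noncomputable def D7888 : OP := win (nat_lit 4) (nat_lit 4) (nat_lit 9) (nat_lit 4)
noncomputable def D7902 : OP := orK (nat_lit 206) (fin (add (add (add (start D2872) (orK (nat_lit 205) (fin (add (start D4216) (orK (nat_lit 187) (fin (add (start D721) (orK (nat_lit 204) (fin (add (start D7878) (orK (nat_lit 183) (fin (add (start (win (nat_lit 2) (nat_lit 3) (nat_lit 9) (nat_lit 4))) D4228))))))))))))) (orK (nat_lit 205) (fin (add (start D4216) (orK (nat_lit 184) (fin (add (start D4222) (orK (nat_lit 204) (fin (add (start D4221) (orK (nat_lit 188) (fin (add (start D7888) D4228))))))))))))) D7900))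
noncomputable def D5376 : OP := win (nat_lit 0) (nat_lit 5) (nat_lit 10) (nat_lit 0)
noncomputable def D7873 : OP := orK (nat_lit 205) (fin (add (start D4216) (orK (nat_lit 184) (fin (add (start D4222) (orK (nat_lit 204) (fin (add (start D4221) D4228))))))))
noncomputable def D7904 : OP := orK (nat_lit 207) (fin (add (add (add (start D2058) (orK (nat_lit 206) (fin (add (add (start D2052) D7873) (orK (nat_lit 228) (fin (add (start D5376) D7164))))))) D7902) D3261))
noncomputable def D3053 : AP := fin (add (start D2729) D2869)
noncomputable def D3054 : OP := orK (nat_lit 207) D3053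
noncomputable def D7963 : OP := orK (nat_lit 230) (fin (add (start D3945) D3054))
noncomputable def D7965 : OP := orK (nat_lit 189) (fin (add (start D5157) D7963))
noncomputable def D7975 : OP := orK (nat_lit 208) (fin (add (add (start D7965) D7904) (orK (nat_lit 189) D7972)))
noncomputable def D7947 : OP := win (nat_lit 7) (nat_lit 8) (nat_lit 10) (nat_lit 0)
noncomputable def D7936 : OP := win (nat_lit 7) (nat_lit 8) (nat_lit 10) (nat_lit 4)
noncomputable def D3042 : OP := win (nat_lit 1) (nat_lit 8) (nat_lit 10) (nat_lit 5)
noncomputable def D3041 : OP := win (nat_lit 1) (nat_lit 8) (nat_lit 9) (nat_lit 4)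
noncomputable def D7506 : OP := orK (nat_lit 268) (fin (add (start D3041) (orK (nat_lit 269) (fin (add (start D3042) (orK (nat_lit 270) (fin (add (start D5537) D7132))))))))
noncomputable def D7935 : OP := orK (nat_lit 248) (fin (add (start D5535) D5536))
noncomputable def D7960 : AP := fin (add (start D5157) (orK (nat_lit 249) (fin (add (add (add (start D7935) D7506) (orK (nat_lit 270) (fin (add (start D5537) (orK (nat_lit 269) (fin (add (start D7132) (orK (nat_lit 288) (fin (add (start D7123) (orK (nat_lit 289) (fin (add (start D7124) (orK (nat_lit 208) (fin (add (start D3143) D7936)))))))))))))))) (orK (nat_lit 228) (fin (add (start D3036) (orK (nat_lit 226) (fin (add (start D3122) (orK (nat_lit 270) (fin (add (start D5537) (orK (nat_lit 269) (fin (add (start D7132) (orK (nat_lit 208) (fin (add (start D3143) D7947)))))))))))))))))))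
noncomputable def D3998 : OP := orK (nat_lit 230) D3053
noncomputable def D3530 : OP := orK (nat_lit 268) (fin (add (start D2737) (orK (nat_lit 267) (fin (add (start D740) (orK (nat_lit 250) (fin (add (start (win (nat_lit 5) (nat_lit 7) (nat_lit 12) (nat_lit 2))) (orK (nat_lit 269) (fin (add (start (win (nat_lit 4) (nat_lit 7) (nat_lit 12) (nat_lit 3))) D746)))))))))))
noncomputable def D460 : OP := orK (nat_lit 247) (fin (add (start D457) (win (nat_lit 5) (nat_lit 7) (nat_lit 11) (nat_lit 4))))
noncomputable def D3535 : AP := fin (add (add (start D3518) (orK (nat_lit 227) (fin (add (start D2136) D460)))) (orK (nat_lit 251) (fin (add (start D3136) (orK (nat_lit 248) (fin (add (start D3123) D3530)))))))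
noncomputable def D5431 : AP := fin (add (start D722) D3998)
noncomputable def D7816 : OP := orK (nat_lit 207) D5431
noncomputable def D4922 : OP := orK (nat_lit 228) D4921
noncomputable def D7914 : OP := orK (nat_lit 227) (fin (add (add (start D4922) (orK (nat_lit 211) (fin (add (start D723) D7910)))) D7816))
noncomputable def D6351 : OP := orK (nat_lit 270) (fin (add (start D3210) (orK (nat_lit 269) (fin (add (start D2627) (orK (nat_lit 271) (fin (add (start D2719) (orK (nat_lit 248) (fin (add (start D6342) (win (nat_lit 2) (nat_lit 7) (nat_lit 12) (nat_lit 3)))))))))))))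
noncomputable def D3566 : OP := orK (nat_lit 268) (fin (add (start D2737) D3564))
noncomputable def D7849 : OP := orK (nat_lit 268) (fin (add (start D2737) (orK (nat_lit 269) (fin (add (start D746) (orK (nat_lit 267) (fin (add (start D740) (orK (nat_lit 270) (fin (add (start (orK (nat_lit 290) (fin (add (start D7835) (win (nat_lit 6) (nat_lit 9) (nat_lit 10) (nat_lit 2)))))) D7841)))))))))))
noncomputable def D3043 : OP := win (nat_lit 3) (nat_lit 9) (nat_lit 10) (nat_lit 0)
noncomputable def D7518 : OP := orK (nat_lit 249) (fin (add (add (add (start D7105) D7506) (orK (nat_lit 268) (fin (add (start D3041) (orK (nat_lit 269) (fin (add (start D3042) D7148))))))) (orK (nat_lit 268) (fin (add (start D3041) (orK (nat_lit 269) (fin (add (start D3042) (orK (nat_lit 230) (fin (add (start D3043) D3945)))))))))))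
noncomputable def D7519 : AP := fin (add (start D5157) D7518)
noncomputable def D7977 : OP := orK (nat_lit 229) (fin (add (add (add (add (start (orK (nat_lit 189) D7519)) (orK (nat_lit 208) (fin (add (add (add (add (add (start (orK (nat_lit 228) (fin (add (add (start D7164) (orK (nat_lit 248) (fin (add (add (add (start D7834) D7849) D3566) D2746)))) (orK (nat_lit 227) (fin (add (start D2136) (orK (nat_lit 230) (fin (add (add (start (orK (nat_lit 251) (fin (add (start D3514) (orK (nat_lit 231) (fin (add (start D3136) D2549))))))) (orK (nat_lit 250) (fin (add (start D3208) (orK (nat_lit 247) (fin (add (start D457) D6351))))))) (orK (nat_lit 231) (fin (add (start D2549) D460))))))))))))) D7904) (orK (nat_lit 207) (fin (add (add (start D3998) D7902) D6604)))) D7914) (orK (nat_lit 230) (fin (add (add (start D3054) (orK (nat_lit 231) (fin (add (start D2549) (orK (nat_lit 228) D3535))))) (orK (nat_lit 207) (fin (add (start D2729) (orK (nat_lit 227) (fin (add (start D722) (orK (nat_lit 187) (fin (add (start D721) (orK (nat_lit 228) (fin (add (start (orK (nat_lit 248) D7918)) (orK (nat_lit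 247) (fin (add (start D457) (orK (nat_lit 267) (fin (add (start D5365) D3201)))))))))))))))))))))) (orK (nat_lit 207) (fin (add (add (start D3998) D3261) D6604))))))) (orK (nat_lit 189) D7960)) D7975) D5550))
noncomputable def D8676 : OP := orK (nat_lit 229) D5549
noncomputable def D7520 : OP := orK (nat_lit 229) D7519
noncomputable def D5560 : OP := orK (nat_lit 149) (fin (add (start D2962) (orK (nat_lit 130) (fin (add (start D5272) (orK (nat_lit 129) (fin (add (start D5119) (orK (nat_lit 188) (fin (add (start D1232) D4464)))))))))))
noncomputable def D5581 : OP := orK (nat_lit 130) (fin (add (start D5272) (orK (nat_lit 129) (fin (add (start D5119) D4464)))))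
noncomputable def D5582 : AP := fin (add (start D2962) D5581)
noncomputable def D6160 : OP := orK (nat_lit 189) (fin (add (add (add (start (orK (nat_lit 149) D5582)) D5282) D4453) D5287))
noncomputable def D3613 : OP := orK (nat_lit 228) (fin (add (start D3267) D3318))
noncomputable def D3615 : OP := orK (nat_lit 270) (fin (add (start D3611) D3613))
noncomputable def D3608 : OP := orK (nat_lit 228) (fin (add (start D3267) (orK (nat_lit 211) (fin (add (start D396) (orK (nat_lit 231) (fin (add (start D196) (orK (nat_lit 191) (fin (add (start (win (nat_lit 1) (nat_lit 10) (nat_lit 8) (nat_lit 0))) D514)))))))))))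
noncomputable def D3599 : OP := orK (nat_lit 207) D3598
noncomputable def D3581 : OP := orK (nat_lit 228) (fin (add (start D2081) D3267))
noncomputable def D3586 : OP := orK (nat_lit 208) (fin (add (add (start (orK (nat_lit 189) (fin (add (start D3030) D3581)))) D3342) (orK (nat_lit 207) D2875)))
noncomputable def D3252 : OP := orK (nat_lit 231) D3251
noncomputable def D3274 : OP := orK (nat_lit 247) (fin (add (start D2089) (orK (nat_lit 249) (fin (add (start D3270) D232)))))
noncomputable def D3537 : OP := win (nat_lit 5) (nat_lit 7) (nat_lit 11) (nat_lit 2)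
noncomputable def D3173 : OP := orK (nat_lit 187) (fin (add (start D721) D3171))
noncomputable def D3179 : OP := orK (nat_lit 207) (fin (add (add (start D2874) D3167) (orK (nat_lit 227) (fin (add (start D722) (orK (nat_lit 228) (fin (add (start D209) D3173))))))))
noncomputable def D3620 : AP := fin (add (add (add (start D3035) (orK (nat_lit 208) (fin (add (add (add (start D3179) (orK (nat_lit 231) (fin (add (add (start D3250) D3253) (orK (nat_lit 228) (fin (add (add (add (start D2081) (orK (nat_lit 211) (fin (add (start D396) D3511)))) (orK (nat_lit 229) D3535)) (orK (nat_lit 248) (fin (add (add (add (add (start (orK (nat_lit 247) (fin (add (start D3537) D3539)))) (orK (nat_lit 229) (fin (add (start D3123) (orK (nat_lit 251) (fin (add (start D3136) D3530))))))) (orK (nat_lit 188) (fin (add (start D2740) D3274)))) D3560) (orK (nat_lit 229) (fin (add (start D3123) D3566))))))))))))) D3252) D3255)))) D3586) (orK (nat_lit 189) (fin (add (start D3030) (orK (nat_lit 208) (fin (add (add (add (start D3255) D3599) (orK (nat_lit 250) (fin (add (start D2332) D3608)))) D3615)))))))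
noncomputable def D11122 : AP := fin (add (add (add (add (add (add (add (add (start (orK (nat_lit 230) D3620)) D6160) (orK (nat_lit 189) (fin (add (add (add (start D5560) D7520) D4453) D5287)))) (orK (nat_lit 189) (fin (add (add (start D5287) D8676) (orK (nat_lit 149) D5170))))) D7977) (orK (nat_lit 208) D10853)) (orK (nat_lit 208) D11009)) (orK (nat_lit 208) (fin (add (add (add (add (add (start D3342) (orK (nat_lit 189) (fin (add (add (start D10861) (orK (nat_lit 229) (fin (add (start D5157) (orK (nat_lit 248) (fin (add (start D5535) (orK (nat_lit 249) (fin (add (start D5536) (orK (nat_lit 270) (fin (add (start D5537) (orK (nat_lit 269) (fin (add (start D7132) D3143)))))))))))))))) D5287)))) (orK (nat_lit 207) (fin (add (add (add (start D3261) (orK (nat_lit 187) (fin (add (start D721) (orK (nat_lit 211) (fin (add (start D720) (orK (nat_lit 191) (fin (add (start D514) (orK (nat_lit 231) (fin (add (start D196) (orK (nat_lit 150) (fin (add (start D11025) D7408)))))))))))))))) (orK (nat_lit 226) (fin (add (start D2050) (orK (nat_lit 206) (fin (add (start D2049) (orK (nat_lit 189) (fin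 (add (add (start D5287) (orK (nat_lit 188) (fin (add (start D5207) (orK (nat_lit 149) (fin (add (start D2961) (orK (nat_lit 187) (fin (add (start D2067) (orK (nat_lit 147) (fin (add (start D10993) (orK (nat_lit 148) (fin (add (start D366) D1629)))))))))))))))) (orK (nat_lit 150) (fin (add (start D1628) (orK (nat_lit 188) (fin (add (start D5207) (orK (nat_lit 211) (fin (add (start D200) D11049))))))))))))))))))) (orK (nat_lit 226) (fin (add (start D2050) (orK (nat_lit 206) (fin (add (start D2049) (orK (nat_lit 185) (fin (add (start D3950) (orK (nat_lit 205) (fin (add (start D3951) (orK (nat_lit 189) (fin (add (start D3587) D5287))))))))))))))))))) (orK (nat_lit 187) (fin (add (add (add (start D3306) D3312) (orK (nat_lit 228) (fin (add (add (start D2081) (orK (nat_lit 207) (fin (add (add (start (orK (nat_lit 227) (fin (add (start D722) D3171)))) (orK (nat_lit 226) (fin (add (start D2050) (orK (nat_lit 206) (fin (add (start D2049) (orK (nat_lit 205) (fin (add (start D6281) D10599)))))))))) (orK (nat_lit 167) (fin (add (start D3168) (orK (nat_lit 248) (fin (add (start D3322) D6223))))))))))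 (orK (nat_lit 188) D6211))))) D3340)))) D4502) D10821)))) (orK (nat_lit 208) (fin (add (add (add (add (add (start D2880) D4496) (orK (nat_lit 189) (fin (add (add (start D4528) (orK (nat_lit 229) D7972)) (orK (nat_lit 149) (fin (add (start D1633) D5037))))))) (orK (nat_lit 207) (fin (add (start (orK (nat_lit 230) (fin (add (start D2869) D3035)))) D3261)))) D8198) (orK (nat_lit 189) (fin (add (add (start (orK (nat_lit 149) D5574)) (orK (nat_lit 150) (fin (add (start D1628) (orK (nat_lit 187) (fin (add (add (start (orK (nat_lit 186) (fin (add (start (win (nat_lit 0) (nat_lit 6) (nat_lit 9) (nat_lit 2))) D3303)))) (orK (nat_lit 211) (fin (add (start D720) D11049)))) (orK (nat_lit 207) (fin (add (start D721) (orK (nat_lit 227) (fin (add (start D722) (orK (nat_lit 211) (fin (add (start D723) D11049)))))))))))))))) D5287)))))))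
noncomputable def D6715 : OP := orK (nat_lit 231) (fin (add (start D6634) (orK (nat_lit 230) (fin (add (start D3507) (orK (nat_lit 232) (fin (add (start D6706) (orK (nat_lit 209) (fin (add (start (win (nat_lit 0) (nat_lit 8) (nat_lit 10) (nat_lit 0))) D438)))))))))))
noncomputable def D7395 : OP := orK (nat_lit 211) (fin (add (add (add (start D6633) D6715) D6652) D7393))
noncomputable def D3014 : OP := orK (nat_lit 188) (fin (add (start D2958) (orK (nat_lit 129) (fin (add (start D1232) D3010)))))
noncomputable def D4295 : OP := orK (nat_lit 145) (fin (add (start D4263) (orK (nat_lit 165) (fin (add (start D4264) D4291)))))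
noncomputable def D4299 : OP := win (nat_lit 4) (nat_lit 5) (nat_lit 7) (nat_lit 5)
noncomputable def D4312 : OP := win (nat_lit 4) (nat_lit 4) (nat_lit 7) (nat_lit 4)
noncomputable def D4300 : AP := fin (add (start (win (nat_lit 4) (nat_lit 4) (nat_lit 7) (nat_lit 0))) D4299)
noncomputable def D4279 : OP := orK (nat_lit 184) (fin (add (start D4276) (win (nat_lit 5) (nat_lit 4) (nat_lit 8) (nat_lit 4))))
noncomputable def D4280 : AP := fin (add (start (win (nat_lit 0) (nat_lit 4) (nat_lit 8) (nat_lit 4))) D4279)
noncomputable def D4266 : OP := win (nat_lit 0) (nat_lit 4) (nat_lit 8) (nat_lit 0)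
noncomputable def D4204 : OP := win (nat_lit 3) (nat_lit 7) (nat_lit 6) (nat_lit 3)
noncomputable def D1733 : OP := win (nat_lit 1) (nat_lit 7) (nat_lit 5) (nat_lit 0)
noncomputable def D4205 : AP := fin (add (start D1733) D4204)
noncomputable def D4206 : OP := orK (nat_lit 128) D4205
noncomputable def D3952 : OP := win (nat_lit 4) (nat_lit 5) (nat_lit 9) (nat_lit 5)
noncomputable def D4013 : AP := fin (add (start (win (nat_lit 4) (nat_lit 4) (nat_lit 9) (nat_lit 0))) D3952)
noncomputable def D4014 : OP := orK (nat_lit 205) D4013
noncomputable def D4246 : OP := orK (nat_lit 209) (fin (add (start D2067) D241))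
noncomputable def D3899 : AP := fin (add (start D213) D399)
noncomputable def D3900 : OP := orK (nat_lit 149) D3899
noncomputable def D2300 : OP := win (nat_lit 7) (nat_lit 8) (nat_lit 7) (nat_lit 2)
noncomputable def D4231 : AP := fin (add (start D2850) D2300)
noncomputable def D4215 : OP := orK (nat_lit 147) (fin (add (start D4213) D4126))
noncomputable def D4180 : OP := win (nat_lit 1) (nat_lit 7) (nat_lit 6) (nat_lit 3)
noncomputable def D4182 : OP := orK (nat_lit 128) (fin (add (start D1733) D4180))
noncomputable def D4179 : OP := win (nat_lit 3) (nat_lit 7) (nat_lit 7) (nat_lit 0)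
noncomputable def D4207 : AP := fin (add (start D4179) D4206)
noncomputable def D4208 : OP := orK (nat_lit 148) D4207
noncomputable def D4199 : OP := orK (nat_lit 248) (fin (add (start D4196) D4197))
noncomputable def D4189 : OP := win (nat_lit 3) (nat_lit 7) (nat_lit 8) (nat_lit 4)
noncomputable def D4201 : OP := orK (nat_lit 247) (fin (add (start D4189) D4199))
noncomputable def D4186 : OP := orK (nat_lit 228) D3170
noncomputable def D4135 : AP := fin (add (start D4133) (win (nat_lit 5) (nat_lit 6) (nat_lit 10) (nat_lit 1)))
noncomputable def D3838 : OP := win (nat_lit 7) (nat_lit 7) (nat_lit 7) (nat_lit 0)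
noncomputable def D4091 : OP := win (nat_lit 7) (nat_lit 7) (nat_lit 6) (nat_lit 3)
noncomputable def D4124 : AP := fin (add (start D4091) D3838)
noncomputable def D3821 : OP := win (nat_lit 6) (nat_lit 7) (nat_lit 5) (nat_lit 0)
noncomputable def D4090 : OP := win (nat_lit 6) (nat_lit 7) (nat_lit 6) (nat_lit 3)
noncomputable def D4122 : AP := fin (add (start D4090) D3838)
noncomputable def D4138 : OP := orK (nat_lit 226) (fin (add (start D4132) (orK (nat_lit 227) D4135)))
noncomputable def D4127 : OP := win (nat_lit 3) (nat_lit 7) (nat_lit 6) (nat_lit 4)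
noncomputable def D3846 : OP := win (nat_lit 3) (nat_lit 7) (nat_lit 5) (nat_lit 5)
noncomputable def D4129 : OP := orK (nat_lit 128) (fin (add (start D3846) D4127))
noncomputable def D4139 : AP := fin (add (start D4126) D4138)
noncomputable def D4113 : OP := win (nat_lit 7) (nat_lit 6) (nat_lit 4) (nat_lit 5)
noncomputable def D4116 : OP := orK (nat_lit 106) (fin (add (start D4113) (win (nat_lit 7) (nat_lit 6) (nat_lit 5) (nat_lit 4))))
noncomputable def D4110 : OP := win (nat_lit 3) (nat_lit 7) (nat_lit 5) (nat_lit 4)
noncomputable def D4109 : OP := win (nat_lit 3) (nat_lit 7) (nat_lit 4) (nat_lit 5)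
noncomputable def D4117 : AP := fin (add (start (orK (nat_lit 108) (fin (add (start D4109) D4110)))) D4116)
noncomputable def D4096 : OP := win (nat_lit 6) (nat_lit 7) (nat_lit 4) (nat_lit 4)
noncomputable def D4325 : AP := fin (add (add (add (add (start D3797) (orK (nat_lit 147) (fin (add (start D1246) (orK (nat_lit 127) (fin (add (add (add (start (orK (nat_lit 107) (fin (add (add (start (orK (nat_lit 87) (fin (add (start D4096) (orK (nat_lit 88) (fin (add (start (win (nat_lit 3) (nat_lit 7) (nat_lit 3) (nat_lit 5))) (win (nat_lit 3) (nat_lit 7) (nat_lit 4) (nat_lit 4))))))))) (orK (nat_lit 86) (fin (add (start (win (nat_lit 7) (nat_lit 6) (nat_lit 4) (nat_lit 4))) (orK (nat_lit 87) (fin (add (start D4096) (win (nat_lit 7) (nat_lit 6) (nat_lit 3) (nat_lit 5))))))))) (orK (nat_lit 187) D4117))))) (orK (nat_lit 208) (fin (add (add (add (start (orK (nat_lit 188) (fin (add (start D4090) D4091)))) (orK (nat_lit 188) D4122)) (orK (nat_lit 188) D4124)) (orK (nat_lit 207) (fin (add (add (add (start (orK (nat_lit 187) (fin (add (start D4126) D4129)))) (orK (nat_lit 187) D4139)) (orK (nat_lit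 209) (fin (add (add (start (orK (nat_lit 227) (fin (add (start D722) (orK (nat_lit 228) (fin (add (start D209) (orK (nat_lit 189) (fin (add (start D3264) (orK (nat_lit 229) (fin (add (start D3036) D3039))))))))))))) (orK (nat_lit 230) (fin (add (start D2869) (orK (nat_lit 229) (fin (add (start D2729) (orK (nat_lit 189) (fin (add (start D3030) D3945)))))))))) D4160)))) (orK (nat_lit 187) (fin (add (start D4129) D4138)))))))))) (orK (nat_lit 188) (fin (add (start D3821) (orK (nat_lit 208) D4122))))) (orK (nat_lit 188) (fin (add (start D3821) (orK (nat_lit 208) D4124))))))))))) (orK (nat_lit 187) (fin (add (start D821) (orK (nat_lit 207) (fin (add (add (add (start (orK (nat_lit 148) (fin (add (start D4179) D4182)))) (orK (nat_lit 227) (fin (add (add (start (orK (nat_lit 208) (fin (add (start (orK (nat_lit 226) D4135)) D4186)))) (orK (nat_lit 247) (fin (add (start D4189) (orK (nat_lit 246) (fin (add (start (win (nat_lit 1) (nat_lit 6) (nat_lit 8) (nat_lit 4))) D4191))))))) D4201)))) D4208) (orK (nat_lit 148) (fin (add (add (start D4182) (orK (nat_lit 208) (fin (add (add (add (start (orK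 (nat_lit 228) (fin (add (start D3168) (orK (nat_lit 188) (fin (add (start D230) D2110))))))) (orK (nat_lit 206) (fin (add (add (start D4215) (orK (nat_lit 205) (fin (add (start (orK (nat_lit 204) (fin (add (start (orK (nat_lit 184) (fin (add (start D4221) D4222)))) D4228)))) (orK (nat_lit 229) (fin (add (start D4216) (orK (nat_lit 209) D4231)))))))) (orK (nat_lit 226) (fin (add (start (win (nat_lit 1) (nat_lit 6) (nat_lit 7) (nat_lit 0))) (orK (nat_lit 209) (fin (add (start D2049) (orK (nat_lit 229) D4231))))))))))) (orK (nat_lit 188) (fin (add (start D4246) D3900)))) (orK (nat_lit 188) (fin (add (start D4246) (orK (nat_lit 147) (fin (add (start D2111) (orK (nat_lit 206) (fin (add (start D4213) D4014))))))))))))) D4206)))))))))) (orK (nat_lit 166) (fin (add (add (add (start D1882) (orK (nat_lit 145) (fin (add (start D4263) (orK (nat_lit 165) (fin (add (start D4264) (orK (nat_lit 188) (fin (add (start D4265) (orK (nat_lit 187) (fin (add (start D4266) D821))))))))))))) (orK (nat_lit 145) (fin (add (start D4263) (orK (nat_lit 165) (fin (add (start D4264) (orK (nat_lit 188) (fin (add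 (start D4265) (orK (nat_lit 164) D4280))))))))))) D4295)))) (orK (nat_lit 166) (fin (add (add (add (start D1876) (orK (nat_lit 185) (fin (add (start D4289) (orK (nat_lit 165) (fin (add (start D4288) (orK (nat_lit 147) (fin (add (start D1246) (orK (nat_lit 188) (fin (add (start D4265) (orK (nat_lit 148) D4300)))))))))))))) (orK (nat_lit 185) (fin (add (start D4289) (orK (nat_lit 165) (fin (add (start D4288) (orK (nat_lit 144) (fin (add (start D4310) (orK (nat_lit 164) (fin (add (start D4311) (orK (nat_lit 148) (fin (add (start D4312) D4299)))))))))))))))) D4295))))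
noncomputable def D4326 : OP := orK (nat_lit 167) D4325
noncomputable def D951 : OP := win (nat_lit 1) (nat_lit 7) (nat_lit 6) (nat_lit 5)
noncomputable def D6991 : AP := fin (add (start D3694) D3699)
noncomputable def D9978 : OP := orK (nat_lit 128) (fin (add (start D1809) (orK (nat_lit 209) D6991)))
noncomputable def D3693 : OP := win (nat_lit 6) (nat_lit 8) (nat_lit 6) (nat_lit 3)
noncomputable def D3711 : AP := fin (add (start D3693) D3699)
noncomputable def D3713 : AP := fin (add (start D1809) (orK (nat_lit 209) D3711))
noncomputable def D3714 : OP := orK (nat_lit 128) D3713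
noncomputable def D3942 : OP := orK (nat_lit 129) (fin (add (start D1323) D3940))
noncomputable def D3935 : OP := orK (nat_lit 227) (fin (add (start D3933) D722))
noncomputable def D3923 : OP := orK (nat_lit 129) (fin (add (start D1323) (win (nat_lit 1) (nat_lit 8) (nat_lit 6) (nat_lit 3))))
noncomputable def D4005 : OP := orK (nat_lit 206) (fin (add (start D4003) D2052))
noncomputable def D3943 : AP := fin (add (start D399) D3942)
noncomputable def D3944 : OP := orK (nat_lit 149) D3943
noncomputable def D5184 : OP := orK (nat_lit 209) (fin (add (start D209) D241))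
noncomputable def D5182 : OP := win (nat_lit 1) (nat_lit 7) (nat_lit 7) (nat_lit 4)
noncomputable def D4044 : OP := orK (nat_lit 249) (fin (add (start D2103) D232))
noncomputable def D4046 : OP := orK (nat_lit 248) (fin (add (start D231) D4044))
noncomputable def D6895 : OP := orK (nat_lit 247) (fin (add (start D2090) (orK (nat_lit 248) (fin (add (start D2089) D231)))))
noncomputable def D3925 : OP := orK (nat_lit 149) (fin (add (start D399) D3923))
noncomputable def D6922 : OP := orK (nat_lit 208) (fin (add (add (add (start D3925) (orK (nat_lit 228) (fin (add (add (start D6895) D4046) (orK (nat_lit 227) (fin (add (start D208) (orK (nat_lit 148) (fin (add (start D5182) D5184)))))))))) D3944) (orK (nat_lit 209) (fin (add (add (add (start (orK (nat_lit 229) (fin (add (start D201) (orK (nat_lit 249) D228))))) D4496) (orK (nat_lit 207) (fin (add (add (start D4005) (orK (nat_lit 229) (fin (add (start D201) D3998)))) D3935)))) (orK (nat_lit 149) (fin (add (add (start D3923) (orK (nat_lit 207) (fin (add (start (orK (nat_lit 230) (fin (add (start D2869) D4651)))) D3935)))) D3942))))))))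
noncomputable def D6924 : OP := orK (nat_lit 188) (fin (add (start D61) D6922))
noncomputable def D9944 : OP := orK (nat_lit 192) (fin (add (start D60) (orK (nat_lit 172) (fin (add (start D59) D993)))))
noncomputable def D3814 : OP := win (nat_lit 0) (nat_lit 5) (nat_lit 7) (nat_lit 0)
noncomputable def D3816 : AP := fin (add (start D3814) D3815)
noncomputable def D3873 : OP := orK (nat_lit 146) D3816
noncomputable def D3874 : AP := fin (add (start D3864) D3873)
noncomputable def D9938 : OP := orK (nat_lit 147) D3874
noncomputable def D10124 : OP := orK (nat_lit 148) (fin (add (add (add (start D9938) (orK (nat_lit 171) (fin (add (add (start D9944) D6924) D3677)))) (orK (nat_lit 171) (fin (add (start D992) D3677)))) (orK (nat_lit 189) (fin (add (add (add (start (orK (nat_lit 209) (fin (add (start D3699) (orK (nat_lit 149) (fin (add (start D2962) (orK (nat_lit 147) (fin (add (start D366) (orK (nat_lit 208) (fin (add (start D1633) (orK (nat_lit 188) (fin (add (start D2961) D214)))))))))))))))) D3714) D9978) (orK (nat_lit 128) (fin (add (start D1809) (orK (nat_lit 188) (fin (add (start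 (orK (nat_lit 187) (fin (add (start D951) D1638)))) (orK (nat_lit 129) (fin (add (start D243) (orK (nat_lit 208) (fin (add (start (win (nat_lit 1) (nat_lit 8) (nat_lit 6) (nat_lit 1))) D2127)))))))))))))))))
noncomputable def D1641 : OP := win (nat_lit 3) (nat_lit 7) (nat_lit 6) (nat_lit 0)
noncomputable def D3866 : OP := orK (nat_lit 128) (fin (add (start D1733) D1641))
noncomputable def D3868 : OP := orK (nat_lit 148) (fin (add (start D3864) D3866))
noncomputable def D4087 : OP := orK (nat_lit 167) (fin (add (start D821) (orK (nat_lit 147) (fin (add (start D1246) D3868)))))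
noncomputable def D3977 : OP := win (nat_lit 4) (nat_lit 6) (nat_lit 8) (nat_lit 3)
noncomputable def D3833 : OP := win (nat_lit 4) (nat_lit 5) (nat_lit 8) (nat_lit 0)
noncomputable def D3978 : AP := fin (add (start D3833) D3977)
noncomputable def D3979 : OP := orK (nat_lit 186) D3978
noncomputable def D7543 : OP := orK (nat_lit 188) (fin (add (start D3820) D3979))
noncomputable def D6925 : AP := fin (add (start D322) D4996)
noncomputable def D6927 : AP := fin (add (start D4033) (orK (nat_lit 150) D6925))
noncomputable def D7253 : OP := orK (nat_lit 191) (fin (add (start D383) (orK (nat_lit 211) (fin (add (add (add (start (orK (nat_lit 151) D6927)) D6633) D6715) (orK (nat_lit 150) (fin (add (start D4997) (orK (nat_lit 151) D6925)))))))))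
noncomputable def D3191 : OP := win (nat_lit 5) (nat_lit 6) (nat_lit 8) (nat_lit 3)
noncomputable def D4075 : OP := orK (nat_lit 186) (fin (add (start D3191) (orK (nat_lit 188) D3978)))
noncomputable def D4026 : OP := orK (nat_lit 186) (fin (add (start D3833) D3191))
noncomputable def D4069 : AP := fin (add (start D3820) D4026)
noncomputable def D4070 : OP := orK (nat_lit 187) D4069
noncomputable def D3985 : OP := orK (nat_lit 192) (fin (add (start D60) (orK (nat_lit 172) (fin (add (start D59) D62)))))
noncomputable def D2440 : OP := win (nat_lit 6) (nat_lit 8) (nat_lit 8) (nat_lit 5)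
noncomputable def D4038 : OP := win (nat_lit 5) (nat_lit 7) (nat_lit 10) (nat_lit 2)
noncomputable def D10340 : OP := orK (nat_lit 227) (fin (add (start D208) (orK (nat_lit 211) (fin (add (start D4038) (orK (nat_lit 229) (fin (add (start D5301) D2440))))))))
noncomputable def D3999 : OP := orK (nat_lit 249) D226
noncomputable def D3992 : OP := win (nat_lit 1) (nat_lit 7) (nat_lit 8) (nat_lit 3)
noncomputable def D3995 : OP := orK (nat_lit 247) (fin (add (start D3992) D3993))
noncomputable def D4024 : OP := orK (nat_lit 208) (fin (add (add (start (orK (nat_lit 228) (fin (add (start D230) (orK (nat_lit 248) (fin (add (start D231) D2738))))))) (orK (nat_lit 209) (fin (add (start D2067) (orK (nat_lit 207) (fin (add (add (start (orK (nat_lit 227) (fin (add (start D722) D3995)))) (orK (nat_lit 229) (fin (add (start D3998) D3999)))) D4005))))))) (orK (nat_lit 209) (fin (add (start D2067) (orK (nat_lit 207) (fin (add (start (orK (nat_lit 227) (fin (add (start D942) D722)))) (orK (nat_lit 230) (fin (add (start D2869) (orK (nat_lit 206) (fin (add (start D2870) D4014))))))))))))))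
noncomputable def D4028 : OP := orK (nat_lit 187) (fin (add (add (start D3979) D4024) D4026))
noncomputable def D3986 : AP := fin (add (start D61) D3985)
noncomputable def D3987 : OP := orK (nat_lit 171) D3986
noncomputable def D3875 : OP := orK (nat_lit 148) D3874
noncomputable def D7466 : OP := orK (nat_lit 109) (fin (add (start D1093) D1235))
noncomputable def D10040 : AP := fin (add (start D1323) D1232)
noncomputable def D7700 : OP := orK (nat_lit 148) (fin (add (start D3814) D3864))
noncomputable def D7701 : AP := fin (add (start D3813) D7700)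
noncomputable def D6962 : OP := win (nat_lit 6) (nat_lit 8) (nat_lit 4) (nat_lit 4)
noncomputable def D1437 : OP := win (nat_lit 3) (nat_lit 8) (nat_lit 3) (nat_lit 5)
noncomputable def D1533 : OP := win (nat_lit 3) (nat_lit 8) (nat_lit 4) (nat_lit 4)
noncomputable def D6966 : OP := orK (nat_lit 89) (fin (add (start D1533) (orK (nat_lit 88) (fin (add (start D1437) D6962)))))
noncomputable def D10264 : OP := orK (nat_lit 165) D4300
noncomputable def D10281 : OP := orK (nat_lit 166) (fin (add (start (win (nat_lit 1) (nat_lit 6) (nat_lit 5) (nat_lit 5))) D10264))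
noncomputable def D3848 : OP := win (nat_lit 0) (nat_lit 4) (nat_lit 6) (nat_lit 0)
noncomputable def D10276 : OP := orK (nat_lit 106) (fin (add (start D4113) (orK (nat_lit 126) (fin (add (start (win (nat_lit 7) (nat_lit 6) (nat_lit 5) (nat_lit 0))) (orK (nat_lit 125) (fin (add (start D3848) (win (nat_lit 5) (nat_lit 5) (nat_lit 5) (nat_lit 0))))))))))
noncomputable def D1662 : OP := win (nat_lit 6) (nat_lit 7) (nat_lit 4) (nat_lit 0)
noncomputable def D10211 : OP := orK (nat_lit 110) (fin (add (start D1464) D1467))
noncomputable def D10176 : OP := orK (nat_lit 125) (fin (add (start (win (nat_lit 5) (nat_lit 4) (nat_lit 5) (nat_lit 5))) (win (nat_lit 5) (nat_lit 5) (nat_lit 5) (nat_lit 4))))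
noncomputable def D10178 : OP := orK (nat_lit 105) (fin (add (start (orK (nat_lit 85) (fin (add (start (win (nat_lit 2) (nat_lit 4) (nat_lit 4) (nat_lit 5))) (win (nat_lit 2) (nat_lit 5) (nat_lit 4) (nat_lit 4)))))) D10176))
noncomputable def D10205 : OP := win (nat_lit 4) (nat_lit 6) (nat_lit 4) (nat_lit 5)
noncomputable def D662 : OP := win (nat_lit 0) (nat_lit 7) (nat_lit 5) (nat_lit 5)
noncomputable def D6969 : OP := win (nat_lit 3) (nat_lit 9) (nat_lit 4) (nat_lit 1)
noncomputable def D666 : OP := win (nat_lit 0) (nat_lit 8) (nat_lit 5) (nat_lit 5)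
noncomputable def D5761 : OP := win (nat_lit 0) (nat_lit 7) (nat_lit 5) (nat_lit 4)
noncomputable def D5763 : OP := orK (nat_lit 131) (fin (add (start D5761) D666))
noncomputable def D6118 : OP := win (nat_lit 0) (nat_lit 6) (nat_lit 5) (nat_lit 4)
noncomputable def D10201 : AP := fin (add (start (orK (nat_lit 130) (fin (add (start D6118) D662)))) D1464)
noncomputable def D5697 : OP := win (nat_lit 0) (nat_lit 6) (nat_lit 5) (nat_lit 5)
noncomputable def D10180 : OP := orK (nat_lit 149) (fin (add (start D933) D1218))
noncomputable def D661 : OP := win (nat_lit 0) (nat_lit 6) (nat_lit 5) (nat_lit 0)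
noncomputable def D5754 : AP := fin (add (start (win (nat_lit 0) (nat_lit 5) (nat_lit 5) (nat_lit 0))) D5697)
noncomputable def D1425 : OP := win (nat_lit 1) (nat_lit 7) (nat_lit 5) (nat_lit 5)
noncomputable def D10295 : OP := orK (nat_lit 108) (fin (add (add (add (start (orK (nat_lit 128) (fin (add (start D884) (orK (nat_lit 88) (fin (add (start (win (nat_lit 1) (nat_lit 7) (nat_lit 4) (nat_lit 5))) D6962))))))) (orK (nat_lit 128) (fin (add (start D884) (orK (nat_lit 167) (fin (add (start D1425) (orK (nat_lit 107) (fin (add (start D6017) (orK (nat_lit 109) (fin (add (start D1421) (orK (nat_lit 106) (fin (add (start (orK (nat_lit 129) D5754)) (orK (nat_lit 86) (fin (add (start D1405) (win (nat_lit 7) (nat_lit 6) (nat_lit 4) (nat_lit 2))))))))))))))))))))) (orK (nat_lit 107) (fin (add (add (add (start (orK (nat_lit 127) (fin (add (start D1662) (orK (nat_lit 167) (fin (add (start D4109) (orK (nat_lit 186) (fin (add (start (win (nat_lit 1) (nat_lit 6) (nat_lit 5) (nat_lit 4))) D1880)))))))))) (orK (nat_lit 109) (fin (add (add (add (add (add (start (orK (nat_lit 106) (fin (add (start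 D10178) (orK (nat_lit 129) (fin (add (start D5697) D10180))))))) (orK (nat_lit 129) (fin (add (start (orK (nat_lit 130) (fin (add (start D661) (orK (nat_lit 131) (fin (add (start (win (nat_lit 0) (nat_lit 7) (nat_lit 5) (nat_lit 3))) (win (nat_lit 2) (nat_lit 8) (nat_lit 5) (nat_lit 0))))))))) D10180)))) (orK (nat_lit 106) (fin (add (add (start (orK (nat_lit 110) D10201)) (orK (nat_lit 89) (fin (add (start D10205) (orK (nat_lit 129) (fin (add (start D5697) (win (nat_lit 1) (nat_lit 8) (nat_lit 4) (nat_lit 3))))))))) D10211)))) (orK (nat_lit 110) (fin (add (add (start (orK (nat_lit 106) D10201)) (orK (nat_lit 111) (fin (add (start D5763) D1131)))) D1470)))) (orK (nat_lit 110) (fin (add (add (add (start (orK (nat_lit 131) (fin (add (start D5761) (orK (nat_lit 111) (fin (add (start D666) D690))))))) (orK (nat_lit 131) (fin (add (start D5761) (orK (nat_lit 111) (fin (add (start D666) D1131))))))) (orK (nat_lit 87) (fin (add (start D687) (orK (nat_lit 111) (fin (add (start D688) D1131))))))) (orK (nat_lit 87) (fin (add (start D687) (orK (nat_lit 90) (fin (add (start D1297) (orK (nat_lit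 129) (fin (add (start D6969) (orK (nat_lit 130) (fin (add (start D662) (orK (nat_lit 70) (fin (add (start (win (nat_lit 1) (nat_lit 9) (nat_lit 2) (nat_lit 0))) (orK (nat_lit 71) (fin (add (start (win (nat_lit 3) (nat_lit 10) (nat_lit 2) (nat_lit 5))) (orK (nat_lit 88) (fin (add (start (win (nat_lit 4) (nat_lit 7) (nat_lit 3) (nat_lit 2))) (orK (nat_lit 69) (fin (add (start (win (nat_lit 5) (nat_lit 7) (nat_lit 3) (nat_lit 3))) (win (nat_lit 7) (nat_lit 9) (nat_lit 2) (nat_lit 5)))))))))))))))))))))))))))))) (orK (nat_lit 106) (fin (add (add (start (orK (nat_lit 105) (fin (add (start (orK (nat_lit 89) (fin (add (start (win (nat_lit 4) (nat_lit 5) (nat_lit 4) (nat_lit 4))) D10205)))) D10176)))) D10178) D10211))))))) (orK (nat_lit 167) (fin (add (add (start (orK (nat_lit 186) (fin (add (start D1880) (orK (nat_lit 166) (fin (add (start D1879) D10264))))))) (orK (nat_lit 127) (fin (add (start D4109) D10276)))) (orK (nat_lit 127) (fin (add (start D4109) D10281))))))) (orK (nat_lit 127) (fin (add (start D1662) (orK (nat_lit 167) (fin (add (start D10276) D10281)))))))))) (orK (nat_lit 128)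 (fin (add (start D884) D6966)))))
noncomputable def D9937 : OP := orK (nat_lit 188) (fin (add (start D6922) D4070))
noncomputable def D3847 : OP := win (nat_lit 7) (nat_lit 6) (nat_lit 5) (nat_lit 5)
noncomputable def D1734 : AP := fin (add (start D1733) D951)
noncomputable def D3823 : AP := fin (add (start D3821) (win (nat_lit 6) (nat_lit 7) (nat_lit 6) (nat_lit 5)))
noncomputable def D3824 : OP := orK (nat_lit 127) D3823
noncomputable def D3825 : AP := fin (add (start D3820) D3824)
noncomputable def D3877 : OP := orK (nat_lit 147) (fin (add (add (add (start (orK (nat_lit 146) (fin (add (start D3813) (orK (nat_lit 148) D3816))))) (orK (nat_lit 167) (fin (add (start D1246) (orK (nat_lit 187) (fin (add (start D821) (orK (nat_lit 188) D3825)))))))) (orK (nat_lit 187) (fin (add (add (add (start (orK (nat_lit 171) (fin (add (start D1885) D822)))) (orK (nat_lit 186) (fin (add (start D3191) (orK (nat_lit 188) (fin (add (start D3833) D3820))))))) (orK (nat_lit 167) (fin (add (start D821) (orK (nat_lit 188) (fin (add (add (start D3824) (orK (nat_lit 208) (fin (add (start D3838) (orK (nat_lit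 209) (fin (add (start D2067) (orK (nat_lit 148) (fin (add (start D241) (orK (nat_lit 128) D1734))))))))))) (orK (nat_lit 127) (fin (add (start D3821) (orK (nat_lit 128) (fin (add (start D3846) (orK (nat_lit 148) (fin (add (start D951) (orK (nat_lit 126) (fin (add (start D3847) (orK (nat_lit 125) (fin (add (start D3848) (win (nat_lit 0) (nat_lit 5) (nat_lit 6) (nat_lit 5)))))))))))))))))))))))) (orK (nat_lit 167) (fin (add (start D821) D3868))))))) D3875))
noncomputable def D7562 : OP := orK (nat_lit 146) (fin (add (start D3814) D3813))
noncomputable def D7564 : OP := orK (nat_lit 147) (fin (add (start D3864) D7562))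
noncomputable def D1543 : OP := win (nat_lit 6) (nat_lit 8) (nat_lit 6) (nat_lit 5)
noncomputable def D6777 : AP := fin (add (start D1809) D1543)
noncomputable def D7553 : AP := fin (add (start D4204) D4179)
noncomputable def D7548 : OP := orK (nat_lit 108) (fin (add (start (win (nat_lit 1) (nat_lit 7) (nat_lit 5) (nat_lit 4))) D884))
noncomputable def D8118 : OP := win (nat_lit 3) (nat_lit 6) (nat_lit 7) (nat_lit 1)
noncomputable def D10066 : AP := fin (add (start D3036) (orK (nat_lit 226) (fin (add (start D8118) D3122))))
noncomputable def D3052 : OP := win (nat_lit 7) (nat_lit 8) (nat_lit 8) (nat_lit 0)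
noncomputable def D7427 : OP := win (nat_lit 0) (nat_lit 5) (nat_lit 8) (nat_lit 0)
noncomputable def D10041 : OP := orK (nat_lit 129) D10040
noncomputable def D8306 : OP := win (nat_lit 6) (nat_lit 5) (nat_lit 8) (nat_lit 5)
noncomputable def D8305 : OP := win (nat_lit 6) (nat_lit 5) (nat_lit 7) (nat_lit 4)
noncomputable def D10027 : OP := orK (nat_lit 209) (fin (add (start D2962) (orK (nat_lit 228) (fin (add (start D5156) (orK (nat_lit 229) (fin (add (start D3036) (orK (nat_lit 226) (fin (add (start D3122) (orK (nat_lit 205) (fin (add (start D8305) (orK (nat_lit 224) (fin (add (start (win (nat_lit 1) (nat_lit 4) (nat_lit 7) (nat_lit 4))) (orK (nat_lit 225) (fin (add (start (win (nat_lit 1) (nat_lit 4) (nat_lit 8) (nat_lit 5))) D8306))))))))))))))))))))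
noncomputable def D7434 : OP := win (nat_lit 0) (nat_lit 5) (nat_lit 8) (nat_lit 4)
noncomputable def D10006 : AP := fin (add (start D4265) (orK (nat_lit 187) (fin (add (start D4266) D3820))))
noncomputable def D7014 : OP := orK (nat_lit 189) D3713
noncomputable def D7007 : OP := orK (nat_lit 227) (fin (add (start D5182) (orK (nat_lit 228) D210)))
noncomputable def D7009 : OP := orK (nat_lit 188) (fin (add (start D7007) D6782))
noncomputable def D7001 : OP := orK (nat_lit 231) (fin (add (add (start (orK (nat_lit 211) (fin (add (start D196) D6634)))) D6202) (orK (nat_lit 211) (fin (add (start D6634) (orK (nat_lit 230) (fin (add (start D2482) D3507))))))))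
noncomputable def D6994 : OP := orK (nat_lit 188) (fin (add (start D241) D6782))
noncomputable def D6992 : OP := orK (nat_lit 189) D6991
noncomputable def D6990 : OP := orK (nat_lit 189) D3711
noncomputable def D6989 : OP := orK (nat_lit 189) (fin (add (start D3693) D3694))
noncomputable def D1438 : OP := win (nat_lit 7) (nat_lit 7) (nat_lit 3) (nat_lit 5)
noncomputable def D1536 : OP := orK (nat_lit 87) (fin (add (start D1438) (win (nat_lit 7) (nat_lit 7) (nat_lit 4) (nat_lit 4))))
noncomputable def D1540 : OP := orK (nat_lit 89) (fin (add (start D1533) (orK (nat_lit 88) (fin (add (start D1437) D1536)))))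
noncomputable def D681 : OP := win (nat_lit 5) (nat_lit 7) (nat_lit 5) (nat_lit 5)
noncomputable def D1220 : OP := win (nat_lit 5) (nat_lit 7) (nat_lit 5) (nat_lit 0)
noncomputable def D3720 : OP := win (nat_lit 4) (nat_lit 6) (nat_lit 5) (nat_lit 0)
noncomputable def D5755 : OP := orK (nat_lit 106) D5754
noncomputable def D6988 : OP := orK (nat_lit 108) (fin (add (add (add (start D6966) (orK (nat_lit 88) (fin (add (start D6962) D1536)))) (orK (nat_lit 109) (fin (add (start D1421) (orK (nat_lit 107) (fin (add (start D6017) (orK (nat_lit 110) (fin (add (add (start (orK (nat_lit 129) (fin (add (start D5755) (orK (nat_lit 90) (fin (add (start D6969) D1297))))))) (orK (nat_lit 129) (fin (add (start D5755) (orK (nat_lit 127) (fin (add (start D3720) D1220))))))) (orK (nat_lit 111) (fin (add (start D681) D1131))))))))))))) D1540))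
noncomputable def D9917 : OP := orK (nat_lit 149) (fin (add (start D5901) (orK (nat_lit 148) (fin (add (start D922) (orK (nat_lit 171) D4706))))))
noncomputable def D10300 : AP := fin (add (add (add (add (add (add (add (start (orK (nat_lit 167) (fin (add (add (add (add (start D3797) (orK (nat_lit 147) (fin (add (start D1246) (orK (nat_lit 148) (fin (add (start D3864) (orK (nat_lit 187) (fin (add (start D821) D3866)))))))))) (orK (nat_lit 166) (fin (add (add (start D1876) D9917) D9923)))) (orK (nat_lit 186) (fin (add (start D1880) (orK (nat_lit 166) (fin (add (start D1879) D9917))))))) D9933)))) D9937) (orK (nat_lit 148) (fin (add (add (start (orK (nat_lit 128) (fin (add (add (start D6988) (orK (nat_lit 209) (fin (add (add (add (start D6989) D6990) D6992) (orK (nat_lit 208) (fin (add (add (add (start D6994) (orK (nat_lit 188) (fin (add (start D241) D7007)))) (orK (nat_lit 171) (fin (add (add (start (orK (nat_lit 191) (fin (add (start D383) D7001)))) (orK (nat_lit 172) (fin (add (start D993) D58)))) (orK (nat_lit 231) (fin (add (add (start (orK (nat_lit 211) (fin (add (start D196)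 (orK (nat_lit 172) (fin (add (start D993) (orK (nat_lit 191) (fin (add (start D6635) D6634)))))))))) D6202) (orK (nat_lit 207) (fin (add (start D2859) (orK (nat_lit 172) (fin (add (start D993) (orK (nat_lit 152) (fin (add (start D125) (orK (nat_lit 211) (fin (add (start D9955) D725))))))))))))))))))) D7009))))))) D7014)))) D7564) (orK (nat_lit 147) (fin (add (start (orK (nat_lit 189) (fin (add (add (add (start (orK (nat_lit 209) (fin (add (start D3699) D5280)))) D3714) D9978) (orK (nat_lit 128) (fin (add (start D1809) (orK (nat_lit 188) (fin (add (start (orK (nat_lit 127) (fin (add (start D953) (win (nat_lit 7) (nat_lit 7) (nat_lit 6) (nat_lit 0)))))) (orK (nat_lit 129) (fin (add (start D243) (orK (nat_lit 130) (fin (add (start (win (nat_lit 5) (nat_lit 7) (nat_lit 6) (nat_lit 0))) (orK (nat_lit 110) (fin (add (start D9982) (win (nat_lit 3) (nat_lit 9) (nat_lit 5) (nat_lit 2))))))))))))))))))))) D7562))))))) (orK (nat_lit 167) (fin (add (add (add (start D3797) (orK (nat_lit 187) (fin (add (start D821) (orK (nat_lit 188) (fin (add (start D3820) D4024))))))) (orK (nat_lit 166) (fin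 (add (add (start D1876) (orK (nat_lit 149) (fin (add (start D5901) (orK (nat_lit 165) (fin (add (add (start (orK (nat_lit 188) D10006)) (orK (nat_lit 144) (fin (add (start D4310) (orK (nat_lit 164) (fin (add (start D4311) D4279))))))) (orK (nat_lit 189) (fin (add (start D7434) (orK (nat_lit 145) (fin (add (start D4264) (orK (nat_lit 185) (fin (add (start D4288) D10027)))))))))))))))) (orK (nat_lit 147) (fin (add (start D1246) (orK (nat_lit 188) (fin (add (add (start (orK (nat_lit 165) D10006)) (orK (nat_lit 187) D3825)) (orK (nat_lit 189) (fin (add (start D7427) (orK (nat_lit 149) (fin (add (start D5901) D10041)))))))))))))))) (orK (nat_lit 166) (fin (add (add (start D1876) (orK (nat_lit 149) (fin (add (start D5901) (orK (nat_lit 185) (fin (add (start D4289) (orK (nat_lit 165) (fin (add (start D4288) (orK (nat_lit 145) (fin (add (start D4264) (orK (nat_lit 189) (fin (add (start D7434) D10027)))))))))))))))) (orK (nat_lit 149) (fin (add (start D5901) (orK (nat_lit 186) (fin (add (start D1879) (orK (nat_lit 189) (fin (add (add (start (orK (nat_lit 188) (fin (add (start D7427) D10041))))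 (orK (nat_lit 147) (fin (add (start D1246) (orK (nat_lit 209) (fin (add (start D2962) (orK (nat_lit 228) (fin (add (start D5156) (orK (nat_lit 229) D10066))))))))))) (orK (nat_lit 147) (fin (add (start D1246) (orK (nat_lit 188) (fin (add (start D7427) (orK (nat_lit 107) (fin (add (start (win (nat_lit 1) (nat_lit 6) (nat_lit 5) (nat_lit 1))) (orK (nat_lit 209) (fin (add (start D2962) (orK (nat_lit 229) (fin (add (start D3052) (orK (nat_lit 228) D10066)))))))))))))))))))))))))))))))) (orK (nat_lit 187) (fin (add (add (add (start D4075) D4087) D7543) (orK (nat_lit 148) (fin (add (add (add (start (orK (nat_lit 171) (fin (add (start D992) D822)))) (orK (nat_lit 188) (fin (add (start D3820) (orK (nat_lit 128) (fin (add (start D951) D7548))))))) (orK (nat_lit 128) (fin (add (add (start D7548) (orK (nat_lit 207) (fin (add (start D4180) (orK (nat_lit 167) D7553))))) (orK (nat_lit 188) (fin (add (start D951) (orK (nat_lit 189) D6777)))))))) D7564))))))) D10124) D4326) (orK (nat_lit 148) (fin (add (add (add (start D9938) (orK (nat_lit 188) (fin (add (add (start D6796) (orK (nat_lit 187) (fin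 (add (start D3820) (orK (nat_lit 186) (fin (add (start D3977) D3191))))))) (orK (nat_lit 171) (fin (add (start D61) D9944))))))) D7564) (orK (nat_lit 147) (fin (add (add (start D3873) D10295) D7562)))))))
noncomputable def D3964 : OP := orK (nat_lit 209) (fin (add (add (start D3252) (orK (nat_lit 189) (fin (add (start D3030) (orK (nat_lit 229) (fin (add (start D3945) D3052))))))) (orK (nat_lit 207) (fin (add (start D2869) (orK (nat_lit 226) (fin (add (start D2050) (orK (nat_lit 206) (fin (add (start D2049) (orK (nat_lit 185) (fin (add (start D3950) (orK (nat_lit 205) (fin (add (start D3951) D3952)))))))))))))))))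
noncomputable def D2978 : OP := win (nat_lit 1) (nat_lit 10) (nat_lit 7) (nat_lit 3)
noncomputable def D2980 : OP := orK (nat_lit 151) (fin (add (start D2978) D542))
noncomputable def D4064 : OP := orK (nat_lit 208) (fin (add (add (add (start D3925) (orK (nat_lit 151) (fin (add (start D542) (orK (nat_lit 211) (fin (add (start D4033) (orK (nat_lit 228) (fin (add (start (orK (nat_lit 147) (fin (add (start D215) (orK (nat_lit 227) (fin (add (start D208) D4038))))))) D4046)))))))))) (orK (nat_lit 228) (fin (add (start D230) (orK (nat_lit 227) (fin (add (start D208) (orK (nat_lit 151) (fin (add (start D542) (orK (nat_lit 211) (fin (add (start D4033) D4038))))))))))))) (orK (nat_lit 230) (fin (add (start D2980) D3964)))))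
noncomputable def D4066 : OP := orK (nat_lit 191) (fin (add (start D383) D4064))
noncomputable def D3975 : AP := fin (add (add (add (start D3888) D3677) D3419) (orK (nat_lit 191) (fin (add (start D383) (orK (nat_lit 151) (fin (add (start D542) (orK (nat_lit 188) (fin (add (start D61) (orK (nat_lit 230) (fin (add (start D2978) (orK (nat_lit 208) (fin (add (add (start (orK (nat_lit 209) (fin (add (add (start (orK (nat_lit 229) (fin (add (start D3054) D205)))) D207) (orK (nat_lit 207) (fin (add (start D2869) D3935))))))) D3944) D3964))))))))))))))))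
noncomputable def D3892 : OP := orK (nat_lit 128) (fin (add (start D1809) D3693))
noncomputable def D3474 : OP := win (nat_lit 1) (nat_lit 7) (nat_lit 7) (nat_lit 5)
noncomputable def D3896 : OP := orK (nat_lit 207) (fin (add (start D2869) D3474))
noncomputable def D3893 : AP := fin (add (start D3699) D3892)
noncomputable def D3918 : OP := orK (nat_lit 191) (fin (add (start D383) (orK (nat_lit 151) (fin (add (start D542) (orK (nat_lit 148) (fin (add (start D992) (orK (nat_lit 230) (fin (add (start D2978) (orK (nat_lit 209) (fin (add (add (add (start (orK (nat_lit 189) (fin (add (start D3030) D3699)))) (orK (nat_lit 189) D3893)) (orK (nat_lit 208) (fin (add (add (start D3252) (orK (nat_lit 188) (fin (add (start D241) D3900)))) (orK (nat_lit 188) (fin (add (start D3896) D3900))))))) (orK (nat_lit 189) (fin (add (start D3030) D3892)))))))))))))))))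
noncomputable def D3919 : AP := fin (add (add (add (start D3810) D3888) D3415) D3918)
noncomputable def D4667 : OP := orK (nat_lit 168) (fin (add (add (add (add (add (add (add (start D3877) (orK (nat_lit 171) D3420)) (orK (nat_lit 171) D3919)) (orK (nat_lit 171) D3975)) (orK (nat_lit 188) (fin (add (add (add (start D3987) D4028) (orK (nat_lit 171) (fin (add (add (add (start D3985) (orK (nat_lit 152) (fin (add (start D124) (orK (nat_lit 172) (fin (add (start D125) D62))))))) D4066) D3888)))) D4070)))) (orK (nat_lit 187) (fin (add (add (start D4075) (orK (nat_lit 171) (fin (add (start D822) (orK (nat_lit 192) (fin (add (start D60) (orK (nat_lit 172) (fin (add (start D59) (orK (nat_lit 147) (fin (add (start D1885) D127))))))))))))) D4087)))) D4326) (orK (nat_lit 171) D4664)))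
noncomputable def D6341 : OP := win (nat_lit 1) (nat_lit 7) (nat_lit 8) (nat_lit 1)
noncomputable def D7529 : OP := orK (nat_lit 191) (fin (add (start D383) D2980))
noncomputable def D8397 : OP := orK (nat_lit 148) (fin (add (start D992) D2490))
noncomputable def D8407 : OP := win (nat_lit 3) (nat_lit 8) (nat_lit 8) (nat_lit 1)
noncomputable def D5211 : OP := orK (nat_lit 206) (fin (add (start D5207) D2052))
noncomputable def D8374 : OP := win (nat_lit 3) (nat_lit 8) (nat_lit 8) (nat_lit 0)
noncomputable def D8419 : OP := orK (nat_lit 208) (fin (add (add (start D2970) (orK (nat_lit 228) (fin (add (start D8374) D3318)))) (orK (nat_lit 207) (fin (add (add (start (orK (nat_lit 186) (fin (add (start (win (nat_lit 0) (nat_lit 6) (nat_lit 9) (nat_lit 1))) (orK (nat_lit 206) (fin (add (start D2043) D5207))))))) D5211) (orK (nat_lit 187) (fin (add (start D2483) (orK (nat_lit 248) (fin (add (start D8407) (orK (nat_lit 227) (fin (add (start D722) (orK (nat_lit 247) (fin (add (start D3993) D4197)))))))))))))))))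
noncomputable def D8359 : OP := orK (nat_lit 187) (fin (add (start D2483) (orK (nat_lit 171) (fin (add (start D2956) D2955)))))
noncomputable def D9872 : OP := orK (nat_lit 230) (fin (add (start D3033) (orK (nat_lit 188) (fin (add (add (start D8359) D8419) (orK (nat_lit 171) (fin (add (start D2955) (orK (nat_lit 168) (fin (add (start D8397) D7529)))))))))))
noncomputable def D7492 : OP := orK (nat_lit 187) (fin (add (start D2483) D3820))
noncomputable def D7524 : OP := orK (nat_lit 172) (fin (add (start D45) D58))
noncomputable def D7526 : OP := orK (nat_lit 171) (fin (add (add (add (start D2960) D7524) D5011) D6674))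
noncomputable def D7496 : OP := orK (nat_lit 168) (fin (add (start D3039) (orK (nat_lit 188) (fin (add (start D3052) D7492)))))
noncomputable def D8355 : OP := orK (nat_lit 229) (fin (add (start D5157) (orK (nat_lit 228) (fin (add (start D3036) D7496)))))
noncomputable def D9789 : OP := orK (nat_lit 192) (fin (add (start D7283) D2986))
noncomputable def D6766 : OP := orK (nat_lit 167) (fin (add (start D4987) D824))
noncomputable def D8441 : AP := fin (add (start D61) D8397)
noncomputable def D8393 : OP := orK (nat_lit 187) (fin (add (start D2483) D2956))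
noncomputable def D8395 : OP := orK (nat_lit 188) (fin (add (start D2955) D8393))
noncomputable def D1969 : OP := win (nat_lit 0) (nat_lit 12) (nat_lit 8) (nat_lit 5)
noncomputable def D1968 : OP := win (nat_lit 0) (nat_lit 11) (nat_lit 8) (nat_lit 4)
noncomputable def D9802 : OP := orK (nat_lit 174) (fin (add (start D6871) (orK (nat_lit 195) (fin (add (start D1968) (orK (nat_lit 175) (fin (add (start D1969) (win (nat_lit 5) (nat_lit 11) (nat_lit 8) (nat_lit 4))))))))))
noncomputable def D9795 : OP := orK (nat_lit 194) (fin (add (start D101) (orK (nat_lit 174) (fin (add (start D102) D6871)))))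
noncomputable def D8255 : OP := orK (nat_lit 128) (fin (add (start D244) (orK (nat_lit 109) (fin (add (start D1541) (orK (nat_lit 108) (fin (add (start D1421) D6020))))))))
noncomputable def D4926 : OP := orK (nat_lit 186) (fin (add (start D2068) D3303))
noncomputable def D5967 : AP := fin (add (start D2067) D4926)
noncomputable def D9760 : OP := orK (nat_lit 187) (fin (add (start D2956) (orK (nat_lit 208) D5967)))
noncomputable def D7212 : OP := orK (nat_lit 172) (fin (add (start D62) D58))
noncomputable def D8361 : OP := orK (nat_lit 168) (fin (add (start D3039) D3052))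
noncomputable def D8578 : OP := win (nat_lit 5) (nat_lit 10) (nat_lit 6) (nat_lit 5)
noncomputable def D9851 : AP := fin (add (add (add (add (start (orK (nat_lit 152) (fin (add (add (add (start D6629) (orK (nat_lit 192) (fin (add (add (add (start (orK (nat_lit 168) (fin (add (start D60) D124)))) (orK (nat_lit 191) D2987)) (orK (nat_lit 193) (fin (add (start D2983) (orK (nat_lit 191) (fin (add (start D2984) (orK (nat_lit 211) (fin (add (start D7283) (orK (nat_lit 151) (fin (add (start D2837) D4999))))))))))))) (orK (nat_lit 172) (fin (add (start D59) (orK (nat_lit 151) (fin (add (start D1506) (orK (nat_lit 132) (fin (add (add (start (orK (nat_lit 112) (fin (add (start D834) D2412)))) (orK (nat_lit 133) (fin (add (start D847) (orK (nat_lit 134) (fin (add (start (win (nat_lit 5) (nat_lit 11) (nat_lit 6) (nat_lit 0))) (orK (nat_lit 131) (fin (add (start D8578) D6685)))))))))) (orK (nat_lit 112) (fin (add (start D834) (orK (nat_lit 111) (fin (add (start (win (nat_lit 6) (nat_lit 11) (nat_lit 5) (nat_lit 1))) D2413))))))))))))))))))) D5024) D5027)))) (orK (nat_lit 188) (fin (add (add (start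 (orK (nat_lit 189) (fin (add (start D2955) (orK (nat_lit 229) (fin (add (start D5157) D8361))))))) D9760) (orK (nat_lit 189) (fin (add (start D2955) (orK (nat_lit 187) (fin (add (start D2483) (orK (nat_lit 208) (fin (add (start D2067) (orK (nat_lit 248) (fin (add (start D8407) (orK (nat_lit 229) (fin (add (start D5157) (orK (nat_lit 249) (fin (add (start D5536) D225)))))))))))))))))))))) (orK (nat_lit 188) (fin (add (start D7212) D9760)))) (orK (nat_lit 168) (fin (add (add (start D4991) (orK (nat_lit 148) (fin (add (start D992) (orK (nat_lit 188) (fin (add (start D61) D8255))))))) D4995)))) (orK (nat_lit 189) (fin (add (add (start (orK (nat_lit 229) D7960)) D7524) (orK (nat_lit 150) (fin (add (start D1628) (orK (nat_lit 191) (fin (add (add (start (orK (nat_lit 130) (fin (add (start D1991) (orK (nat_lit 211) (fin (add (start D6648) D4997))))))) (orK (nat_lit 211) (fin (add (start D4997) D9789)))) (orK (nat_lit 172) (fin (add (add (add (add (start D58) (orK (nat_lit 173) (fin (add (add (add (start D999) D9795) D9802) (orK (nat_lit 192) (fin (add (start D59) (orK (nat_lit 174) (fin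 (add (start D6871) (win (nat_lit 5) (nat_lit 11) (nat_lit 8) (nat_lit 0)))))))))))) (orK (nat_lit 152) (fin (add (start D125) (orK (nat_lit 192) (fin (add (start D59) (orK (nat_lit 132) (fin (add (start D839) (orK (nat_lit 131) (fin (add (start D2404) (orK (nat_lit 133) (fin (add (start D847) (orK (nat_lit 134) (fin (add (start (win (nat_lit 5) (nat_lit 10) (nat_lit 6) (nat_lit 4))) (orK (nat_lit 155) (fin (add (start (win (nat_lit 0) (nat_lit 11) (nat_lit 6) (nat_lit 4))) (orK (nat_lit 135) (fin (add (start (win (nat_lit 0) (nat_lit 12) (nat_lit 6) (nat_lit 5))) (orK (nat_lit 115) (fin (add (start (win (nat_lit 4) (nat_lit 11) (nat_lit 5) (nat_lit 4))) (win (nat_lit 4) (nat_lit 12) (nat_lit 5) (nat_lit 5)))))))))))))))))))))))))))))) (orK (nat_lit 110) (fin (add (start D7031) (orK (nat_lit 153) (fin (add (start D51) (orK (nat_lit 173) (fin (add (start D52) D9795)))))))))) (orK (nat_lit 153) (fin (add (start D51) (orK (nat_lit 173) (fin (add (start D52) D9802)))))))))))))))))))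
noncomputable def D7708 : OP := orK (nat_lit 171) (fin (add (start D1885) D3888))
noncomputable def D9666 : AP := fin (add (start (win (nat_lit 1) (nat_lit 7) (nat_lit 7) (nat_lit 3))) D942)
noncomputable def D940 : OP := win (nat_lit 1) (nat_lit 7) (nat_lit 6) (nat_lit 0)
noncomputable def D941 : OP := win (nat_lit 3) (nat_lit 7) (nat_lit 7) (nat_lit 3)
noncomputable def D7596 : OP := orK (nat_lit 171) (fin (add (start D822) D3888))
noncomputable def D5814 : OP := orK (nat_lit 127) (fin (add (start D3821) D4091))
noncomputable def D8983 : OP := orK (nat_lit 147) D7701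
noncomputable def D9563 : OP := win (nat_lit 3) (nat_lit 7) (nat_lit 8) (nat_lit 3)
noncomputable def D9564 : AP := fin (add (start D3933) D9563)
noncomputable def D5504 : OP := orK (nat_lit 146) (fin (add (start D1874) D5449))
noncomputable def D5481 : OP := win (nat_lit 3) (nat_lit 7) (nat_lit 7) (nat_lit 5)
noncomputable def D9552 : AP := fin (add (start D3933) D3992)
noncomputable def D5347 : OP := orK (nat_lit 288) (fin (add (start (win (nat_lit 6) (nat_lit 7) (nat_lit 10) (nat_lit 4))) (win (nat_lit 6) (nat_lit 7) (nat_lit 11) (nat_lit 5))))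
noncomputable def D9556 : OP := win (nat_lit 3) (nat_lit 7) (nat_lit 10) (nat_lit 4)
noncomputable def D5329 : OP := orK (nat_lit 266) (fin (add (start D5326) D5327))
noncomputable def D5343 : OP := orK (nat_lit 286) (fin (add (start (win (nat_lit 1) (nat_lit 6) (nat_lit 10) (nat_lit 4))) (win (nat_lit 1) (nat_lit 6) (nat_lit 11) (nat_lit 5))))
noncomputable def D9706 : AP := fin (add (add (add (add (start D3261) (orK (nat_lit 231) (fin (add (start D2859) (orK (nat_lit 227) (fin (add (start D722) (orK (nat_lit 247) (fin (add (add (add (start (orK (nat_lit 188) (fin (add (start D3993) (orK (nat_lit 168) D9552))))) (orK (nat_lit 267) (fin (add (add (start (orK (nat_lit 287) (fin (add (start D9556) D5343)))) (orK (nat_lit 187) (fin (add (start D5329) D5337)))) (orK (nat_lit 287) (fin (add (start D9556) D5347))))))) (orK (nat_lit 188) (fin (add (start D3993) (orK (nat_lit 168) D9564))))) (orK (nat_lit 168) (fin (add (add (add (start (orK (nat_lit 188) D9552)) (orK (nat_lit 188) (fin (add (start D3992) D9563)))) (orK (nat_lit 167) (fin (add (add (start (orK (nat_lit 187) (fin (add (start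 D5481) D4199)))) (orK (nat_lit 187) (fin (add (start D4199) D5504)))) (orK (nat_lit 171) D6763))))) (orK (nat_lit 188) D9564)))))))))))))) (orK (nat_lit 231) (fin (add (start D2859) (orK (nat_lit 168) (fin (add (add (add (start (orK (nat_lit 227) (fin (add (start D722) (orK (nat_lit 188) (fin (add (start D3933) D3995))))))) (orK (nat_lit 206) (fin (add (add (start D2052) (orK (nat_lit 186) (fin (add (start D2043) (orK (nat_lit 146) (fin (add (add (add (start (orK (nat_lit 147) (fin (add (start D3813) D4379)))) (orK (nat_lit 166) (fin (add (start D4377) (orK (nat_lit 145) (fin (add (start (win (nat_lit 2) (nat_lit 5) (nat_lit 7) (nat_lit 2))) D9603))))))) D8983) (orK (nat_lit 147) (fin (add (start D7700) D4379)))))))))) D4393)))) (orK (nat_lit 147) (fin (add (add (start D7708) (orK (nat_lit 167) (fin (add (start D1246) (orK (nat_lit 151) (fin (add (start D4985) (orK (nat_lit 171) (fin (add (start D542) (orK (nat_lit 192) (fin (add (start D60) (orK (nat_lit 172) (fin (add (start D59) (orK (nat_lit 188) (fin (add (start D62) D3838))))))))))))))))))) (orK (nat_lit 167) (fin (add (start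 D1246) (orK (nat_lit 188) (fin (add (start D3838) D5814)))))))))) (orK (nat_lit 227) (fin (add (start D722) (orK (nat_lit 167) (fin (add (start (orK (nat_lit 146) (fin (add (start D1874) (orK (nat_lit 166) (fin (add (start D1873) (orK (nat_lit 186) (fin (add (start D1879) D4574)))))))))) (orK (nat_lit 151) (fin (add (start D4985) (orK (nat_lit 171) (fin (add (start D542) (orK (nat_lit 192) (fin (add (start D60) (orK (nat_lit 172) (fin (add (start D59) (orK (nat_lit 188) (fin (add (start D62) D3995)))))))))))))))))))))))))))) (orK (nat_lit 231) (fin (add (start D2859) (orK (nat_lit 187) (fin (add (start D721) (orK (nat_lit 168) (fin (add (add (start D7596) (orK (nat_lit 148) (fin (add (add (add (start (orK (nat_lit 128) (fin (add (start D4180) (orK (nat_lit 167) D4205))))) (orK (nat_lit 227) (fin (add (start D941) (orK (nat_lit 188) D9666))))) (orK (nat_lit 188) (fin (add (start D940) (orK (nat_lit 227) D9666))))) (orK (nat_lit 167) D4207))))) (orK (nat_lit 147) (fin (add (start (orK (nat_lit 167) (fin (add (start D1246) D4126)))) D7708))))))))))))) (orK (nat_lit 231) (fin (add (start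 D2859) (orK (nat_lit 206) (fin (add (add (add (start D2872) (orK (nat_lit 225) (fin (add (start D3589) (orK (nat_lit 205) (fin (add (start D3588) (orK (nat_lit 187) (fin (add (start D721) (orK (nat_lit 188) D4013))))))))))) (orK (nat_lit 225) (fin (add (start D3589) (orK (nat_lit 205) (fin (add (start D3588) (orK (nat_lit 184) (fin (add (start D4222) (orK (nat_lit 204) (fin (add (start D4221) (orK (nat_lit 188) (fin (add (start D7888) D3952)))))))))))))))) D4393)))))))
noncomputable def D8097 : AP := fin (add (start D2068) (orK (nat_lit 168) (fin (add (start D3191) D3820))))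
noncomputable def D8099 : AP := fin (add (start D2067) (orK (nat_lit 186) D8097))
noncomputable def D9020 : OP := orK (nat_lit 187) D8099
noncomputable def D6390 : OP := orK (nat_lit 250) (fin (add (start (win (nat_lit 1) (nat_lit 10) (nat_lit 9) (nat_lit 3))) (win (nat_lit 3) (nat_lit 10) (nat_lit 9) (nat_lit 2))))
noncomputable def D6386 : OP := win (nat_lit 5) (nat_lit 7) (nat_lit 13) (nat_lit 0)
noncomputable def D8231 : AP := fin (add (start D3864) D214)
noncomputable def D9023 : OP := orK (nat_lit 147) (fin (add (start D215) (orK (nat_lit 148) D8231)))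
noncomputable def D8200 : OP := orK (nat_lit 248) (fin (add (start D231) D2692))
noncomputable def D8086 : OP := orK (nat_lit 171) (fin (add (start D6634) (orK (nat_lit 152) (fin (add (start D8080) (orK (nat_lit 151) (fin (add (start D2837) D1506))))))))
noncomputable def D8090 : OP := orK (nat_lit 211) (fin (add (start D196) (orK (nat_lit 191) (fin (add (start D514) D8086)))))
noncomputable def D8917 : OP := orK (nat_lit 207) (fin (add (start D2859) D3261))
noncomputable def D8092 : OP := orK (nat_lit 231) (fin (add (start D2859) D8090))
noncomputable def D8682 : OP := orK (nat_lit 207) (fin (add (start D722) D8092))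
noncomputable def D9453 : OP := win (nat_lit 7) (nat_lit 7) (nat_lit 11) (nat_lit 4)
noncomputable def D8799 : OP := orK (nat_lit 268) (fin (add (start D738) D8768))
noncomputable def D8176 : OP := orK (nat_lit 189) D3266
noncomputable def D8267 : OP := orK (nat_lit 171) (fin (add (start D2956) D7212))
noncomputable def D8103 : OP := orK (nat_lit 186) (fin (add (start D3303) (orK (nat_lit 188) D8097)))
noncomputable def D8100 : OP := orK (nat_lit 188) D8099
noncomputable def D8077 : OP := orK (nat_lit 231) (fin (add (start D196) (orK (nat_lit 191) (fin (add (start D514) (orK (nat_lit 230) (fin (add (start D2482) D3509))))))))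
noncomputable def D8079 : OP := orK (nat_lit 211) (fin (add (start D720) D8077))
noncomputable def D8105 : OP := orK (nat_lit 187) (fin (add (add (add (add (start D6165) D8079) (orK (nat_lit 207) (fin (add (start D721) D8092)))) D8100) D8103))
noncomputable def D5947 : OP := win (nat_lit 6) (nat_lit 7) (nat_lit 6) (nat_lit 4)
noncomputable def D8230 : OP := orK (nat_lit 207) (fin (add (add (start D2876) (orK (nat_lit 187) (fin (add (start D721) (orK (nat_lit 227) (fin (add (start D722) (orK (nat_lit 167) (fin (add (add (start D4186) (orK (nat_lit 146) (fin (add (start D5449) (orK (nat_lit 147) (fin (add (start D5448) (orK (nat_lit 128) (fin (add (start D4127) (orK (nat_lit 127) (fin (add (start D3846) D5947))))))))))))) D8222)))))))))) D4142))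
noncomputable def D2441 : AP := fin (add (start D201) D2440)
noncomputable def D2442 : OP := orK (nat_lit 229) D2441
noncomputable def D3190 : OP := orK (nat_lit 187) (fin (add (start D2067) (orK (nat_lit 248) (fin (add (start D2738) D2692)))))
noncomputable def D8684 : OP := orK (nat_lit 227) (fin (add (add (add (start D2858) (orK (nat_lit 211) (fin (add (start D723) D8077)))) D2868) D8682))
noncomputable def D7597 : OP := win (nat_lit 3) (nat_lit 9) (nat_lit 7) (nat_lit 2)
noncomputable def D7569 : AP := fin (add (start D5157) D3039)
noncomputable def D7698 : OP := orK (nat_lit 189) D7569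
noncomputable def D8937 : AP := fin (add (start D4344) D1246)
noncomputable def D8700 : OP := orK (nat_lit 249) (fin (add (add (add (start D7935) D7506) (orK (nat_lit 270) (fin (add (start D5537) (orK (nat_lit 269) (fin (add (start D7132) (orK (nat_lit 288) (fin (add (start D7123) (orK (nat_lit 289) (fin (add (start D7124) D7936))))))))))))) (orK (nat_lit 228) (fin (add (start D3036) (orK (nat_lit 270) (fin (add (start D5537) (orK (nat_lit 269) (fin (add (start D7132) D7947)))))))))))
noncomputable def D8702 : OP := orK (nat_lit 189) (fin (add (start D5157) D8700))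
noncomputable def D8762 : OP := orK (nat_lit 191) (fin (add (start D514) (orK (nat_lit 231) (fin (add (start D196) D8086)))))
noncomputable def D8764 : OP := orK (nat_lit 211) (fin (add (start D396) D8762))
noncomputable def D3091 : OP := win (nat_lit 4) (nat_lit 9) (nat_lit 12) (nat_lit 5)
noncomputable def D3080 : OP := win (nat_lit 5) (nat_lit 6) (nat_lit 13) (nat_lit 5)
noncomputable def D3103 : OP := orK (nat_lit 269) (fin (add (start D2627) (orK (nat_lit 271) (fin (add (start D2719) (orK (nat_lit 268) (fin (add (add (start (orK (nat_lit 251) (fin (add (start (win (nat_lit 4) (nat_lit 7) (nat_lit 12) (nat_lit 0))) (win (nat_lit 4) (nat_lit 8) (nat_lit 12) (nat_lit 5)))))) (orK (nat_lit 247) (fin (add (start (win (nat_lit 2) (nat_lit 7) (nat_lit 12) (nat_lit 4))) (orK (nat_lit 267) (fin (add (start D3079) (orK (nat_lit 287) (fin (add (start D3080) (win (nat_lit 5) (nat_lit 7) (nat_lit 13) (nat_lit 4)))))))))))) (orK (nat_lit 248) (fin (add (start (win (nat_lit 2) (nat_lit 7) (nat_lit 12) (nat_lit 5))) (orK (nat_lit 272) (fin (add (start (win (nat_lit 2) (nat_lit 8) (nat_lit 12)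 (nat_lit 4))) (orK (nat_lit 252) (fin (add (start (win (nat_lit 4) (nat_lit 8) (nat_lit 12) (nat_lit 4))) D3091)))))))))))))))))
noncomputable def D3120 : OP := win (nat_lit 6) (nat_lit 9) (nat_lit 8) (nat_lit 1)
noncomputable def D8168 : OP := orK (nat_lit 189) D4497
noncomputable def D9008 : AP := fin (add (add (add (add (add (add (add (add (add (start D4494) D8684) (orK (nat_lit 229) (fin (add (add (add (start D7965) D8702) (orK (nat_lit 207) (fin (add (add (start D3998) D3261) (orK (nat_lit 227) (fin (add (start D722) (orK (nat_lit 187) (fin (add (start D721) (orK (nat_lit 228) (fin (add (add (start D3171) (orK (nat_lit 230) (fin (add (start D2869) (orK (nat_lit 250) (fin (add (start D3208) (orK (nat_lit 247) (fin (add (start D457) (orK (nat_lit 267) (fin (add (start D3201) D5337))))))))))))) (orK (nat_lit 147) (fin (add (start (win (nat_lit 6) (nat_lit 7) (nat_lit 7) (nat_lit 1))) (orK (nat_lit 230) (fin (add (start D2869) (orK (nat_lit 250) (fin (add (start D3208) (orK (nat_lit 247) (fin (add (start D457) (orK (nat_lit 267) (fin (add (start D3201) (orK (nat_lit 270) (fin (add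 (start D3210) (orK (nat_lit 269) (fin (add (start D2627) (orK (nat_lit 266) (fin (add (start D5327) (orK (nat_lit 268) (fin (add (start (win (nat_lit 4) (nat_lit 6) (nat_lit 12) (nat_lit 4))) D5335)))))))))))))))))))))))))))))))))))))))) (orK (nat_lit 189) (fin (add (start D5157) (orK (nat_lit 248) (fin (add (start D5535) (orK (nat_lit 168) (fin (add (start D3039) (orK (nat_lit 268) (fin (add (start (win (nat_lit 1) (nat_lit 8) (nat_lit 9) (nat_lit 3))) (orK (nat_lit 207) (fin (add (start D3998) (orK (nat_lit 187) (fin (add (start D721) (orK (nat_lit 227) (fin (add (start D722) D8742))))))))))))))))))))))))) (orK (nat_lit 228) (fin (add (add (add (start D2081) D8764) (orK (nat_lit 248) (fin (add (add (start D8797) D8799) (orK (nat_lit 229) (fin (add (start D2139) D8813))))))) (orK (nat_lit 248) (fin (add (add (add (start D8168) D8797) D8799) (orK (nat_lit 229) (fin (add (start D2139) (orK (nat_lit 231) (fin (add (start (orK (nat_lit 247) (fin (add (start D8821) D8844)))) D8090))))))))))))) (orK (nat_lit 229) (fin (add (add (start D7965) (orK (nat_lit 228) (fin (add (start D7164)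 (orK (nat_lit 248) (fin (add (start D2139) D7849))))))) (orK (nat_lit 227) (fin (add (add (start D4922) (orK (nat_lit 211) (fin (add (start D723) (orK (nat_lit 231) (fin (add (start D196) (orK (nat_lit 230) (fin (add (start D2482) D8866)))))))))) D7816))))))) (orK (nat_lit 229) (fin (add (add (add (start D7965) D8702) (orK (nat_lit 207) (fin (add (add (start D3998) (orK (nat_lit 206) (fin (add (add (start D2872) D7873) (orK (nat_lit 228) (fin (add (start D5376) (orK (nat_lit 187) (fin (add (start D721) (orK (nat_lit 227) D3307))))))))))) D8092)))) (orK (nat_lit 189) (fin (add (add (start D7963) D8700) (orK (nat_lit 228) (fin (add (start D3036) (orK (nat_lit 211) (fin (add (start D396) (orK (nat_lit 231) (fin (add (start D196) (orK (nat_lit 207) (fin (add (start D2859) (orK (nat_lit 206) (fin (add (start D5376) D2872)))))))))))))))))))))) (orK (nat_lit 229) (fin (add (add (start D8702) (orK (nat_lit 207) (fin (add (start (orK (nat_lit 186) (fin (add (start D2042) (orK (nat_lit 206) (fin (add (start D2043) D8901))))))) D8092)))) (orK (nat_lit 230) (fin (add (start D3054) (orK (nat_lit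 250) (fin (add (start D3120) (orK (nat_lit 270) (fin (add (start D3210) D3103))))))))))))) (orK (nat_lit 231) (fin (add (start D8090) D8917)))) (orK (nat_lit 207) (fin (add (add (add (start D3261) (orK (nat_lit 227) (fin (add (start D722) (orK (nat_lit 211) (fin (add (start D723) D8762))))))) (orK (nat_lit 186) (fin (add (start D2042) (orK (nat_lit 206) (fin (add (start D2043) (orK (nat_lit 228) (fin (add (add (start (orK (nat_lit 205) (fin (add (start D6281) (orK (nat_lit 227) (fin (add (start D6280) D209))))))) (orK (nat_lit 229) (fin (add (start D5376) (orK (nat_lit 189) D5158))))) D8764)))))))))) (orK (nat_lit 206) (fin (add (add (start D2872) (orK (nat_lit 229) (fin (add (add (start D8901) D8702) (orK (nat_lit 226) (fin (add (start D2049) (orK (nat_lit 168) (fin (add (add (start D7698) (orK (nat_lit 150) (fin (add (start D7597) (orK (nat_lit 167) (fin (add (start D1096) (orK (nat_lit 147) D8937)))))))) (orK (nat_lit 171) (fin (add (start (orK (nat_lit 147) (fin (add (start D1885) (orK (nat_lit 167) D8937))))) (orK (nat_lit 172) (fin (add (start (orK (nat_lit 192) (fin (add (start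 D60) D59)))) D127)))))))))))))))) D4393))))))) (orK (nat_lit 227) (fin (add (add (add (start (orK (nat_lit 228) (fin (add (start D209) (orK (nat_lit 248) (fin (add (add (start D8797) (orK (nat_lit 268) (fin (add (start D738) (orK (nat_lit 207) (fin (add (start (win (nat_lit 7) (nat_lit 7) (nat_lit 9) (nat_lit 5))) D8966))))))) (orK (nat_lit 229) (fin (add (start D2139) (orK (nat_lit 207) (fin (add (start (orK (nat_lit 206) (fin (add (start D5376) D2850)))) (orK (nat_lit 187) (fin (add (start D721) D2814)))))))))))))))) D2868) (orK (nat_lit 207) (fin (add (start D722) (orK (nat_lit 186) (fin (add (start D2042) (orK (nat_lit 206) (fin (add (start D2043) (orK (nat_lit 146) (fin (add (start D5641) (orK (nat_lit 168) (fin (add (add (start D8983) (orK (nat_lit 229) (fin (add (start D2850) D7698)))) (orK (nat_lit 150) (fin (add (start (orK (nat_lit 229) (fin (add (start D2850) D7597)))) (orK (nat_lit 167) (fin (add (start D1874) D1096)))))))))))))))))))))) (orK (nat_lit 226) (fin (add (start D2855) (orK (nat_lit 228) (fin (add (start D2076) D209))))))))))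
noncomputable def D3040 : OP := win (nat_lit 7) (nat_lit 8) (nat_lit 8) (nat_lit 4)
noncomputable def D5294 : OP := orK (nat_lit 168) (fin (add (start D3039) D3040))
noncomputable def D5544 : AP := fin (add (start D5157) (orK (nat_lit 248) (fin (add (start D5535) (orK (nat_lit 249) (fin (add (start D5536) (orK (nat_lit 270) (fin (add (start D5537) D5294))))))))))
noncomputable def D6609 : OP := orK (nat_lit 229) D5544
noncomputable def D3372 : OP := win (nat_lit 7) (nat_lit 10) (nat_lit 5) (nat_lit 4)
noncomputable def D3378 : OP := orK (nat_lit 112) (fin (add (start D3370) (orK (nat_lit 111) (fin (add (start D3371) (orK (nat_lit 110) (fin (add (start D1060) D3372))))))))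
noncomputable def D8474 : OP := win (nat_lit 1) (nat_lit 10) (nat_lit 4) (nat_lit 4)
noncomputable def D8492 : OP := orK (nat_lit 191) (fin (add (start D2988) (orK (nat_lit 211) (fin (add (add (add (start D6633) D6715) D6652) (orK (nat_lit 151) (fin (add (start D4033) (orK (nat_lit 131) (fin (add (add (add (start D6658) (orK (nat_lit 112) (fin (add (start D3370) (orK (nat_lit 111) (fin (add (start D3371) (orK (nat_lit 150) (fin (add (start D1059) D4996)))))))))) (orK (nat_lit 112) (fin (add (start D3370) (orK (nat_lit 111) (fin (add (start D3371) (orK (nat_lit 91) (fin (add (start D8474) (orK (nat_lit 90) (fin (add (start (win (nat_lit 7) (nat_lit 10) (nat_lit 3) (nat_lit 5))) (win (nat_lit 7) (nat_lit 10) (nat_lit 4) (nat_lit 4))))))))))))))) D3378)))))))))))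
noncomputable def D8642 : OP := orK (nat_lit 91) (fin (add (start D8474) (orK (nat_lit 92) (fin (add (start (win (nat_lit 3) (nat_lit 11) (nat_lit 3) (nat_lit 5))) (win (nat_lit 3) (nat_lit 11) (nat_lit 4) (nat_lit 4)))))))
noncomputable def D8628 : OP := win (nat_lit 6) (nat_lit 11) (nat_lit 3) (nat_lit 4)
noncomputable def D8627 : OP := win (nat_lit 3) (nat_lit 11) (nat_lit 2) (nat_lit 5)
noncomputable def D8626 : OP := win (nat_lit 3) (nat_lit 11) (nat_lit 3) (nat_lit 4)
noncomputable def D8617 : OP := orK (nat_lit 70) (fin (add (start (win (nat_lit 7) (nat_lit 10) (nat_lit 2) (nat_lit 5))) (win (nat_lit 7) (nat_lit 10) (nat_lit 3) (nat_lit 4))))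
noncomputable def D8599 : OP := orK (nat_lit 114) (fin (add (start (win (nat_lit 4) (nat_lit 10) (nat_lit 5) (nat_lit 4))) (win (nat_lit 4) (nat_lit 11) (nat_lit 5) (nat_lit 5))))
noncomputable def D7693 : OP := orK (nat_lit 148) (fin (add (start D992) D3892))
noncomputable def D6930 : OP := orK (nat_lit 191) (fin (add (start D383) (orK (nat_lit 211) D6927)))
noncomputable def D8533 : OP := win (nat_lit 2) (nat_lit 10) (nat_lit 7) (nat_lit 5)
noncomputable def D7299 : OP := win (nat_lit 4) (nat_lit 12) (nat_lit 7) (nat_lit 5)
noncomputable def D7298 : OP := win (nat_lit 4) (nat_lit 11) (nat_lit 7) (nat_lit 4)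
noncomputable def D7301 : OP := orK (nat_lit 155) (fin (add (start D7298) D7299))
noncomputable def D1970 : OP := win (nat_lit 2) (nat_lit 11) (nat_lit 7) (nat_lit 4)
noncomputable def D6684 : OP := orK (nat_lit 231) (fin (add (start D6682) D6634))
noncomputable def D3451 : AP := fin (add (start D992) D127)
noncomputable def D8674 : AP := fin (add (add (add (add (start (orK (nat_lit 172) (fin (add (start D45) (orK (nat_lit 192) (fin (add (start D59) (orK (nat_lit 168) (fin (add (start D60) (orK (nat_lit 148) D3451))))))))))) (orK (nat_lit 172) (fin (add (start D45) (orK (nat_lit 192) (fin (add (start D59) (orK (nat_lit 191) (fin (add (start D1492) (orK (nat_lit 211) (fin (add (start D7283) D6684))))))))))))) (orK (nat_lit 172) (fin (add (start D45) (orK (nat_lit 173) (fin (add (add (add (start D54) (orK (nat_lit 194) (fin (add (start D101) (orK (nat_lit 174) (fin (add (start D102) D6873))))))) (orK (nat_lit 194) (fin (add (start D101) (orK (nat_lit 174) (fin (add (start D102) (orK (nat_lit 151) (fin (add (start D8533) (orK (nat_lit 175) (fin (add (start D1970) D7301)))))))))))))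 (orK (nat_lit 194) (fin (add (start D101) (orK (nat_lit 174) (fin (add (start D102) (orK (nat_lit 151) (fin (add (start D8533) (orK (nat_lit 152) (fin (add (start (win (nat_lit 2) (nat_lit 11) (nat_lit 7) (nat_lit 0))) D125))))))))))))))))))) (orK (nat_lit 151) (fin (add (add (add (start (orK (nat_lit 152) D5026)) (orK (nat_lit 168) (fin (add (start D7693) D6930)))) (orK (nat_lit 168) (fin (add (start D542) D7693)))) (orK (nat_lit 191) (fin (add (add (start D5001) (orK (nat_lit 211) (fin (add (start D4033) (orK (nat_lit 152) (fin (add (start D2837) (orK (nat_lit 208) (fin (add (start D514) (orK (nat_lit 228) (fin (add (start D396) D3267))))))))))))) (orK (nat_lit 131) (fin (add (add (add (add (start D3378) (orK (nat_lit 132) (fin (add (start D6654) (orK (nat_lit 130) (fin (add (start D6655) (orK (nat_lit 133) (fin (add (add (start (orK (nat_lit 153) (fin (add (start (win (nat_lit 0) (nat_lit 10) (nat_lit 6) (nat_lit 5))) (orK (nat_lit 152) (fin (add (start (win (nat_lit 0) (nat_lit 9) (nat_lit 6) (nat_lit 0))) D5012))))))) (orK (nat_lit 134) (fin (add (start (orK (nat_lit 154) (fin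 (add (start (win (nat_lit 0) (nat_lit 10) (nat_lit 6) (nat_lit 4))) (win (nat_lit 0) (nat_lit 11) (nat_lit 6) (nat_lit 5)))))) D8599)))) (orK (nat_lit 134) (fin (add (start D8578) D8599))))))))))))) (orK (nat_lit 111) (fin (add (add (add (start D8611) (orK (nat_lit 91) (fin (add (start D8474) (orK (nat_lit 132) (fin (add (start D6654) (orK (nat_lit 71) (fin (add (start (win (nat_lit 6) (nat_lit 11) (nat_lit 3) (nat_lit 5))) (orK (nat_lit 52) (fin (add (start (win (nat_lit 3) (nat_lit 11) (nat_lit 2) (nat_lit 4))) D8617))))))))))))) (orK (nat_lit 91) (fin (add (start D8474) (orK (nat_lit 72) (fin (add (start D8626) (orK (nat_lit 71) (fin (add (start D8627) (orK (nat_lit 152) (fin (add (start D8628) D8617))))))))))))) D8642)))) (orK (nat_lit 152) (fin (add (add (start D5025) (orK (nat_lit 110) (fin (add (start D3372) (orK (nat_lit 111) (fin (add (start D1060) (orK (nat_lit 91) (fin (add (start D8474) (orK (nat_lit 72) (fin (add (start D8626) (orK (nat_lit 71) (fin (add (start D8627) D8628)))))))))))))))) (orK (nat_lit 153) (fin (add (start D964) (orK (nat_lit 130) (fin (add (start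 D6655) (orK (nat_lit 129) (fin (add (start (win (nat_lit 0) (nat_lit 8) (nat_lit 6) (nat_lit 0))) (win (nat_lit 0) (nat_lit 9) (nat_lit 6) (nat_lit 3))))))))))))))) (orK (nat_lit 110) (fin (add (start D3372) (orK (nat_lit 111) (fin (add (start D1060) D8642)))))))))))))))) D8492)
noncomputable def D8440 : OP := orK (nat_lit 208) (fin (add (add (start D3581) D3252) D3255))
noncomputable def D5299 : AP := fin (add (start D5157) (orK (nat_lit 250) (fin (add (start D5291) (orK (nat_lit 249) (fin (add (start D5292) D5294)))))))
noncomputable def D6932 : OP := orK (nat_lit 151) (fin (add (start D542) D6930))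
noncomputable def D8443 : AP := fin (add (start D2955) (orK (nat_lit 168) D8441))
noncomputable def D7527 : AP := fin (add (start D61) D2955)
noncomputable def D3038 : OP := orK (nat_lit 228) (fin (add (start D3036) D2733))
noncomputable def D7497 : AP := fin (add (start D3945) D7496)
noncomputable def D6589 : OP := orK (nat_lit 207) (fin (add (start D721) D4142))
noncomputable def D8269 : OP := win (nat_lit 0) (nat_lit 4) (nat_lit 9) (nat_lit 4)
noncomputable def D8268 : OP := win (nat_lit 0) (nat_lit 5) (nat_lit 9) (nat_lit 5)
noncomputable def D8316 : OP := orK (nat_lit 124) (fin (add (start (win (nat_lit 7) (nat_lit 4) (nat_lit 5) (nat_lit 5))) (win (nat_lit 7) (nat_lit 4) (nat_lit 6) (nat_lit 4))))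
noncomputable def D5968 : OP := orK (nat_lit 187) D5967
noncomputable def D7686 : AP := fin (add (start D2955) D2490)
noncomputable def D8232 : OP := orK (nat_lit 147) D8231
noncomputable def D8236 : OP := orK (nat_lit 171) (fin (add (start D2955) D7529))
noncomputable def D8049 : OP := win (nat_lit 2) (nat_lit 8) (nat_lit 10) (nat_lit 1)
noncomputable def D8178 : OP := orK (nat_lit 248) (fin (add (add (add (start (orK (nat_lit 189) (fin (add (start D3577) D3265)))) D8168) D8175) D8176))
noncomputable def D7521 : AP := fin (add (start D5157) D7496)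
noncomputable def D5668 : OP := orK (nat_lit 186) (fin (add (start D2068) D3191))
noncomputable def D4931 : OP := orK (nat_lit 168) D2441
noncomputable def D8045 : OP := orK (nat_lit 207) (fin (add (start D2729) (orK (nat_lit 187) (fin (add (start D721) (orK (nat_lit 211) (fin (add (start D720) (orK (nat_lit 227) (fin (add (start (win (nat_lit 4) (nat_lit 7) (nat_lit 10) (nat_lit 1))) D722)))))))))))
noncomputable def D7980 : OP := orK (nat_lit 148) (fin (add (start D2300) D7564))
noncomputable def D7528 : OP := orK (nat_lit 188) D7527
noncomputable def D7534 : AP := fin (add (start D3945) (orK (nat_lit 168) (fin (add (start D3039) (orK (nat_lit 171) (fin (add (start D7528) D7529)))))))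
noncomputable def D3105 : OP := win (nat_lit 6) (nat_lit 10) (nat_lit 11) (nat_lit 5)
noncomputable def D3104 : OP := win (nat_lit 6) (nat_lit 10) (nat_lit 10) (nat_lit 4)
noncomputable def D3113 : OP := orK (nat_lit 291) (fin (add (start D3104) D3105))
noncomputable def D7741 : OP := win (nat_lit 3) (nat_lit 10) (nat_lit 10) (nat_lit 4)
noncomputable def D6404 : OP := win (nat_lit 3) (nat_lit 10) (nat_lit 9) (nat_lit 5)
noncomputable def D3068 : OP := win (nat_lit 1) (nat_lit 9) (nat_lit 11) (nat_lit 5)
noncomputable def D6467 : OP := win (nat_lit 2) (nat_lit 9) (nat_lit 11) (nat_lit 0)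
noncomputable def D7733 : OP := win (nat_lit 0) (nat_lit 8) (nat_lit 11) (nat_lit 3)
noncomputable def D7734 : OP := win (nat_lit 2) (nat_lit 8) (nat_lit 11) (nat_lit 3)
noncomputable def D7735 : AP := fin (add (start D7733) D7734)
noncomputable def D3135 : OP := win (nat_lit 0) (nat_lit 7) (nat_lit 11) (nat_lit 0)
noncomputable def D5300 : OP := orK (nat_lit 189) D5299
noncomputable def D4918 : OP := win (nat_lit 4) (nat_lit 6) (nat_lit 10) (nat_lit 2)
noncomputable def D7600 : AP := fin (add (start D4133) D4918)
noncomputable def D7601 : OP := orK (nat_lit 226) D7600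
noncomputable def D2695 : OP := orK (nat_lit 152) (fin (add (start (win (nat_lit 4) (nat_lit 8) (nat_lit 7) (nat_lit 3))) D363))
noncomputable def D7714 : OP := orK (nat_lit 150) (fin (add (start D7597) (orK (nat_lit 151) (fin (add (start D322) D2695)))))
noncomputable def D8155 : AP := fin (add (add (add (add (add (start D7975) (orK (nat_lit 168) (fin (add (add (add (start D7698) D7714) D7980) (orK (nat_lit 151) (fin (add (add (start D7983) (orK (nat_lit 167) (fin (add (add (start (orK (nat_lit 147) (fin (add (start D1246) (orK (nat_lit 171) (fin (add (start D1885) D542))))))) D3797) (orK (nat_lit 171) (fin (add (start D542) (orK (nat_lit 187) (fin (add (start D821) (orK (nat_lit 207) (fin (add (start (orK (nat_lit 227) (fin (add (start D5481) D7601)))) (orK (nat_lit 230) (fin (add (start (orK (nat_lit 208) D3053)) (orK (nat_lit 191) (fin (add (start D383) D2978))))))))))))))))))) (orK (nat_lit 171) D5004)))))))) D5300) (orK (nat_lit 230) (fin (add (add (add (add (start (orK (nat_lit 189) D7497)) (orK (nat_lit 250) (fin (add (start D3120) (orK (nat_lit 228) (fin (add (add (add (start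 (orK (nat_lit 227) (fin (add (start D3208) D456)))) (orK (nat_lit 251) (fin (add (start D3135) (orK (nat_lit 252) D7735))))) (orK (nat_lit 252) (fin (add (add (add (start (orK (nat_lit 251) D7735)) (orK (nat_lit 251) (fin (add (start D7734) D6467)))) (orK (nat_lit 251) (fin (add (start D7733) D6467)))) (orK (nat_lit 270) (fin (add (add (start (orK (nat_lit 289) (fin (add (start D2720) (orK (nat_lit 290) (fin (add (start D3068) (orK (nat_lit 211) (fin (add (start D6404) D7741)))))))))) (orK (nat_lit 269) (fin (add (start D2627) (orK (nat_lit 271) (fin (add (start D2719) (orK (nat_lit 272) (fin (add (start D3091) (orK (nat_lit 293) (fin (add (start (win (nat_lit 0) (nat_lit 9) (nat_lit 13) (nat_lit 4))) (orK (nat_lit 273) (fin (add (start (win (nat_lit 0) (nat_lit 10) (nat_lit 13) (nat_lit 5))) (win (nat_lit 2) (nat_lit 9) (nat_lit 12) (nat_lit 5)))))))))))))))))) (orK (nat_lit 211) (fin (add (start D6404) (orK (nat_lit 290) (fin (add (start D7741) D3113))))))))))))) (orK (nat_lit 227) (fin (add (start D456) (orK (nat_lit 226) (fin (add (start (win (nat_lit 0) (nat_lit 6) (nat_lit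 11) (nat_lit 4))) (orK (nat_lit 206) (fin (add (start (win (nat_lit 2) (nat_lit 5) (nat_lit 10) (nat_lit 5))) (win (nat_lit 2) (nat_lit 6) (nat_lit 10) (nat_lit 4)))))))))))))))))) (orK (nat_lit 208) (fin (add (add (start D3054) (orK (nat_lit 228) (fin (add (add (start D2733) (orK (nat_lit 188) (fin (add (start D4931) (orK (nat_lit 231) (fin (add (start D2549) (orK (nat_lit 211) (fin (add (start D200) D3511)))))))))) D8034)))) D8045)))) (orK (nat_lit 189) D7534)) (orK (nat_lit 208) (fin (add (add (start D3054) (orK (nat_lit 232) (fin (add (start D8049) (orK (nat_lit 168) (fin (add (add (add (start (orK (nat_lit 148) (fin (add (start (win (nat_lit 6) (nat_lit 8) (nat_lit 7) (nat_lit 2))) D2300)))) (orK (nat_lit 188) (fin (add (start (orK (nat_lit 249) (fin (add (start D203) (orK (nat_lit 208) D226))))) D4070)))) D7980) (orK (nat_lit 188) (fin (add (start D201) D4794)))))))))) D8045))))))) (orK (nat_lit 208) (fin (add (add (add (add (start D8105) D7914) D7904) (orK (nat_lit 228) (fin (add (add (start D7164) (orK (nat_lit 188) (fin (add (start D4931) (orK (nat_lit 211) (fin (add (start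 D200) (orK (nat_lit 231) (fin (add (start D196) (orK (nat_lit 191) (fin (add (start D514) D8108))))))))))))) (orK (nat_lit 226) (fin (add (start D3122) (orK (nat_lit 168) (fin (add (add (start (orK (nat_lit 188) D2441)) (orK (nat_lit 147) (fin (add (start D7708) (orK (nat_lit 167) (fin (add (start D1246) (orK (nat_lit 186) (fin (add (start D1880) (orK (nat_lit 166) (fin (add (start D8118) D1879))))))))))))) (orK (nat_lit 188) (fin (add (start D2440) (orK (nat_lit 187) (fin (add (start D3820) D5668)))))))))))))))) (orK (nat_lit 207) (fin (add (add (start D3998) D3261) (orK (nat_lit 230) (fin (add (start D2869) (orK (nat_lit 227) (fin (add (start D722) (orK (nat_lit 187) (fin (add (start D721) (orK (nat_lit 247) (fin (add (start (orK (nat_lit 246) (fin (add (start D4191) (win (nat_lit 5) (nat_lit 6) (nat_lit 11) (nat_lit 2)))))) (orK (nat_lit 188) (fin (add (start (win (nat_lit 3) (nat_lit 7) (nat_lit 8) (nat_lit 5))) D3993)))))))))))))))))))))) (orK (nat_lit 189) D7521))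
noncomputable def D7611 : OP := orK (nat_lit 207) (fin (add (add (add (start (orK (nat_lit 208) (fin (add (start D4126) D3998)))) (orK (nat_lit 227) (fin (add (add (start D7601) (orK (nat_lit 228) (fin (add (start D4400) D3169)))) (orK (nat_lit 226) D4334))))) (orK (nat_lit 226) (fin (add (start D4132) (orK (nat_lit 227) D7600))))) D4337))
noncomputable def D7588 : OP := orK (nat_lit 148) D3893
noncomputable def D7583 : OP := orK (nat_lit 229) (fin (add (start D5157) (orK (nat_lit 248) (fin (add (start D5535) (orK (nat_lit 249) (fin (add (start D5536) D3040))))))))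
noncomputable def D7570 : OP := orK (nat_lit 229) D7569
noncomputable def D7658 : OP := orK (nat_lit 165) (fin (add (start D7434) (orK (nat_lit 145) (fin (add (start D4264) D4263)))))
noncomputable def D3229 : OP := orK (nat_lit 268) (fin (add (start D2737) D742))
noncomputable def D4934 : AP := fin (add (start D209) (orK (nat_lit 188) (fin (add (start (orK (nat_lit 248) (fin (add (start (orK (nat_lit 187) (fin (add (start D2738) D4926)))) D3229)))) D4931))))
noncomputable def D5428 : OP := orK (nat_lit 208) D4934
noncomputable def D4939 : OP := orK (nat_lit 188) (fin (add (start D2067) D4937))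
noncomputable def D4941 : OP := orK (nat_lit 187) (fin (add (start D721) D4939))
noncomputable def D5505 : AP := fin (add (start D5481) D5504)
noncomputable def D5522 : OP := orK (nat_lit 168) D5505
noncomputable def D5483 : OP := orK (nat_lit 168) (fin (add (start D5481) D821))
noncomputable def D5353 : OP := orK (nat_lit 186) (fin (add (start (win (nat_lit 7) (nat_lit 6) (nat_lit 8) (nat_lit 5))) (win (nat_lit 7) (nat_lit 6) (nat_lit 9) (nat_lit 4))))
noncomputable def D4942 : AP := fin (add (start D722) D4941)
noncomputable def D5407 : OP := orK (nat_lit 188) (fin (add (start D2755) D3993))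
noncomputable def D5360 : OP := win (nat_lit 3) (nat_lit 7) (nat_lit 9) (nat_lit 3)
noncomputable def D3200 : OP := win (nat_lit 1) (nat_lit 7) (nat_lit 9) (nat_lit 3)
noncomputable def D3203 : OP := orK (nat_lit 267) (fin (add (start D3200) D3201))
noncomputable def D5331 : OP := orK (nat_lit 248) (fin (add (start D2814) D4197))
noncomputable def D5417 : OP := orK (nat_lit 247) (fin (add (add (add (start (orK (nat_lit 246) (fin (add (start (win (nat_lit 5) (nat_lit 6) (nat_lit 11) (nat_lit 0))) (orK (nat_lit 245) (fin (add (start D5316) (win (nat_lit 4) (nat_lit 5) (nat_lit 11) (nat_lit 3))))))))) (orK (nat_lit 267) (fin (add (add (add (start (orK (nat_lit 208) (fin (add (start D3201) (orK (nat_lit 188) (fin (add (start D2755) D3200))))))) (orK (nat_lit 207) (fin (add (add (start (orK (nat_lit 287) (fin (add (start D5343) D5347)))) (orK (nat_lit 187) (fin (add (start D5331) D5353)))) (orK (nat_lit 187) (fin (add (start D5329) D5353))))))) (orK (nat_lit 208) (fin (add (start D3201) (orK (nat_lit 188) (fin (add (start D2755) D5360))))))) (orK (nat_lit 207) (fin (add (start (orK (nat_lit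 208) (fin (add (start D5365) (orK (nat_lit 206) (fin (add (start D5376) (win (nat_lit 7) (nat_lit 6) (nat_lit 9) (nat_lit 5))))))))) (orK (nat_lit 187) (fin (add (start D5329) D5331)))))))))) (orK (nat_lit 208) (fin (add (add (start (orK (nat_lit 207) (fin (add (start D3998) D3173)))) (orK (nat_lit 188) (fin (add (start D2755) D3203)))) (orK (nat_lit 188) (fin (add (start D2755) (orK (nat_lit 267) (fin (add (start D5360) D3201)))))))))) (orK (nat_lit 230) (fin (add (start D457) (orK (nat_lit 250) (fin (add (start D3208) (orK (nat_lit 207) (fin (add (start D5405) (orK (nat_lit 208) (fin (add (start D2869) D5407))))))))))))))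
noncomputable def D5552 : OP := orK (nat_lit 229) (fin (add (add (add (start D5300) (orK (nat_lit 227) (fin (add (add (add (add (add (start (orK (nat_lit 228) D5305)) (orK (nat_lit 228) (fin (add (start D2136) (orK (nat_lit 230) (fin (add (start D456) (orK (nat_lit 251) (fin (add (start D3514) (orK (nat_lit 231) (fin (add (start D3136) D460))))))))))))) (orK (nat_lit 228) (fin (add (start D2136) D5417)))) (orK (nat_lit 228) (fin (add (add (add (start D5304) (orK (nat_lit 230) (fin (add (start D456) (orK (nat_lit 251) (fin (add (start D3514) (orK (nat_lit 231) (fin (add (start D3136) (orK (nat_lit 232) (fin (add (start D438) D460))))))))))))) D5417) D5428)))) (orK (nat_lit 207) (fin (add (add (add (start (orK (nat_lit 208) D5431)) (orK (nat_lit 208) D4942)) (orK (nat_lit 187) (fin (add (add (add (start (orK (nat_lit 247) (fin (add (add (start (orK (nat_lit 246) (fin (add (start D4191) (orK (nat_lit 248) (fin (add (start D4197) (orK (nat_lit 249) (fin (add (start D5460) (orK (nat_lit 226) (fin (add (start D5461) D5462))))))))))))) (orK (nat_lit 268) (fin (add (start D5334) (orK (nat_lit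 267) (fin (add (start D5335) D5353))))))) (orK (nat_lit 266) (fin (add (start D5326) (orK (nat_lit 267) (fin (add (start D5327) D5353)))))))))) (orK (nat_lit 167) (fin (add (add (start D5483) (orK (nat_lit 226) (fin (add (start D4133) (orK (nat_lit 147) (fin (add (start D4132) (orK (nat_lit 128) (fin (add (start D4127) (orK (nat_lit 127) (fin (add (start D3846) (orK (nat_lit 126) (fin (add (start D3847) (win (nat_lit 7) (nat_lit 6) (nat_lit 6) (nat_lit 4)))))))))))))))))) (orK (nat_lit 226) (fin (add (start D4133) (orK (nat_lit 147) (fin (add (start D4132) (orK (nat_lit 168) (fin (add (start D1246) D821))))))))))))) (orK (nat_lit 168) (fin (add (start (orK (nat_lit 167) D5505)) (orK (nat_lit 247) (fin (add (start D4189) D5459))))))) (orK (nat_lit 167) (fin (add (add (add (start D5483) (orK (nat_lit 168) (fin (add (start D821) D5504)))) (orK (nat_lit 146) (fin (add (start D5449) (orK (nat_lit 147) (fin (add (start D5448) (orK (nat_lit 206) (fin (add (start D4213) (orK (nat_lit 127) (fin (add (start (win (nat_lit 1) (nat_lit 6) (nat_lit 6) (nat_lit 4))) D4129))))))))))))) D5522)))))))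 (orK (nat_lit 208) (fin (add (start D3998) D4941))))))) (orK (nat_lit 228) (fin (add (start D2136) D5428))))))) (orK (nat_lit 189) D5544)) D5550))
noncomputable def D9905 : AP := fin (add (add (add (add (add (add (add (add (add (add (add (add (add (add (start D5552) (orK (nat_lit 189) (fin (add (add (add (start D7520) (orK (nat_lit 229) D7521)) D7526) (orK (nat_lit 229) (fin (add (add (start D7518) D7496) (orK (nat_lit 230) D7534)))))))) (orK (nat_lit 168) (fin (add (add (add (add (add (add (start (orK (nat_lit 189) (fin (add (add (start D7570) (orK (nat_lit 171) (fin (add (start D3888) (orK (nat_lit 148) (fin (add (start D992) (orK (nat_lit 188) (fin (add (start D61) (orK (nat_lit 128) D6777))))))))))) D7583)))) (orK (nat_lit 189) (fin (add (add (start D7570) (orK (nat_lit 171) (fin (add (add (start D7528) D3888) D4995)))) D7588)))) (orK (nat_lit 187) (fin (add (add (start (orK (nat_lit 186) (fin (add (start D3191) (orK (nat_lit 188) (fin (add (start D2069) D3833))))))) D7596) (orK (nat_lit 167) (fin (add (start D821) (orK (nat_lit 150) (fin (add (start D1096) (orK (nat_lit 147)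 (fin (add (start D1246) (orK (nat_lit 229) (fin (add (start D7597) D7611)))))))))))))))) (orK (nat_lit 189) (fin (add (add (start D7570) (orK (nat_lit 167) (fin (add (add (add (add (start D3797) (orK (nat_lit 187) (fin (add (start D821) (orK (nat_lit 147) (fin (add (start D1246) (orK (nat_lit 127) (fin (add (add (start (orK (nat_lit 207) (fin (add (start D4129) (orK (nat_lit 208) (fin (add (start D5947) D4126))))))) (orK (nat_lit 188) D3823)) (orK (nat_lit 107) D4117))))))))))) (orK (nat_lit 166) (fin (add (add (add (start D1876) (orK (nat_lit 165) (fin (add (start D7434) (orK (nat_lit 147) (fin (add (start D1246) (orK (nat_lit 164) (fin (add (start (win (nat_lit 4) (nat_lit 4) (nat_lit 7) (nat_lit 5))) (orK (nat_lit 143) (fin (add (start (win (nat_lit 2) (nat_lit 3) (nat_lit 7) (nat_lit 4))) D4279))))))))))))) (orK (nat_lit 165) (fin (add (start D7434) (orK (nat_lit 144) (fin (add (start D4310) (orK (nat_lit 164) (fin (add (start D4311) (orK (nat_lit 148) (fin (add (start D4312) D4279))))))))))))) D7658)))) (orK (nat_lit 148) (fin (add (add (start D3892) (orK (nat_lit 186) (fin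 (add (start D1880) (orK (nat_lit 166) (fin (add (start D1879) (orK (nat_lit 165) (fin (add (start D7434) (orK (nat_lit 144) (fin (add (start D4310) (orK (nat_lit 164) (fin (add (start D4311) D4312)))))))))))))))) (orK (nat_lit 187) (fin (add (start D821) (orK (nat_lit 128) (fin (add (start D1733) (orK (nat_lit 207) D7553))))))))))) (orK (nat_lit 186) (fin (add (start D1880) (orK (nat_lit 166) (fin (add (start D1879) D7658)))))))))) D7583)))) (orK (nat_lit 189) (fin (add (add (add (start D7570) D7583) D7588) (orK (nat_lit 171) (fin (add (add (start (orK (nat_lit 148) (fin (add (start D992) (orK (nat_lit 188) D7686))))) (orK (nat_lit 172) (fin (add (start D45) D127)))) D6764))))))) (orK (nat_lit 229) (fin (add (add (start D7698) (orK (nat_lit 147) (fin (add (start (orK (nat_lit 167) (fin (add (start D1246) (orK (nat_lit 187) (fin (add (start D821) D7611))))))) D7708)))) D7714)))) (orK (nat_lit 171) (fin (add (start D3888) D3368))))))) D7977) (orK (nat_lit 229) D8155)) (orK (nat_lit 208) (fin (add (add (add (add (add (add (start (orK (nat_lit 228) (fin (add (start D8178) (orK (nat_lit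 211) (fin (add (start D396) D7910))))))) D4494) D8198) (orK (nat_lit 228) (fin (add (add (start D2081) D8178) (orK (nat_lit 211) (fin (add (start D396) (orK (nat_lit 188) (fin (add (start D200) D8200)))))))))) D8230) (orK (nat_lit 188) (fin (add (add (add (start D2073) (orK (nat_lit 168) (fin (add (add (add (start (orK (nat_lit 148) (fin (add (start D241) D8232)))) (orK (nat_lit 229) (fin (add (start (orK (nat_lit 230) (fin (add (add (start D3054) (orK (nat_lit 232) (fin (add (start D8049) (orK (nat_lit 189) (fin (add (start D3945) D8236))))))) (orK (nat_lit 189) (fin (add (start D3945) (orK (nat_lit 206) (fin (add (start (win (nat_lit 0) (nat_lit 6) (nat_lit 10) (nat_lit 1))) D8236)))))))))) D3999)))) D207) (orK (nat_lit 148) (fin (add (add (start D8232) D8255) (orK (nat_lit 171) (fin (add (start D992) (orK (nat_lit 189) D7686))))))))))) D5968) (orK (nat_lit 187) (fin (add (add (start D8267) (orK (nat_lit 186) (fin (add (start D3977) (orK (nat_lit 185) (fin (add (add (start (orK (nat_lit 208) (fin (add (start D8268) (orK (nat_lit 184) (fin (add (start D8269) (orK (nat_lit 164) (fin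 (add (start (win (nat_lit 2) (nat_lit 3) (nat_lit 8) (nat_lit 5))) (win (nat_lit 2) (nat_lit 4) (nat_lit 8) (nat_lit 4)))))))))))) (orK (nat_lit 165) (fin (add (start (win (nat_lit 2) (nat_lit 4) (nat_lit 8) (nat_lit 5))) (orK (nat_lit 205) (fin (add (start (win (nat_lit 5) (nat_lit 4) (nat_lit 9) (nat_lit 5))) (orK (nat_lit 145) (fin (add (add (start (orK (nat_lit 225) (fin (add (start (orK (nat_lit 146) (fin (add (start (win (nat_lit 3) (nat_lit 5) (nat_lit 6) (nat_lit 5))) (win (nat_lit 3) (nat_lit 5) (nat_lit 7) (nat_lit 4)))))) (orK (nat_lit 226) (fin (add (start D8305) D8306))))))) (orK (nat_lit 125) (fin (add (start (win (nat_lit 6) (nat_lit 5) (nat_lit 6) (nat_lit 5))) D8316)))) (orK (nat_lit 125) (fin (add (start (orK (nat_lit 126) (fin (add (start (win (nat_lit 3) (nat_lit 5) (nat_lit 5) (nat_lit 5))) (win (nat_lit 3) (nat_lit 5) (nat_lit 6) (nat_lit 4)))))) D8316))))))))))))) (orK (nat_lit 208) (fin (add (start D8268) (orK (nat_lit 184) (fin (add (start D8269) (orK (nat_lit 204) (fin (add (start (win (nat_lit 5) (nat_lit 3) (nat_lit 9) (nat_lit 5))) (win (nat_lit 5) (nat_lit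 4) (nat_lit 9) (nat_lit 4)))))))))))))))))) (orK (nat_lit 168) D4069)))))))) (orK (nat_lit 187) (fin (add (add (start D8079) D6589) D3340))))))) (orK (nat_lit 189) (fin (add (add (add (add (start D5282) (orK (nat_lit 229) (fin (add (start D5157) (orK (nat_lit 230) D7497))))) D8355) (orK (nat_lit 230) (fin (add (add (start D3033) (orK (nat_lit 188) (fin (add (add (start D8359) (orK (nat_lit 229) (fin (add (start D8361) D3038)))) (orK (nat_lit 187) (fin (add (start D2483) (orK (nat_lit 208) (fin (add (start D2067) (orK (nat_lit 207) (fin (add (start D2869) (orK (nat_lit 206) (fin (add (start D2870) D5207)))))))))))))))) (orK (nat_lit 208) (fin (add (add (add (start D3255) D3599) (orK (nat_lit 250) (fin (add (start D2332) (orK (nat_lit 188) (fin (add (add (start D2970) (orK (nat_lit 228) (fin (add (start D8374) (orK (nat_lit 211) (fin (add (start D396) (orK (nat_lit 231) (fin (add (start D196) (orK (nat_lit 171) (fin (add (start (win (nat_lit 1) (nat_lit 10) (nat_lit 8) (nat_lit 1))) D2955))))))))))))) D8359))))))) D3615))))))) (orK (nat_lit 171) (fin (add (add (add (start D8395) D7524)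 (orK (nat_lit 188) (fin (add (add (start D8393) (orK (nat_lit 168) (fin (add (start D8397) D5005)))) D8419)))) D6674))))))) (orK (nat_lit 189) (fin (add (add (add (start D5282) (orK (nat_lit 229) (fin (add (start D5157) (orK (nat_lit 228) (fin (add (start D3036) (orK (nat_lit 168) (fin (add (start D3039) (orK (nat_lit 188) (fin (add (start D3052) (orK (nat_lit 171) D7527)))))))))))))) (orK (nat_lit 230) (fin (add (add (start D3033) D8440) (orK (nat_lit 250) (fin (add (start D2332) (orK (nat_lit 208) (fin (add (add (add (start D3255) (orK (nat_lit 207) (fin (add (start D2869) (orK (nat_lit 226) (fin (add (start D2050) (orK (nat_lit 206) (fin (add (start D2049) (orK (nat_lit 188) (fin (add (start D5207) (orK (nat_lit 248) (fin (add (start D8407) (orK (nat_lit 171) D8443))))))))))))))))) D3608) D3613)))))))))) (orK (nat_lit 171) (fin (add (add (add (start (orK (nat_lit 188) D8443)) D7524) (orK (nat_lit 168) (fin (add (start (orK (nat_lit 148) (fin (add (start D992) (orK (nat_lit 188) (fin (add (start D61) D2490))))))) D6932)))) D8492))))))) (orK (nat_lit 189) (fin (add (add (add (add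 (start (orK (nat_lit 229) D5299)) (orK (nat_lit 230) (fin (add (add (start D3033) D8440) (orK (nat_lit 250) (fin (add (start D2332) (orK (nat_lit 208) (fin (add (add (add (start D3255) (orK (nat_lit 207) (fin (add (start D2869) (orK (nat_lit 226) (fin (add (start D2050) (orK (nat_lit 206) (fin (add (start D2049) (orK (nat_lit 185) (fin (add (start D3950) (orK (nat_lit 205) (fin (add (start D3951) D3587)))))))))))))))) D3608) D3613)))))))))) (orK (nat_lit 171) D8674)) D6609) D8676)))) (orK (nat_lit 208) D9008)) (orK (nat_lit 208) (fin (add (add (add (add (start D8105) D8684) (orK (nat_lit 187) (fin (add (add (add (start (orK (nat_lit 188) (fin (add (start D2067) (orK (nat_lit 168) (fin (add (start D3820) (orK (nat_lit 148) (fin (add (start D241) (orK (nat_lit 128) (fin (add (start D951) D2127))))))))))))) D3312) D8100) D8103)))) (orK (nat_lit 228) (fin (add (add (start (orK (nat_lit 188) (fin (add (add (add (start D9020) D3190) (orK (nat_lit 168) (fin (add (add (start D2442) D9023) (orK (nat_lit 147) (fin (add (start D215) (orK (nat_lit 248) (fin (add (add (add (start D4044) D2692)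 D6385) (orK (nat_lit 267) (fin (add (start D739) (orK (nat_lit 268) (fin (add (start D740) (orK (nat_lit 229) (fin (add (start D2737) D2440))))))))))))))))))) (orK (nat_lit 187) (fin (add (start D2067) (orK (nat_lit 168) (fin (add (start D3820) D2442)))))))))) D9434) D9440)))) D8230)))) (orK (nat_lit 208) (fin (add (add (add (add (add (add (start D8105) (orK (nat_lit 187) (fin (add (add (start D3306) (orK (nat_lit 188) (fin (add (start D2067) D8267)))) D3312)))) (orK (nat_lit 227) (fin (add (add (start (orK (nat_lit 211) (fin (add (start D723) D9438)))) (orK (nat_lit 226) (fin (add (start D2855) (orK (nat_lit 228) (fin (add (start D2076) (orK (nat_lit 248) (fin (add (add (add (start D8176) D8799) (orK (nat_lit 268) (fin (add (add (add (add (start D8768) (orK (nat_lit 289) (fin (add (start D6376) (orK (nat_lit 288) (fin (add (start D6377) (orK (nat_lit 307) (fin (add (start D9451) (orK (nat_lit 308) (fin (add (start D9452) D9453))))))))))))) (orK (nat_lit 287) (fin (add (start D3548) (orK (nat_lit 288) (fin (add (start D3549) (orK (nat_lit 309) (fin (add (start D9462) (orK (nat_lit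 308) (fin (add (start D9463) D9453))))))))))))) (orK (nat_lit 269) (fin (add (start D746) (orK (nat_lit 247) (fin (add (add (start (orK (nat_lit 188) (fin (add (start D2089) D745)))) (orK (nat_lit 246) (fin (add (start D9350) (orK (nat_lit 267) (fin (add (start D9270) D9351))))))) (orK (nat_lit 246) (fin (add (start D9350) (orK (nat_lit 270) (fin (add (start (win (nat_lit 0) (nat_lit 6) (nat_lit 12) (nat_lit 3))) D7839))))))))))))) D9337)))) (orK (nat_lit 188) (fin (add (start D231) (orK (nat_lit 247) (fin (add (start D2755) D2089)))))))))))))))) D8682)))) (orK (nat_lit 211) (fin (add (add (start D2865) (orK (nat_lit 188) (fin (add (start D200) (orK (nat_lit 228) (fin (add (start D396) D8200))))))) D4592)))) (orK (nat_lit 231) (fin (add (start D8917) D8090)))) (orK (nat_lit 188) (fin (add (add (add (start D2073) (orK (nat_lit 228) (fin (add (add (start D8200) (orK (nat_lit 227) (fin (add (start D209) (orK (nat_lit 168) (fin (add (start D208) D9023))))))) (orK (nat_lit 211) (fin (add (start D396) (orK (nat_lit 191) (fin (add (start D514) (orK (nat_lit 248) (fin (add (start D231) (orK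 (nat_lit 269) (fin (add (start D745) (orK (nat_lit 268) (fin (add (start D746) (orK (nat_lit 287) (fin (add (start D3548) (orK (nat_lit 288) (fin (add (start D3549) (orK (nat_lit 270) (fin (add (start D6386) (orK (nat_lit 231) (fin (add (start D196) D6390))))))))))))))))))))))))))))))) D9020) (orK (nat_lit 171) (fin (add (add (start (orK (nat_lit 168) D3986)) (orK (nat_lit 168) (fin (add (start D61) D4991)))) D7212))))))) (orK (nat_lit 207) D9706))))) (orK (nat_lit 171) D9851)) (orK (nat_lit 189) (fin (add (add (add (start D5282) (orK (nat_lit 171) (fin (add (add (add (start D8395) D7524) (orK (nat_lit 168) (fin (add (add (start (orK (nat_lit 188) D8441)) D6764) D6766)))) (orK (nat_lit 152) (fin (add (add (add (start D6629) (orK (nat_lit 191) (fin (add (add (start D2988) (orK (nat_lit 211) (fin (add (start (orK (nat_lit 151) D6667)) D9789)))) D6670)))) D5024) D5027))))))) D8355) D9872)))) (orK (nat_lit 189) (fin (add (add (add (add (start D5282) D7526) (orK (nat_lit 229) (fin (add (start D5157) (orK (nat_lit 168) (fin (add (start D3039) (orK (nat_lit 228) (fin (add (start D3036)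 (orK (nat_lit 227) (fin (add (start D2136) (orK (nat_lit 208) (fin (add (start D209) (orK (nat_lit 188) (fin (add (start D208) D7492))))))))))))))))))) D9872) (orK (nat_lit 229) (fin (add (start D5157) (orK (nat_lit 228) (fin (add (start D3036) (orK (nat_lit 230) (fin (add (start D3945) (orK (nat_lit 227) (fin (add (start D2136) (orK (nat_lit 207) (fin (add (start D5405) (orK (nat_lit 208) (fin (add (start D2869) (orK (nat_lit 247) (fin (add (start D457) (orK (nat_lit 168) (fin (add (start D6341) D3039))))))))))))))))))))))))))))
noncomputable def D729 : OP := orK (nat_lit 187) (fin (add (start D720) (orK (nat_lit 207) (fin (add (start D721) D725)))))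
noncomputable def D7265 : OP := orK (nat_lit 229) (fin (add (start D5157) (orK (nat_lit 228) (fin (add (start D3036) (orK (nat_lit 227) (fin (add (start D2136) D5301))))))))
noncomputable def D7426 : OP := orK (nat_lit 192) (fin (add (start D1492) D7283))
noncomputable def D7407 : OP := win (nat_lit 2) (nat_lit 10) (nat_lit 8) (nat_lit 1)
noncomputable def D5603 : OP := orK (nat_lit 150) (fin (add (start D5601) D1096))
noncomputable def D6576 : AP := fin (add (start D821) (orK (nat_lit 146) (fin (add (start D1874) (orK (nat_lit 166) (fin (add (start D1873) D5603)))))))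
noncomputable def D7333 : OP := win (nat_lit 1) (nat_lit 11) (nat_lit 5) (nat_lit 3)
noncomputable def D7346 : OP := orK (nat_lit 134) (fin (add (start (win (nat_lit 0) (nat_lit 10) (nat_lit 5) (nat_lit 4))) (win (nat_lit 0) (nat_lit 11) (nat_lit 5) (nat_lit 5))))
noncomputable def D1159 : OP := orK (nat_lit 93) (fin (add (start (win (nat_lit 4) (nat_lit 9) (nat_lit 4) (nat_lit 4))) (win (nat_lit 4) (nat_lit 10) (nat_lit 4) (nat_lit 5))))
noncomputable def D1155 : OP := win (nat_lit 2) (nat_lit 9) (nat_lit 4) (nat_lit 4)
noncomputable def D1154 : OP := win (nat_lit 2) (nat_lit 8) (nat_lit 4) (nat_lit 5)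
noncomputable def D1171 : OP := orK (nat_lit 89) (fin (add (start D1154) D1155))
noncomputable def D7309 : OP := orK (nat_lit 150) (fin (add (start D1930) (orK (nat_lit 174) (fin (add (start D6871) (orK (nat_lit 195) (fin (add (start D1968) (orK (nat_lit 175) (fin (add (start D1969) D7301)))))))))))
noncomputable def D841 : OP := win (nat_lit 3) (nat_lit 11) (nat_lit 7) (nat_lit 0)
noncomputable def D5680 : OP := win (nat_lit 4) (nat_lit 8) (nat_lit 5) (nat_lit 5)
noncomputable def D2649 : OP := win (nat_lit 1) (nat_lit 11) (nat_lit 6) (nat_lit 0)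
noncomputable def D6937 : AP := fin (add (add (start D5039) D3014) D5163)
noncomputable def D1932 : AP := fin (add (start D1930) D1931)
noncomputable def D5221 : OP := orK (nat_lit 189) (fin (add (start D2955) (orK (nat_lit 187) (fin (add (start D1638) (orK (nat_lit 209) (fin (add (add (start (orK (nat_lit 208) (fin (add (start D2067) (orK (nat_lit 149) D5203))))) D4453) (orK (nat_lit 208) (fin (add (start D2067) (orK (nat_lit 207) (fin (add (start D4534) D5211))))))))))))))
noncomputable def D7489 : AP := fin (add (add (add (add (add (add (add (add (start D5029) D6674) D7195) (orK (nat_lit 188) (fin (add (add (start (orK (nat_lit 168) (fin (add (start D61) D6932)))) D5221) (orK (nat_lit 172) (fin (add (start D62) (orK (nat_lit 192) (fin (add (start D59) (orK (nat_lit 168) (fin (add (start D60) (orK (nat_lit 151) (fin (add (start D542) (orK (nat_lit 150) (fin (add (start D322) (orK (nat_lit 173) D1932)))))))))))))))))))) (orK (nat_lit 188) (fin (add (add (add (start D5181) D7212) (orK (nat_lit 168) (fin (add (start D61) D4066)))) (orK (nat_lit 168) (fin (add (start D61) D3888)))))))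 (orK (nat_lit 189) (fin (add (add (add (start D2960) (orK (nat_lit 172) (fin (add (start D45) (orK (nat_lit 193) (fin (add (start D49) (orK (nat_lit 173) (fin (add (start D50) (orK (nat_lit 150) (fin (add (start D1930) D54))))))))))))) (orK (nat_lit 149) D6937)) (orK (nat_lit 209) (fin (add (add (add (start (orK (nat_lit 149) (fin (add (start D2962) (orK (nat_lit 150) (fin (add (start D5035) (orK (nat_lit 172) (fin (add (start D812) (orK (nat_lit 192) (fin (add (start D59) (orK (nat_lit 191) (fin (add (start D1492) (orK (nat_lit 208) (fin (add (start D1633) D169))))))))))))))))))) D5282) D4453) D5287))))))) (orK (nat_lit 188) (fin (add (add (start D5181) (orK (nat_lit 172) (fin (add (start D62) D6881)))) (orK (nat_lit 168) (fin (add (start D61) D7253))))))) (orK (nat_lit 172) (fin (add (add (add (start D58) (orK (nat_lit 192) (fin (add (start D59) (orK (nat_lit 152) (fin (add (start D125) (orK (nat_lit 189) (fin (add (start D45) (orK (nat_lit 211) (fin (add (add (start (orK (nat_lit 191) (fin (add (start D2649) D841)))) (orK (nat_lit 209) (fin (add (add (add (start D7265) D4453)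 (orK (nat_lit 149) (fin (add (start D2962) (orK (nat_lit 208) (fin (add (start D1633) (orK (nat_lit 130) (fin (add (start D5272) (orK (nat_lit 129) (fin (add (start D5119) (orK (nat_lit 128) (fin (add (start D1625) (orK (nat_lit 131) (fin (add (start (win (nat_lit 0) (nat_lit 8) (nat_lit 6) (nat_lit 4))) (orK (nat_lit 111) (fin (add (start D5680) D6840)))))))))))))))))))))) D5287)))) (orK (nat_lit 191) (fin (add (start D841) (orK (nat_lit 230) (fin (add (start D2989) (orK (nat_lit 209) (fin (add (start D7283) D3030)))))))))))))))))))))) (orK (nat_lit 188) (fin (add (start D62) (orK (nat_lit 173) (fin (add (add (start D999) D7309) (orK (nat_lit 150) (fin (add (start D1930) (orK (nat_lit 174) (fin (add (start D6871) (orK (nat_lit 192) (fin (add (start D59) (orK (nat_lit 155) (fin (add (start D7298) (orK (nat_lit 175) (fin (add (start D7299) (win (nat_lit 5) (nat_lit 11) (nat_lit 8) (nat_lit 5)))))))))))))))))))))))) (orK (nat_lit 188) (fin (add (start D62) (orK (nat_lit 173) (fin (add (add (start D54) D7309) (orK (nat_lit 152) (fin (add (start D125) (orK (nat_lit 150) (fin (add (start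 D1930) (orK (nat_lit 151) (fin (add (start D1931) (orK (nat_lit 191) (fin (add (add (start (orK (nat_lit 211) (fin (add (start D2837) D4997)))) (orK (nat_lit 130) (fin (add (start D2260) (win (nat_lit 7) (nat_lit 10) (nat_lit 6) (nat_lit 0)))))) (orK (nat_lit 110) (fin (add (start D7332) (orK (nat_lit 112) (fin (add (add (start (orK (nat_lit 132) (fin (add (start D834) D7333)))) (orK (nat_lit 111) (fin (add (add (add (start (orK (nat_lit 131) (fin (add (start D1059) D3371)))) (orK (nat_lit 131) (fin (add (start D3371) D1060)))) (orK (nat_lit 131) D1061)) (orK (nat_lit 113) (fin (add (add (start (orK (nat_lit 109) (fin (add (start D1171) D1159)))) (orK (nat_lit 114) (fin (add (start D7346) (orK (nat_lit 90) (fin (add (start (win (nat_lit 2) (nat_lit 9) (nat_lit 4) (nat_lit 5))) (win (nat_lit 2) (nat_lit 10) (nat_lit 4) (nat_lit 4))))))))) (orK (nat_lit 114) (fin (add (start D7346) (orK (nat_lit 94) (fin (add (start (win (nat_lit 4) (nat_lit 10) (nat_lit 4) (nat_lit 4))) (win (nat_lit 4) (nat_lit 11) (nat_lit 4) (nat_lit 5))))))))))))))) (orK (nat_lit 132) (fin (add (start D7333) (win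 (nat_lit 3) (nat_lit 11) (nat_lit 5) (nat_lit 3))))))))))))))))))))))))))))))))) (orK (nat_lit 191) (fin (add (add (add (start D7395) (orK (nat_lit 168) (fin (add (start D383) (orK (nat_lit 187) (fin (add (start D822) (orK (nat_lit 167) D6576)))))))) (orK (nat_lit 168) (fin (add (start D383) (orK (nat_lit 188) (fin (add (start D61) D4064))))))) (orK (nat_lit 211) (fin (add (add (add (add (start (orK (nat_lit 192) (fin (add (start D1492) (orK (nat_lit 194) (fin (add (start D7407) (orK (nat_lit 150) (fin (add (start D4997) (orK (nat_lit 209) (fin (add (start D7283) D7408))))))))))))) D6715) (orK (nat_lit 168) (fin (add (start D383) (orK (nat_lit 231) (fin (add (start D6634) (orK (nat_lit 250) (fin (add (start D4503) (orK (nat_lit 251) (fin (add (start D4504) D6639))))))))))))) (orK (nat_lit 230) (fin (add (add (start D2993) (orK (nat_lit 209) (fin (add (add (start D7426) D3586) (orK (nat_lit 168) (fin (add (start D383) (orK (nat_lit 189) (fin (add (start D3030) (orK (nat_lit 167) (fin (add (add (add (start D824) (orK (nat_lit 146) (fin (add (start D1874) (orK (nat_lit 166) (fin (add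 (start D1873) (orK (nat_lit 188) (fin (add (start D7427) D61)))))))))) (orK (nat_lit 146) (fin (add (start D1874) (orK (nat_lit 166) (fin (add (start D1873) (orK (nat_lit 165) (fin (add (start D7434) D4291)))))))))) D3797))))))))))))) (orK (nat_lit 192) (fin (add (start D1492) (orK (nat_lit 194) (fin (add (start D7407) (orK (nat_lit 209) (fin (add (start D7283) (orK (nat_lit 250) (fin (add (start D2991) (orK (nat_lit 189) (fin (add (start D3030) D3031))))))))))))))))))) (orK (nat_lit 209) (fin (add (add (start D7426) (orK (nat_lit 189) (fin (add (add (add (start D7265) (orK (nat_lit 230) (fin (add (start D3030) (orK (nat_lit 250) (fin (add (start D2991) D3031))))))) (orK (nat_lit 149) (fin (add (start D2962) (orK (nat_lit 129) (fin (add (add (add (start D5274) (orK (nat_lit 150) (fin (add (start D5035) D7466)))) (orK (nat_lit 108) (fin (add (start D1233) (orK (nat_lit 109) (fin (add (start D1218) (orK (nat_lit 188) (fin (add (start D1231) D5147)))))))))) D3010))))))) D5287)))) (orK (nat_lit 208) (fin (add (start D514) D729)))))))))))))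
noncomputable def D5053 : OP := orK (nat_lit 193) (fin (add (start D49) (orK (nat_lit 173) (fin (add (start D50) D1000)))))
noncomputable def D5262 : OP := orK (nat_lit 172) (fin (add (add (add (start D5248) D58) D5252) (orK (nat_lit 152) (fin (add (start D125) (orK (nat_lit 192) (fin (add (start D59) (orK (nat_lit 149) (fin (add (start D120) (orK (nat_lit 189) (fin (add (start D45) D5163))))))))))))))
noncomputable def D5598 : OP := orK (nat_lit 150) (fin (add (start D5035) (orK (nat_lit 148) (fin (add (start D1629) (orK (nat_lit 147) (fin (add (start D366) (orK (nat_lit 167) (fin (add (start D577) (orK (nat_lit 168) (fin (add (start D1096) (orK (nat_lit 208) (fin (add (start D1633) (orK (nat_lit 127) (fin (add (start D367) (win (nat_lit 7) (nat_lit 7) (nat_lit 6) (nat_lit 1))))))))))))))))))))))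
noncomputable def D5575 : OP := orK (nat_lit 208) D5574
noncomputable def D6154 : AP := fin (add (add (add (start D5278) D5575) D5581) D5598)
noncomputable def D6433 : OP := orK (nat_lit 148) (fin (add (start D241) (orK (nat_lit 149) (fin (add (start D213) (orK (nat_lit 147) (fin (add (start D366) D214))))))))
noncomputable def D6440 : AP := fin (add (start D2067) (orK (nat_lit 186) (fin (add (start D2068) (orK (nat_lit 168) (fin (add (start D3191) D6433)))))))
noncomputable def D3185 : AP := fin (add (start D230) D2442)
noncomputable def D6187 : AP := fin (add (start D2068) (orK (nat_lit 168) (fin (add (start D3191) (orK (nat_lit 228) D3185)))))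
noncomputable def D6190 : OP := orK (nat_lit 188) (fin (add (start D2067) (orK (nat_lit 186) D6187)))
noncomputable def D469 : OP := win (nat_lit 0) (nat_lit 8) (nat_lit 11) (nat_lit 0)
noncomputable def D6477 : OP := orK (nat_lit 191) (fin (add (start D514) (orK (nat_lit 251) (fin (add (add (start (orK (nat_lit 270) (fin (add (start D4595) (orK (nat_lit 271) (fin (add (start D4596) D432))))))) D4617) (orK (nat_lit 250) (fin (add (start D4504) (orK (nat_lit 252) (fin (add (start D6466) (orK (nat_lit 229) (fin (add (start D469) D6467))))))))))))))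
noncomputable def D1752 : OP := win (nat_lit 1) (nat_lit 7) (nat_lit 4) (nat_lit 0)
noncomputable def D6492 : OP := win (nat_lit 2) (nat_lit 6) (nat_lit 7) (nat_lit 2)
noncomputable def D6193 : OP := orK (nat_lit 186) (fin (add (start D3303) (orK (nat_lit 188) D6187)))
noncomputable def D5442 : OP := win (nat_lit 7) (nat_lit 6) (nat_lit 7) (nat_lit 5)
noncomputable def D3231 : OP := orK (nat_lit 248) (fin (add (add (start (orK (nat_lit 249) (fin (add (start D232) (orK (nat_lit 247) (fin (add (start D2089) D3219))))))) (orK (nat_lit 269) (fin (add (start D745) D3225)))) D3229))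
noncomputable def D6225 : OP := orK (nat_lit 187) (fin (add (start D2738) D6223))
noncomputable def D3186 : OP := orK (nat_lit 168) D3185
noncomputable def D6607 : AP := fin (add (add (add (add (add (add (add (add (add (start (orK (nat_lit 187) (fin (add (add (add (add (start D6165) (orK (nat_lit 228) (fin (add (add (add (start D3314) D2081) (orK (nat_lit 227) (fin (add (start D2079) (orK (nat_lit 167) (fin (add (add (start (orK (nat_lit 207) D3170)) (orK (nat_lit 188) (fin (add (start D2110) (orK (nat_lit 168) (fin (add (start D208) D230))))))) (orK (nat_lit 147) (fin (add (start D4546) (orK (nat_lit 168) (fin (add (start D1246) (win (nat_lit 7) (nat_lit 7) (nat_lit 7) (nat_lit 2))))))))))))))) (orK (nat_lit 188) (fin (add (start D2067) D3186))))))) D3312) D6190) D6193)))) (orK (nat_lit 228) (fin (add (add (add (start D2081) (orK (nat_lit 188) (fin (add (start D3186) (orK (nat_lit 187) D6211))))) (orK (nat_lit 226) (fin (add (add (add (start (orK (nat_lit 227) D2078)) (orK (nat_lit 227) (fin (add (start D2077) D2855)))) (orK (nat_lit 188) (fin (add (add (add (start D3186) (orK (nat_lit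 207) (fin (add (add (add (start (orK (nat_lit 230) (fin (add (start D2869) (orK (nat_lit 206) (fin (add (start D2870) D2049))))))) (orK (nat_lit 225) (fin (add (start (win (nat_lit 5) (nat_lit 5) (nat_lit 10) (nat_lit 3))) (orK (nat_lit 248) (fin (add (start D6225) (orK (nat_lit 247) (fin (add (start D2089) (orK (nat_lit 249) (fin (add (start (win (nat_lit 2) (nat_lit 5) (nat_lit 11) (nat_lit 3))) D232))))))))))))) (orK (nat_lit 248) (fin (add (start D6225) (orK (nat_lit 230) (fin (add (start D2869) (orK (nat_lit 249) (fin (add (start D232) (orK (nat_lit 247) (fin (add (start D2089) (orK (nat_lit 246) (fin (add (start D5461) D6238)))))))))))))))) (orK (nat_lit 248) (fin (add (start D6225) (orK (nat_lit 230) (fin (add (start D2869) (orK (nat_lit 229) (fin (add (start D2729) (orK (nat_lit 247) (fin (add (start D2089) (orK (nat_lit 246) (fin (add (start D6249) D6250))))))))))))))))))) (orK (nat_lit 168) (fin (add (start D230) (orK (nat_lit 167) (fin (add (start D2091) (orK (nat_lit 248) (fin (add (start D2092) D2692)))))))))) (orK (nat_lit 168) (fin (add (start D230) (orK (nat_lit 148)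 (fin (add (start D241) D217)))))))))) (orK (nat_lit 227) D3315))))) D3318)))) (orK (nat_lit 207) (fin (add (add (add (start D4160) D6298) (orK (nat_lit 230) (fin (add (start D2869) (orK (nat_lit 229) (fin (add (start D2729) (orK (nat_lit 228) (fin (add (add (add (add (start (orK (nat_lit 227) (fin (add (start D456) (orK (nat_lit 247) (fin (add (start D457) D5407))))))) (orK (nat_lit 227) (fin (add (start D456) (orK (nat_lit 250) (fin (add (start D3208) (orK (nat_lit 270) (fin (add (start D3210) (orK (nat_lit 269) (fin (add (start D2627) (orK (nat_lit 249) (fin (add (start D3143) (orK (nat_lit 268) (fin (add (start D3042) (orK (nat_lit 267) (fin (add (start (win (nat_lit 4) (nat_lit 6) (nat_lit 12) (nat_lit 0))) (orK (nat_lit 287) (fin (add (start (win (nat_lit 1) (nat_lit 7) (nat_lit 10) (nat_lit 2))) D3080))))))))))))))))))))))))) (orK (nat_lit 188) (fin (add (start (orK (nat_lit 168) (fin (add (start D230) D201)))) D3231)))) (orK (nat_lit 227) (fin (add (start D456) (orK (nat_lit 250) (fin (add (start D3208) (orK (nat_lit 247) (fin (add (start D457) (orK (nat_lit 267) (fin (add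 (start D3201) (orK (nat_lit 266) (fin (add (start D5327) (orK (nat_lit 249) (fin (add (start (win (nat_lit 5) (nat_lit 6) (nat_lit 12) (nat_lit 2))) (orK (nat_lit 269) (fin (add (start D3043) (win (nat_lit 4) (nat_lit 6) (nat_lit 12) (nat_lit 2)))))))))))))))))))))))) (orK (nat_lit 227) (fin (add (start D456) (orK (nat_lit 250) (fin (add (start D3208) (orK (nat_lit 247) (fin (add (start D457) (orK (nat_lit 168) (fin (add (start D6341) D6351)))))))))))))))))))))) D4397)))) D4494) (orK (nat_lit 188) (fin (add (add (add (start (orK (nat_lit 211) (fin (add (start D200) (orK (nat_lit 228) (fin (add (start D396) (orK (nat_lit 231) (fin (add (start D196) (orK (nat_lit 248) (fin (add (add (add (start D6385) D2692) (orK (nat_lit 269) (fin (add (start D745) (orK (nat_lit 268) (fin (add (start D746) (orK (nat_lit 288) (fin (add (start D3550) (orK (nat_lit 287) (fin (add (start D3549) (orK (nat_lit 270) (fin (add (start D6386) (orK (nat_lit 191) (fin (add (start D514) D6390))))))))))))))))))) (orK (nat_lit 247) (fin (add (start D2089) (orK (nat_lit 230) (fin (add (start D3537) (orK (nat_lit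 250) (fin (add (start (win (nat_lit 4) (nat_lit 7) (nat_lit 11) (nat_lit 2))) (orK (nat_lit 270) (fin (add (start D6404) (win (nat_lit 3) (nat_lit 10) (nat_lit 10) (nat_lit 0))))))))))))))))))))))))))) (orK (nat_lit 168) (fin (add (add (add (start (orK (nat_lit 228) (fin (add (start D230) (orK (nat_lit 227) (fin (add (start D208) D2079))))))) (orK (nat_lit 229) (fin (add (start D201) D3999)))) D6433) D3944)))) (orK (nat_lit 187) D6440)) (orK (nat_lit 187) (fin (add (start D2067) (orK (nat_lit 186) (fin (add (start D2068) (orK (nat_lit 168) (fin (add (start D3191) D3944))))))))))))) (orK (nat_lit 207) (fin (add (add (add (start D2876) D4142) D3261) (orK (nat_lit 187) (fin (add (start D721) (orK (nat_lit 231) (fin (add (start D2859) (orK (nat_lit 227) (fin (add (start D722) (orK (nat_lit 167) (fin (add (add (start D4186) D5522) (orK (nat_lit 168) (fin (add (start D5481) D4201))))))))))))))))))) (orK (nat_lit 187) (fin (add (add (add (add (start D6165) (orK (nat_lit 211) (fin (add (start D720) (orK (nat_lit 231) (fin (add (start D196) (orK (nat_lit 230) (fin (add (start D2482) (orK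 (nat_lit 228) (fin (add (start D396) D6477))))))))))))) (orK (nat_lit 231) (fin (add (add (start D6487) D6201) (orK (nat_lit 207) (fin (add (start D721) (orK (nat_lit 167) (fin (add (add (add (start (orK (nat_lit 211) (fin (add (start D196) (orK (nat_lit 228) (fin (add (start D396) D3168))))))) (orK (nat_lit 147) (fin (add (start D4126) (orK (nat_lit 146) (fin (add (start D6492) D5448))))))) (orK (nat_lit 211) (fin (add (start D196) (orK (nat_lit 227) (fin (add (start D723) (orK (nat_lit 168) (fin (add (start D5481) (orK (nat_lit 150) (fin (add (start D1096) (orK (nat_lit 166) (fin (add (start D5601) D5442)))))))))))))))) (orK (nat_lit 168) (fin (add (add (start D4208) (orK (nat_lit 166) (fin (add (start (orK (nat_lit 146) (fin (add (start D1873) (win (nat_lit 7) (nat_lit 6) (nat_lit 7) (nat_lit 0)))))) D5603)))) (orK (nat_lit 166) (fin (add (start D1876) D5603)))))))))))))))) D6190) D6193)))) (orK (nat_lit 187) (fin (add (add (add (start D6165) (orK (nat_lit 167) (fin (add (add (add (start (orK (nat_lit 186) (fin (add (start D3303) (win (nat_lit 5) (nat_lit 6) (nat_lit 8) (nat_lit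 2)))))) (orK (nat_lit 207) (fin (add (start D721) (orK (nat_lit 230) (fin (add (start D2869) (orK (nat_lit 206) (fin (add (start D2870) D4215)))))))))) (orK (nat_lit 147) (fin (add (start (orK (nat_lit 207) D4439)) (orK (nat_lit 146) (fin (add (start D6492) (orK (nat_lit 148) (fin (add (start D3815) (orK (nat_lit 145) (fin (add (start (orK (nat_lit 128) (fin (add (start (win (nat_lit 4) (nat_lit 5) (nat_lit 6) (nat_lit 5))) (orK (nat_lit 108) (fin (add (start D1752) (win (nat_lit 3) (nat_lit 7) (nat_lit 5) (nat_lit 3))))))))) (orK (nat_lit 144) (fin (add (start (orK (nat_lit 124) (fin (add (start (win (nat_lit 2) (nat_lit 3) (nat_lit 6) (nat_lit 5))) (win (nat_lit 2) (nat_lit 4) (nat_lit 6) (nat_lit 4)))))) (orK (nat_lit 164) (fin (add (start (win (nat_lit 5) (nat_lit 3) (nat_lit 7) (nat_lit 5))) (win (nat_lit 5) (nat_lit 4) (nat_lit 7) (nat_lit 4))))))))))))))))))))) (orK (nat_lit 168) D6576))))) (orK (nat_lit 211) (fin (add (start D720) (orK (nat_lit 231) (fin (add (start D196) (orK (nat_lit 230) (fin (add (start D2482) D6477)))))))))) D6190)))) (orK (nat_lit 187) (fin (add (add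 (add (start D6165) D6589) (orK (nat_lit 231) (fin (add (add (start (orK (nat_lit 211) (fin (add (start D196) D720)))) D6202) (orK (nat_lit 207) (fin (add (start D2859) (orK (nat_lit 227) (fin (add (start D722) D4939)))))))))) (orK (nat_lit 188) D6440))))) D6606)
noncomputable def D3239 : OP := orK (nat_lit 168) (fin (add (start D230) (orK (nat_lit 167) (fin (add (start D2091) (orK (nat_lit 187) (fin (add (start D821) D2110))))))))
noncomputable def D3245 : OP := orK (nat_lit 188) (fin (add (add (start D2075) D3239) (orK (nat_lit 168) (fin (add (start D230) D211)))))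
noncomputable def D2184 : OP := win (nat_lit 0) (nat_lit 9) (nat_lit 11) (nat_lit 5)
noncomputable def D3345 : AP := fin (add (add (add (add (start D3035) (orK (nat_lit 189) (fin (add (start D3030) (orK (nat_lit 229) (fin (add (add (start D3038) (orK (nat_lit 168) (fin (add (start D3039) (orK (nat_lit 249) (fin (add (start D3040) (orK (nat_lit 268) (fin (add (start D3041) (orK (nat_lit 269) (fin (add (start D3042) D3043))))))))))))) (orK (nat_lit 168) (fin (add (start D3039) (orK (nat_lit 188) (fin (add (start D3052) (orK (nat_lit 187) (fin (add (start D2483) (orK (nat_lit 208) (fin (add (start D2067) D3054))))))))))))))))))) (orK (nat_lit 250) (fin (add (add (add (start (orK (nat_lit 189) D3032)) (orK (nat_lit 270) (fin (add (add (start (orK (nat_lit 289) (fin (add (start D2720) (orK (nat_lit 290) (fin (add (start D3068) D3069))))))) D3103) (orK (nat_lit 291) (fin (add (start D3104) (orK (nat_lit 290) (fin (add (start D3105) D3069)))))))))) (orK (nat_lit 270) (fin (add (start D2177) (orK (nat_lit 289) (fin (add (start D2720) (orK (nat_lit 290) (fin (add (start D3068) D3113))))))))))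 (orK (nat_lit 229) (fin (add (start D3120) (orK (nat_lit 231) (fin (add (add (start D2551) (orK (nat_lit 232) (fin (add (start D438) (orK (nat_lit 252) (fin (add (start D2184) (orK (nat_lit 228) (fin (add (start (win (nat_lit 0) (nat_lit 8) (nat_lit 11) (nat_lit 4))) (orK (nat_lit 226) (fin (add (start D3122) (orK (nat_lit 248) (fin (add (start D3123) (win (nat_lit 5) (nat_lit 8) (nat_lit 11) (nat_lit 4)))))))))))))))))) (orK (nat_lit 251) (fin (add (start (orK (nat_lit 228) (fin (add (start D3135) D3136)))) (orK (nat_lit 208) (fin (add (start D2482) (orK (nat_lit 271) (fin (add (start D432) (orK (nat_lit 249) (fin (add (start (orK (nat_lit 248) (fin (add (start D3139) (win (nat_lit 4) (nat_lit 7) (nat_lit 11) (nat_lit 0)))))) (orK (nat_lit 269) (fin (add (start D3043) D3143))))))))))))))))))))))))) (orK (nat_lit 208) (fin (add (add (add (start D3179) (orK (nat_lit 232) (fin (add (add (start (orK (nat_lit 231) D3181)) (orK (nat_lit 231) D3183)) (orK (nat_lit 228) (fin (add (add (add (start D2081) (orK (nat_lit 188) (fin (add (add (start D3186) D3190) (orK (nat_lit 187) (fin (add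 (start D2067) (orK (nat_lit 186) (fin (add (start D2068) (orK (nat_lit 168) (fin (add (start D230) D3191))))))))))))) (orK (nat_lit 188) (fin (add (add (start D3186) (orK (nat_lit 229) (fin (add (add (start (orK (nat_lit 227) (fin (add (start D2136) (orK (nat_lit 247) (fin (add (start D457) D3203))))))) (orK (nat_lit 227) (fin (add (start D2136) (orK (nat_lit 250) (fin (add (start D3208) (orK (nat_lit 269) (fin (add (start (win (nat_lit 7) (nat_lit 8) (nat_lit 9) (nat_lit 1))) (orK (nat_lit 270) (fin (add (start D2627) D3210))))))))))))) D3231)))) D3239)))) D3245))))))) D3252) D3255)))) (orK (nat_lit 208) (fin (add (add (add (start D3255) (orK (nat_lit 207) (fin (add (start D2869) D3261)))) (orK (nat_lit 228) (fin (add (add (add (add (start (orK (nat_lit 189) D3268)) (orK (nat_lit 211) (fin (add (start D396) (orK (nat_lit 231) (fin (add (start D196) (orK (nat_lit 188) (fin (add (start D200) (orK (nat_lit 248) (fin (add (start D231) D3274))))))))))))) (orK (nat_lit 189) (fin (add (start D3264) (orK (nat_lit 227) (fin (add (start D209) (orK (nat_lit 248) (fin (add (start D735) (orK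 (nat_lit 226) (fin (add (start D2076) (orK (nat_lit 250) (fin (add (start D2332) (orK (nat_lit 249) D3285))))))))))))))))) D3245) (orK (nat_lit 149) (fin (add (start D392) (orK (nat_lit 188) (fin (add (start D517) D2075)))))))))) D3342))))
noncomputable def D5838 : OP := orK (nat_lit 107) (fin (add (start D4109) D1662))
noncomputable def D659 : OP := win (nat_lit 7) (nat_lit 9) (nat_lit 4) (nat_lit 5)
noncomputable def D345 : OP := win (nat_lit 1) (nat_lit 9) (nat_lit 4) (nat_lit 0)
noncomputable def D5826 : OP := win (nat_lit 4) (nat_lit 7) (nat_lit 6) (nat_lit 5)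
noncomputable def D6050 : OP := orK (nat_lit 208) (fin (add (start D399) (orK (nat_lit 207) (fin (add (start D3474) (orK (nat_lit 187) (fin (add (start D940) D721))))))))
noncomputable def D6001 : OP := orK (nat_lit 127) (fin (add (start D367) (orK (nat_lit 107) (fin (add (start D1662) (win (nat_lit 7) (nat_lit 7) (nat_lit 5) (nat_lit 3)))))))
noncomputable def D1196 : OP := win (nat_lit 5) (nat_lit 7) (nat_lit 5) (nat_lit 3)
noncomputable def D5812 : OP := win (nat_lit 1) (nat_lit 8) (nat_lit 5) (nat_lit 1)
noncomputable def D670 : OP := win (nat_lit 5) (nat_lit 8) (nat_lit 5) (nat_lit 0)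
noncomputable def D786 : OP := win (nat_lit 2) (nat_lit 7) (nat_lit 6) (nat_lit 3)
noncomputable def D787 : AP := fin (add (start D785) D786)
noncomputable def D788 : OP := orK (nat_lit 127) D787
noncomputable def D5750 : OP := orK (nat_lit 132) (fin (add (start D1778) (orK (nat_lit 109) (fin (add (start D1093) (orK (nat_lit 111) (fin (add (start D1059) (orK (nat_lit 108) (fin (add (start (win (nat_lit 0) (nat_lit 8) (nat_lit 5) (nat_lit 2))) D1218)))))))))))
noncomputable def D5727 : OP := orK (nat_lit 148) (fin (add (start D778) (orK (nat_lit 147) (fin (add (start D366) D5675)))))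
noncomputable def D5699 : OP := orK (nat_lit 106) (fin (add (start D5697) D1464))
noncomputable def D691 : OP := win (nat_lit 5) (nat_lit 6) (nat_lit 5) (nat_lit 5)
noncomputable def D694 : OP := orK (nat_lit 127) (fin (add (start D691) (win (nat_lit 5) (nat_lit 7) (nat_lit 5) (nat_lit 4))))
noncomputable def D665 : OP := win (nat_lit 0) (nat_lit 7) (nat_lit 5) (nat_lit 0)
noncomputable def D1023 : OP := win (nat_lit 5) (nat_lit 9) (nat_lit 5) (nat_lit 0)
noncomputable def D1140 : OP := win (nat_lit 4) (nat_lit 9) (nat_lit 4) (nat_lit 5)
noncomputable def D1203 : OP := win (nat_lit 5) (nat_lit 8) (nat_lit 5) (nat_lit 5)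
noncomputable def D5679 : OP := orK (nat_lit 147) (fin (add (start D366) D5677))
noncomputable def D5809 : OP := orK (nat_lit 151) (fin (add (start D323) (orK (nat_lit 129) (fin (add (add (add (add (add (add (start (orK (nat_lit 148) (fin (add (add (start D372) D5679) (orK (nat_lit 128) (fin (add (start D386) (orK (nat_lit 131) (fin (add (start D778) (orK (nat_lit 111) (fin (add (start D1059) (orK (nat_lit 130) (fin (add (start D5680) (orK (nat_lit 108) (fin (add (start (win (nat_lit 2) (nat_lit 7) (nat_lit 5) (nat_lit 5))) D883))))))))))))))))))) (orK (nat_lit 127) (fin (add (add (start (orK (nat_lit 128) (fin (add (start D5058) D786)))) (orK (nat_lit 109) (fin (add (start D1093) (orK (nat_lit 110) (fin (add (start D1094) (orK (nat_lit 108) (fin (add (start D1218) (orK (nat_lit 107) (fin (add (start D691) D5699))))))))))))) (orK (nat_lit 128) D787))))) (orK (nat_lit 148) (fin (add (add (start D372) D5679) (orK (nat_lit 128) (fin (add (start D386) (orK (nat_lit 131) (fin (add (start D778) (orK (nat_lit 111) (fin (add (start D1059) (orK (nat_lit 112) (fin (add (start D5063) (orK (nat_lit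 109) (fin (add (start (win (nat_lit 5) (nat_lit 8) (nat_lit 5) (nat_lit 2))) D1093))))))))))))))))))) (orK (nat_lit 131) (fin (add (add (start D5727) (orK (nat_lit 109) (fin (add (start D1093) (orK (nat_lit 110) (fin (add (start D1094) (orK (nat_lit 111) (fin (add (start D1059) (orK (nat_lit 112) (fin (add (start D1203) (orK (nat_lit 92) (fin (add (start D1140) (orK (nat_lit 130) (fin (add (start D1023) (orK (nat_lit 108) (fin (add (start D665) D1218)))))))))))))))))))))) D5750)))) (orK (nat_lit 109) (fin (add (start D1093) (orK (nat_lit 108) (fin (add (start D1218) (orK (nat_lit 110) (fin (add (start D1094) (orK (nat_lit 107) (fin (add (add (start (orK (nat_lit 111) (fin (add (start D5763) D694)))) D5699) D1476))))))))))))) (orK (nat_lit 131) (fin (add (add (start D5727) (orK (nat_lit 109) (fin (add (start D1093) (orK (nat_lit 110) (fin (add (start D1094) (orK (nat_lit 91) (fin (add (start (win (nat_lit 1) (nat_lit 10) (nat_lit 4) (nat_lit 1))) (orK (nat_lit 108) (fin (add (start D1218) (orK (nat_lit 107) (fin (add (start D5761) (orK (nat_lit 86) (fin (add (start D1404) (orK (nat_lit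 106) (fin (add (start D1405) D1472)))))))))))))))))))))) D5750)))) (orK (nat_lit 128) (fin (add (start D788) (orK (nat_lit 109) (fin (add (start D1093) (orK (nat_lit 110) (fin (add (start D1094) (orK (nat_lit 111) (fin (add (start D670) (orK (nat_lit 91) (fin (add (start (win (nat_lit 1) (nat_lit 10) (nat_lit 4) (nat_lit 2))) (orK (nat_lit 108) (fin (add (start D1105) D1218)))))))))))))))))))))))
noncomputable def D1390 : OP := win (nat_lit 0) (nat_lit 6) (nat_lit 6) (nat_lit 2)
noncomputable def D5830 : OP := orK (nat_lit 130) (fin (add (start D5826) (orK (nat_lit 110) (fin (add (start D345) D659)))))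
noncomputable def D5639 : AP := fin (add (start (win (nat_lit 0) (nat_lit 6) (nat_lit 7) (nat_lit 2))) D3813)
noncomputable def D5672 : OP := orK (nat_lit 188) (fin (add (start D3942) (orK (nat_lit 187) (fin (add (start D2067) D5668)))))
noncomputable def D5637 : OP := orK (nat_lit 228) (fin (add (start (win (nat_lit 3) (nat_lit 8) (nat_lit 7) (nat_lit 2))) D3318))
noncomputable def D5635 : OP := orK (nat_lit 188) D3943
noncomputable def D5882 : OP := orK (nat_lit 129) (fin (add (start D785) D1323))
noncomputable def D1264 : OP := win (nat_lit 6) (nat_lit 9) (nat_lit 4) (nat_lit 2)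
noncomputable def D1665 : OP := orK (nat_lit 107) (fin (add (start D1662) (win (nat_lit 6) (nat_lit 7) (nat_lit 5) (nat_lit 5))))
noncomputable def D1667 : OP := orK (nat_lit 127) (fin (add (start D367) D1665))
noncomputable def D1095 : OP := win (nat_lit 1) (nat_lit 8) (nat_lit 5) (nat_lit 5)
noncomputable def D1098 : OP := orK (nat_lit 167) D1097
noncomputable def D6152 : AP := fin (add (add (add (add (add (add (add (start (orK (nat_lit 208) (fin (add (add (add (start D5635) D5637) (orK (nat_lit 146) (fin (add (start (orK (nat_lit 147) D5639)) D5664)))) D5672)))) (orK (nat_lit 150) (fin (add (add (start D1098) D5809) (orK (nat_lit 167) (fin (add (start D820) (orK (nat_lit 109) (fin (add (add (add (start (orK (nat_lit 129) (fin (add (start D1095) D1093)))) (orK (nat_lit 188) (fin (add (start D5812) (orK (nat_lit 147) (fin (add (start D1246) (orK (nat_lit 208) (fin (add (start D399) D5814)))))))))) (orK (nat_lit 147) (fin (add (start D1246) (orK (nat_lit 148) (fin (add (start D1667) D5830))))))) (orK (nat_lit 147) (fin (add (start D1246) (orK (nat_lit 89) (fin (add (start D1264)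 (orK (nat_lit 130) (fin (add (start (win (nat_lit 7) (nat_lit 9) (nat_lit 4) (nat_lit 3))) (orK (nat_lit 148) (fin (add (start D5826) (orK (nat_lit 127) (fin (add (start D367) (orK (nat_lit 108) (fin (add (start (win (nat_lit 3) (nat_lit 8) (nat_lit 4) (nat_lit 2))) D5838)))))))))))))))))))))))))))) (orK (nat_lit 167) (fin (add (add (start D5857) (orK (nat_lit 166) (fin (add (add (add (start D1882) (orK (nat_lit 165) (fin (add (start D4638) (orK (nat_lit 144) (fin (add (start D4310) (orK (nat_lit 164) (fin (add (start D4311) (orK (nat_lit 187) (fin (add (start (win (nat_lit 0) (nat_lit 4) (nat_lit 8) (nat_lit 5))) D821))))))))))))) (orK (nat_lit 165) (fin (add (start D4638) (orK (nat_lit 144) (fin (add (start D4310) (orK (nat_lit 164) (fin (add (start D4311) (orK (nat_lit 188) D4280))))))))))) (orK (nat_lit 165) (fin (add (start D4638) D4291))))))) (orK (nat_lit 150) (fin (add (start D1096) (orK (nat_lit 187) (fin (add (start D821) (orK (nat_lit 188) (fin (add (start (orK (nat_lit 208) (fin (add (start D2067) D399)))) (orK (nat_lit 128) (fin (add (add (start (orK (nat_lit 148) D1734))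 (orK (nat_lit 127) (fin (add (start D5882) (orK (nat_lit 148) (fin (add (start D951) D953))))))) (orK (nat_lit 127) (fin (add (start D5882) (orK (nat_lit 147) (fin (add (start D3846) D3821)))))))))))))))))))))) (orK (nat_lit 208) (fin (add (add (add (start D5635) D5637) (orK (nat_lit 207) (fin (add (add (add (start D4160) D3261) (orK (nat_lit 231) (fin (add (start D2859) (orK (nat_lit 211) (fin (add (start D196) (orK (nat_lit 187) (fin (add (start D721) (orK (nat_lit 227) (fin (add (start D723) (orK (nat_lit 167) (fin (add (start D5481) (orK (nat_lit 166) (fin (add (start D5901) D5442))))))))))))))))))) (orK (nat_lit 186) (fin (add (start D2042) (orK (nat_lit 206) (fin (add (start D2043) (orK (nat_lit 225) (fin (add (start D3589) (orK (nat_lit 231) (fin (add (start D2859) (orK (nat_lit 205) (fin (add (start D3588) (orK (nat_lit 166) (fin (add (start (win (nat_lit 1) (nat_lit 5) (nat_lit 7) (nat_lit 0))) (orK (nat_lit 167) (fin (add (start D5901) (orK (nat_lit 165) (fin (add (start D4638) (orK (nat_lit 144) (fin (add (start D4310) (orK (nat_lit 164) (fin (add (start D4311) (orK (nat_lit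 184) (fin (add (start D4276) (win (nat_lit 6) (nat_lit 4) (nat_lit 7) (nat_lit 3))))))))))))))))))))))))))))))))))))))) D5672)))) (orK (nat_lit 167) (fin (add (add (start D5857) D3797) (orK (nat_lit 150) (fin (add (start D1096) (orK (nat_lit 187) (fin (add (start D821) (orK (nat_lit 147) (fin (add (start D1246) (orK (nat_lit 208) (fin (add (start (orK (nat_lit 207) D4139)) (orK (nat_lit 127) (fin (add (start D5947) (orK (nat_lit 108) (fin (add (start D4110) (orK (nat_lit 107) (fin (add (start D4109) D4116))))))))))))))))))))))))) (orK (nat_lit 150) (fin (add (add (start (orK (nat_lit 151) D324)) (orK (nat_lit 188) (fin (add (add (start (orK (nat_lit 129) (fin (add (start D1323) D4790)))) (orK (nat_lit 208) (fin (add (start D399) D5968)))) (orK (nat_lit 147) (fin (add (add (add (start (orK (nat_lit 146) D5639)) (orK (nat_lit 109) (fin (add (start D5812) (orK (nat_lit 148) (fin (add (start (orK (nat_lit 127) (fin (add (start D367) (orK (nat_lit 107) (fin (add (start D1662) (win (nat_lit 6) (nat_lit 7) (nat_lit 5) (nat_lit 3))))))))) D5830))))))) (orK (nat_lit 129) (fin (add (start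 D1323) (orK (nat_lit 167) (fin (add (start D1246) (orK (nat_lit 187) (fin (add (start D821) (orK (nat_lit 127) (fin (add (start D3821) (orK (nat_lit 126) (fin (add (start D1390) D3847)))))))))))))))) (orK (nat_lit 148) (fin (add (start D366) D6001)))))))))) D5809)))) (orK (nat_lit 148) (fin (add (add (add (add (start (orK (nat_lit 208) (fin (add (add (start (orK (nat_lit 188) D3899)) D6038) (orK (nat_lit 147) (fin (add (start D366) (orK (nat_lit 188) (fin (add (start D213) D214)))))))))) (orK (nat_lit 188) (fin (add (add (start D1325) D6050) (orK (nat_lit 128) (fin (add (add (start (orK (nat_lit 109) (fin (add (start D5812) (orK (nat_lit 108) (fin (add (start D1421) D883))))))) (orK (nat_lit 108) (fin (add (start D883) D6020)))) (orK (nat_lit 129) (fin (add (start D1323) (orK (nat_lit 127) (fin (add (start D953) (orK (nat_lit 126) (fin (add (start D1523) (win (nat_lit 0) (nat_lit 6) (nat_lit 6) (nat_lit 5)))))))))))))))))) (orK (nat_lit 147) (fin (add (start D366) (orK (nat_lit 150) (fin (add (add (start (orK (nat_lit 127) (fin (add (start D367) (orK (nat_lit 151) (fin (add (start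 D368) D323))))))) (orK (nat_lit 131) (fin (add (start D5675) (orK (nat_lit 151) (fin (add (start D778) D323))))))) (orK (nat_lit 127) (fin (add (start D367) (orK (nat_lit 130) (fin (add (start D5826) (orK (nat_lit 110) (fin (add (start D345) (orK (nat_lit 111) (fin (add (start D660) (orK (nat_lit 128) (fin (add (start (win (nat_lit 4) (nat_lit 7) (nat_lit 5) (nat_lit 2))) (orK (nat_lit 109) (fin (add (start D1196) D659))))))))))))))))))))))))) (orK (nat_lit 129) (fin (add (start (orK (nat_lit 208) (fin (add (start (win (nat_lit 3) (nat_lit 8) (nat_lit 6) (nat_lit 1))) D6038)))) (orK (nat_lit 109) (fin (add (start D933) (orK (nat_lit 108) (fin (add (start D1218) (orK (nat_lit 110) (fin (add (start D1094) (orK (nat_lit 107) (fin (add (start (orK (nat_lit 130) (fin (add (start D661) D662)))) (orK (nat_lit 87) (fin (add (start D687) (win (nat_lit 7) (nat_lit 7) (nat_lit 4) (nat_lit 2))))))))))))))))))))) (orK (nat_lit 147) (fin (add (start D366) (orK (nat_lit 188) (fin (add (add (start (orK (nat_lit 208) (fin (add (start D399) D214)))) (orK (nat_lit 150) (fin (add (start (orK (nat_lit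 151) (fin (add (start D323) D5677)))) D6001)))) D6050)))))))))) (orK (nat_lit 167) (fin (add (add (start D5857) D3797) (orK (nat_lit 147) (fin (add (start D1246) (orK (nat_lit 187) (fin (add (start D821) (orK (nat_lit 148) (fin (add (add (start (orK (nat_lit 207) (fin (add (start D5436) D4179)))) (orK (nat_lit 227) (fin (add (start (win (nat_lit 3) (nat_lit 7) (nat_lit 7) (nat_lit 1))) (orK (nat_lit 150) (fin (add (start D1096) (orK (nat_lit 127) (fin (add (start D367) (orK (nat_lit 130) (fin (add (start D5826) (orK (nat_lit 110) (fin (add (start D345) (orK (nat_lit 107) (fin (add (start D1662) (orK (nat_lit 109) (fin (add (start D659) (orK (nat_lit 108) (fin (add (start D4109) (orK (nat_lit 106) (fin (add (start D6118) D4113)))))))))))))))))))))))))))) (orK (nat_lit 108) (fin (add (start (win (nat_lit 1) (nat_lit 7) (nat_lit 5) (nat_lit 1))) (orK (nat_lit 150) (fin (add (start D1096) (orK (nat_lit 127) (fin (add (start D367) D5838))))))))))))))))))))))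
noncomputable def D3441 : OP := orK (nat_lit 172) (fin (add (start D62) D1941))
noncomputable def D11283 : AP := fin (add (add (add (add (add (add (add (add (add (add (add (add (add (add (add (add (add (start (orK (nat_lit 171) (fin (add (add (add (add (add (start D1008) (orK (nat_lit 188) (fin (add (add (add (add (start D5181) (orK (nat_lit 168) (fin (add (start D61) (orK (nat_lit 191) (fin (add (start D383) (orK (nat_lit 148) (fin (add (start D992) (orK (nat_lit 208) (fin (add (add (start D3900) (orK (nat_lit 227) (fin (add (start D5182) (orK (nat_lit 228) (fin (add (start D208) D5184))))))) (orK (nat_lit 149) (fin (add (start D213) (orK (nat_lit 209) (fin (add (start D241) (orK (nat_lit 189) (fin (add (start D2490) D2962)))))))))))))))))))))) D5221) D3441) (orK (nat_lit 168) (fin (add (start D61) D3810))))))) D5029) (orK (nat_lit 168) (fin (add (add (add (start D4991) D4995) D3368) (orK (nat_lit 148) (fin (add (start D992) (orK (nat_lit 188) (fin (add (start D61) (orK (nat_lit 151) (fin (add (start D542) (orK (nat_lit 191) (fin (add (start D383) (orK (nat_lit 230) (fin (add (start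 D2978) (orK (nat_lit 209) (fin (add (start (orK (nat_lit 189) (fin (add (start D2490) D3030)))) (orK (nat_lit 208) (fin (add (start D241) D3896))))))))))))))))))))))))) D5262) D5266)))) (orK (nat_lit 209) (fin (add (add (add (add (add (add (add (start (orK (nat_lit 189) D5288)) D5552) (orK (nat_lit 189) (fin (add (add (add (start D5560) (orK (nat_lit 229) (fin (add (start D5157) (orK (nat_lit 250) (fin (add (start D5291) (orK (nat_lit 249) (fin (add (start D5292) (orK (nat_lit 268) (fin (add (start D3041) D5294))))))))))))) D4453) D5287)))) (orK (nat_lit 149) (fin (add (add (add (add (add (start (orK (nat_lit 189) D5279)) (orK (nat_lit 189) (fin (add (start D2962) D5575)))) (orK (nat_lit 189) D5582)) (orK (nat_lit 189) (fin (add (start D2962) D5598)))) (orK (nat_lit 168) D6152)) (orK (nat_lit 189) D6154))))) D6160) (orK (nat_lit 230) D3345)) (orK (nat_lit 208) D6607)) (orK (nat_lit 189) (fin (add (add (add (start D5287) D6609) (orK (nat_lit 208) (fin (add (add (start D3613) (orK (nat_lit 188) (fin (add (start D2970) (orK (nat_lit 149) (fin (add (start D2961) (orK (nat_lit 148) (fin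 (add (start D1629) (orK (nat_lit 147) (fin (add (start D366) (orK (nat_lit 168) (fin (add (start D241) D214)))))))))))))))) D4537)))) (orK (nat_lit 149) D6154)))))))) (orK (nat_lit 171) (fin (add (add (add (add (add (add (start D5011) D6674) (orK (nat_lit 168) (fin (add (start D3368) D3888)))) D6678) (orK (nat_lit 148) (fin (add (add (add (start (orK (nat_lit 172) (fin (add (start D993) (orK (nat_lit 192) (fin (add (start D59) (orK (nat_lit 191) (fin (add (start D1492) (orK (nat_lit 211) (fin (add (add (start D6684) (orK (nat_lit 151) (fin (add (start D4033) (orK (nat_lit 131) (fin (add (start D6685) D6658))))))) (orK (nat_lit 230) (fin (add (start D2989) (orK (nat_lit 231) (fin (add (start D3507) D6682))))))))))))))))))) (orK (nat_lit 168) (fin (add (start D992) (orK (nat_lit 187) (fin (add (start D822) (orK (nat_lit 191) (fin (add (start D383) (orK (nat_lit 211) (fin (add (add (add (start (orK (nat_lit 151) (fin (add (start D4033) (orK (nat_lit 167) (fin (add (start D4985) D821))))))) D6633) (orK (nat_lit 167) (fin (add (start D821) D6715)))) (orK (nat_lit 167) (fin (add (start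 D821) (orK (nat_lit 150) (fin (add (start D1096) D4997))))))))))))))))))) (orK (nat_lit 147) (fin (add (start D2929) (orK (nat_lit 149) (fin (add (start D366) D1314))))))) (orK (nat_lit 149) D5033))))) D6762) (orK (nat_lit 168) (fin (add (add (start D6766) D6768) (orK (nat_lit 172) D996)))))))) (orK (nat_lit 171) (fin (add (add (add (add (add (start D1008) D6802) D5029) D5049) D6826) D6864)))) (orK (nat_lit 171) (fin (add (add (add (add (add (add (start D6891) (orK (nat_lit 168) (fin (add (add (start D4995) D6924) D6932)))) D6674) (orK (nat_lit 149) (fin (add (add (start (orK (nat_lit 172) (fin (add (start D120) D5053)))) (orK (nat_lit 189) D6937)) (orK (nat_lit 172) (fin (add (start D120) D68))))))) (orK (nat_lit 168) D3975)) D5262) (orK (nat_lit 152) (fin (add (add (start (orK (nat_lit 151) (fin (add (start D1506) (orK (nat_lit 153) (fin (add (start D2934) D5012))))))) (orK (nat_lit 168) (fin (add (start D124) D6924)))) (orK (nat_lit 172) (fin (add (start D125) (orK (nat_lit 149) (fin (add (start D120) (orK (nat_lit 189) (fin (add (start D45) (orK (nat_lit 150) (fin (add (start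 D812) (orK (nat_lit 130) (fin (add (start D1991) (win (nat_lit 3) (nat_lit 9) (nat_lit 6) (nat_lit 0)))))))))))))))))))))))) (orK (nat_lit 171) (fin (add (add (add (add (add (add (start (orK (nat_lit 168) (fin (add (add (add (start D4991) (orK (nat_lit 191) (fin (add (start D383) (orK (nat_lit 148) (fin (add (start D992) (orK (nat_lit 128) (fin (add (add (start D6988) (orK (nat_lit 209) (fin (add (add (add (start D6989) D6990) D6992) (orK (nat_lit 208) (fin (add (add (start D6994) D7001) D7009))))))) D7014)))))))))) D6932) D3918)))) D6674) D6864) (orK (nat_lit 168) D3919)) D6678) (orK (nat_lit 149) (fin (add (add (start (orK (nat_lit 189) (fin (add (add (start D5039) (orK (nat_lit 172) (fin (add (start D45) D5053)))) D2968)))) D2933) (orK (nat_lit 148) (fin (add (add (start D5032) (orK (nat_lit 189) (fin (add (add (add (start D7028) D5039) (orK (nat_lit 128) (fin (add (add (start D7030) (orK (nat_lit 150) (fin (add (add (start D1528) (orK (nat_lit 110) D7040)) D7059)))) D7063)))) D7067)))) D2931))))))) D7098)))) (orK (nat_lit 171) D7489)) (orK (nat_lit 209) D9905)) D4667) (orK (nat_lit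 168) D10300)) (orK (nat_lit 168) (fin (add (add (add (add (add (add (add (start D3877) D9937) (orK (nat_lit 147) (fin (add (add (add (start (orK (nat_lit 148) (fin (add (start D3864) D10295)))) (orK (nat_lit 167) (fin (add (start D1246) (orK (nat_lit 150) (fin (add (start D1096) (orK (nat_lit 166) (fin (add (start D5601) D1882)))))))))) (orK (nat_lit 146) D7701)) D3875)))) (orK (nat_lit 147) (fin (add (add (start (orK (nat_lit 171) (fin (add (start D1885) D7253)))) (orK (nat_lit 167) (fin (add (start D1246) (orK (nat_lit 150) (fin (add (start D1096) (orK (nat_lit 149) (fin (add (start D820) (orK (nat_lit 189) (fin (add (start (orK (nat_lit 209) (fin (add (start D1628) D2962)))) (orK (nat_lit 130) (fin (add (start D1991) (orK (nat_lit 129) (fin (add (add (start (orK (nat_lit 188) D10040)) (orK (nat_lit 127) (fin (add (start (orK (nat_lit 128) (fin (add (start D785) D1625)))) (orK (nat_lit 188) (fin (add (start D1232) D3821))))))) D7466))))))))))))))))))) D3875)))) (orK (nat_lit 188) (fin (add (add (add (start D3987) D4028) (orK (nat_lit 208) (fin (add (add (add (start D3925) (orK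 (nat_lit 167) (fin (add (add (start (orK (nat_lit 147) (fin (add (start D1246) D3838)))) (orK (nat_lit 151) (fin (add (start D4985) (orK (nat_lit 228) (fin (add (add (start D6895) D10340) D4046))))))) (orK (nat_lit 146) (fin (add (start D1874) (orK (nat_lit 166) (fin (add (start D1873) (orK (nat_lit 165) (fin (add (start D4265) D4291))))))))))))) (orK (nat_lit 228) (fin (add (start D230) D10340)))) (orK (nat_lit 171) (fin (add (add (start D3985) D7253) (orK (nat_lit 189) (fin (add (start D2955) (orK (nat_lit 149) (fin (add (start D2961) D5039))))))))))))) D4070)))) (orK (nat_lit 187) (fin (add (add (add (start D4075) (orK (nat_lit 171) (fin (add (start D822) D7253)))) D7543) D4087)))) D10124) D4326)))) (orK (nat_lit 171) (fin (add (add (add (add (add (start D1008) D5029) (orK (nat_lit 149) (fin (add (add (start D5034) D5041) (orK (nat_lit 189) (fin (add (add (start (orK (nat_lit 209) (fin (add (start D2962) (orK (nat_lit 148) (fin (add (start D1629) D2931))))))) (orK (nat_lit 209) (fin (add (start D2962) (orK (nat_lit 208) (fin (add (start D1633) (orK (nat_lit 188) (fin (add (start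 D2961) D2970)))))))))) D3014))))))) D5049) D6864) (orK (nat_lit 191) (fin (add (add (start (orK (nat_lit 168) (fin (add (start D383) (orK (nat_lit 151) (fin (add (start D542) D5001))))))) (orK (nat_lit 168) (fin (add (start D383) D6800)))) D7395))))))) (orK (nat_lit 209) D11122)) (orK (nat_lit 171) (fin (add (add (add (add (add (add (add (start D1008) (orK (nat_lit 168) (fin (add (add (start D4991) D5005) D4661)))) D6674) (orK (nat_lit 168) D4664)) D6678) (orK (nat_lit 149) (fin (add (add (add (start D5034) (orK (nat_lit 191) (fin (add (start D2988) D11150)))) D2933) (orK (nat_lit 148) (fin (add (add (start D5032) (orK (nat_lit 189) (fin (add (add (add (start D7028) D5039) (orK (nat_lit 108) (fin (add (add (add (start (orK (nat_lit 128) D7029)) (orK (nat_lit 128) (fin (add (start D1430) D1564)))) (orK (nat_lit 110) (fin (add (add (start (orK (nat_lit 130) (fin (add (start D9982) (win (nat_lit 3) (nat_lit 9) (nat_lit 5) (nat_lit 3)))))) (orK (nat_lit 109) (fin (add (add (add (start (orK (nat_lit 129) (fin (add (start D1094) D1218)))) (orK (nat_lit 90) (fin (add (start (win (nat_lit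 3) (nat_lit 9) (nat_lit 4) (nat_lit 2))) (orK (nat_lit 91) (fin (add (start (win (nat_lit 4) (nat_lit 7) (nat_lit 4) (nat_lit 0))) (orK (nat_lit 92) (fin (add (start (win (nat_lit 4) (nat_lit 8) (nat_lit 4) (nat_lit 3))) (win (nat_lit 5) (nat_lit 8) (nat_lit 4) (nat_lit 3)))))))))))) (orK (nat_lit 88) (fin (add (start (win (nat_lit 7) (nat_lit 8) (nat_lit 4) (nat_lit 2))) (orK (nat_lit 87) (fin (add (start D1381) (orK (nat_lit 86) (fin (add (start D1382) (win (nat_lit 0) (nat_lit 6) (nat_lit 4) (nat_lit 3)))))))))))) D1478)))) (orK (nat_lit 150) D7040))))) (orK (nat_lit 128) D7062))))) D7067)))) D2931))))))) D6762) D11228)))) (orK (nat_lit 171) (fin (add (add (add (add (add (add (start D1008) D11249) D6891) D11250) D5049) (orK (nat_lit 149) (fin (add (add (add (start D5034) (orK (nat_lit 172) (fin (add (start (orK (nat_lit 189) (fin (add (start D45) D5039)))) D58)))) D2942) D5173)))) D6802)))) (orK (nat_lit 171) (fin (add (add (add (add (add (add (add (start D11249) D7195) D11228) D11250) D3421) (orK (nat_lit 149) (fin (add (add (add (start D5034) D7077) (orK (nat_lit 189) (fin (add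 (add (add (start (orK (nat_lit 172) (fin (add (start D120) D45)))) D2968) D5171) (orK (nat_lit 148) (fin (add (start D1314) D7028))))))) D5173)))) D6802) D7098)))) (orK (nat_lit 171) (fin (add (add (add (add (add (add (start D1008) D5011) D5029) D5049) (orK (nat_lit 149) (fin (add (add (add (start D5034) D5041) D2933) (orK (nat_lit 147) (fin (add (add (add (start (orK (nat_lit 148) D5031)) (orK (nat_lit 148) (fin (add (start D5030) D2929)))) (orK (nat_lit 168) (fin (add (add (start (orK (nat_lit 167) (fin (add (start D1246) D5857)))) D3366) (orK (nat_lit 187) (fin (add (start D822) (orK (nat_lit 191) (fin (add (start D383) D11150)))))))))) (orK (nat_lit 148) D2930)))))))) D6864) D5266)))) (orK (nat_lit 171) (fin (add (add (add (add (add (add (start D1008) D5011) D5029) D5049) D6826) D6864) D5266))))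
noncomputable def D2039 : AP := fin (add (start D0) (orK (nat_lit 231) (fin (add (start D12) (orK (nat_lit 151) (fin (add (start D10) (orK (nat_lit 149) (fin (add (start D152) D594))))))))))
noncomputable def D430 : OP := win (nat_lit 6) (nat_lit 10) (nat_lit 8) (nat_lit 0)
noncomputable def D481 : OP := orK (nat_lit 229) (fin (add (start D279) (orK (nat_lit 231) (fin (add (add (start (orK (nat_lit 251) (fin (add (start D430) (orK (nat_lit 271) (fin (add (start (win (nat_lit 7) (nat_lit 10) (nat_lit 9) (nat_lit 3))) D432))))))) (orK (nat_lit 232) (fin (add (add (start (orK (nat_lit 209) (fin (add (start (win (nat_lit 2) (nat_lit 8) (nat_lit 10) (nat_lit 5))) D438)))) (orK (nat_lit 253) (fin (add (start (win (nat_lit 0) (nat_lit 9) (nat_lit 11) (nat_lit 4))) (orK (nat_lit 233) (fin (add (start (win (nat_lit 0) (nat_lit 10) (nat_lit 11) (nat_lit 5))) (orK (nat_lit 234) (fin (add (start (win (nat_lit 2) (nat_lit 10) (nat_lit 10) (nat_lit 4))) (orK (nat_lit 214) (fin (add (start (win (nat_lit 4) (nat_lit 10) (nat_lit 10) (nat_lit 4))) (win (nat_lit 4) (nat_lit 11) (nat_lit 10) (nat_lit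 5))))))))))))))) (orK (nat_lit 208) (fin (add (start (win (nat_lit 2) (nat_lit 8) (nat_lit 10) (nat_lit 4))) (orK (nat_lit 228) (fin (add (start (win (nat_lit 2) (nat_lit 7) (nat_lit 10) (nat_lit 5))) (orK (nat_lit 227) (fin (add (start D456) D460))))))))))))) (orK (nat_lit 251) (fin (add (start D430) (orK (nat_lit 252) (fin (add (start D469) (orK (nat_lit 253) (fin (add (start (win (nat_lit 0) (nat_lit 9) (nat_lit 11) (nat_lit 3))) (win (nat_lit 2) (nat_lit 10) (nat_lit 11) (nat_lit 0))))))))))))))))
noncomputable def D2212 : AP := fin (add (add (start D564) D481) D300)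
noncomputable def D2213 : OP := orK (nat_lit 230) D2212
noncomputable def D3026 : AP := fin (add (start D44) D481)
noncomputable def D3882 : AP := fin (add (add (add (start (orK (nat_lit 230) D3026)) (orK (nat_lit 168) (fin (add (add (add (start D1914) (orK (nat_lit 167) (fin (add (start D3768) D3797)))) (orK (nat_lit 171) (fin (add (add (start D3473) D3810) D3415)))) D3877)))) D2213) (orK (nat_lit 230) (fin (add (start D44) D300))))
noncomputable def D501 : OP := orK (nat_lit 231) (fin (add (start D13) (orK (nat_lit 150) (fin (add (start D12) D155)))))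
noncomputable def D2209 : OP := orK (nat_lit 229) (fin (add (start D280) (orK (nat_lit 230) (fin (add (start D279) D15)))))
noncomputable def D2211 : OP := orK (nat_lit 150) (fin (add (add (start D2209) D513) D495))
noncomputable def D286 : OP := orK (nat_lit 229) (fin (add (start D279) (orK (nat_lit 150) (fin (add (start D280) D282)))))
noncomputable def D306 : OP := orK (nat_lit 230) (fin (add (add (start D286) D300) (orK (nat_lit 229) (fin (add (start D279) (orK (nat_lit 150) (fin (add (start D280) D15))))))))
noncomputable def D730 : AP := fin (add (start D176) D230)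
noncomputable def D758 : OP := orK (nat_lit 191) (fin (add (start D514) (orK (nat_lit 188) (fin (add (start D200) (orK (nat_lit 228) (fin (add (start D396) (orK (nat_lit 248) (fin (add (start (orK (nat_lit 169) (fin (add (start D231) (orK (nat_lit 168) D730))))) D750)))))))))))
noncomputable def D2168 : OP := orK (nat_lit 208) (fin (add (add (add (start D2060) D2061) D2064) (orK (nat_lit 211) (fin (add (start (orK (nat_lit 231) (fin (add (start D196) (win (nat_lit 6) (nat_lit 10) (nat_lit 7) (nat_lit 0)))))) D758)))))
noncomputable def D197 : OP := win (nat_lit 7) (nat_lit 10) (nat_lit 8) (nat_lit 0)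
noncomputable def D2436 : OP := orK (nat_lit 231) (fin (add (start D196) (orK (nat_lit 191) (fin (add (start D514) D197)))))
noncomputable def D199 : OP := orK (nat_lit 231) (fin (add (start D196) D197))
noncomputable def D2559 : OP := orK (nat_lit 231) (fin (add (add (start (orK (nat_lit 150) (fin (add (start D12) D9)))) (orK (nat_lit 251) (fin (add (start (win (nat_lit 6) (nat_lit 10) (nat_lit 8) (nat_lit 3))) (orK (nat_lit 211) (fin (add (start (win (nat_lit 7) (nat_lit 10) (nat_lit 8) (nat_lit 3))) (win (nat_lit 7) (nat_lit 10) (nat_lit 9) (nat_lit 0))))))))) (orK (nat_lit 230) (fin (add (start D13) (orK (nat_lit 229) (fin (add (start D279) (orK (nat_lit 209) (fin (add (start D145) D2551)))))))))))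
noncomputable def D429 : OP := orK (nat_lit 249) (fin (add (start D37) (orK (nat_lit 250) (fin (add (start D38) D86)))))
noncomputable def D483 : OP := orK (nat_lit 230) (fin (add (add (start D425) D429) D481))
noncomputable def D4677 : OP := orK (nat_lit 150) (fin (add (add (start D2209) D513) D509))
noncomputable def D2672 : OP := win (nat_lit 3) (nat_lit 11) (nat_lit 6) (nat_lit 2)
noncomputable def D4822 : OP := orK (nat_lit 132) (fin (add (start D2672) D795))
noncomputable def D1612 : OP := win (nat_lit 5) (nat_lit 9) (nat_lit 7) (nat_lit 5)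
noncomputable def D1611 : OP := win (nat_lit 0) (nat_lit 10) (nat_lit 7) (nat_lit 5)
noncomputable def D1180 : OP := win (nat_lit 0) (nat_lit 9) (nat_lit 7) (nat_lit 4)
noncomputable def D2344 : OP := orK (nat_lit 208) D515
noncomputable def D288 : OP := orK (nat_lit 230) (fin (add (start D153) D286))
noncomputable def D627 : OP := orK (nat_lit 230) (fin (add (start D153) D80))
noncomputable def D2249 : OP := win (nat_lit 7) (nat_lit 9) (nat_lit 5) (nat_lit 4)
noncomputable def D2251 : OP := orK (nat_lit 109) (fin (add (start D659) D2249))
noncomputable def D2343 : OP := win (nat_lit 6) (nat_lit 10) (nat_lit 6) (nat_lit 0)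
noncomputable def D2348 : OP := orK (nat_lit 211) (fin (add (start D21) (orK (nat_lit 191) (fin (add (start D2343) D2344)))))
noncomputable def D2471 : OP := orK (nat_lit 208) (fin (add (add (add (start D2060) D2061) D2064) (orK (nat_lit 211) (fin (add (add (start D2436) (orK (nat_lit 191) (fin (add (start D514) (orK (nat_lit 188) (fin (add (start D200) (orK (nat_lit 228) (fin (add (start D396) (orK (nat_lit 168) (fin (add (start D2439) D2442))))))))))))) (orK (nat_lit 188) (fin (add (start D200) (orK (nat_lit 228) (fin (add (start D396) (orK (nat_lit 231) (fin (add (start D196) (orK (nat_lit 249) (fin (add (add (start (orK (nat_lit 229) (fin (add (start D261) (win (nat_lit 6) (nat_lit 8) (nat_lit 8) (nat_lit 0)))))) (orK (nat_lit 248) (fin (add (start D232) D737)))) (orK (nat_lit 189) (fin (add (start D2456) (orK (nat_lit 248) D736)))))))))))))))))))))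
noncomputable def D2535 : OP := orK (nat_lit 209) (fin (add (add (start D2471) (orK (nat_lit 150) (fin (add (add (add (start (orK (nat_lit 130) (fin (add (start D1) (orK (nat_lit 111) (fin (add (start D2472) (orK (nat_lit 110) (fin (add (start D660) (orK (nat_lit 191) (fin (add (start D2473) D2251))))))))))))) (orK (nat_lit 231) (fin (add (start D12) (orK (nat_lit 230) (fin (add (start D13) (orK (nat_lit 208) (fin (add (start D2482) (orK (nat_lit 189) (fin (add (add (start D2350) (orK (nat_lit 188) (fin (add (add (start (orK (nat_lit 187) (fin (add (start D2483) D2484)))) (orK (nat_lit 191) (fin (add (start D2487) (orK (nat_lit 168) (fin (add (start D2488) (orK (nat_lit 171) (fin (add (start D2489) D2495)))))))))) (orK (nat_lit 187) (fin (add (start D2483) (orK (nat_lit 167) (fin (add (start D2502) (orK (nat_lit 191) (fin (add (start (win (nat_lit 2) (nat_lit 7) (nat_lit 8) (nat_lit 4))) D2487))))))))))))) (orK (nat_lit 191) (fin (add (start D2487) (orK (nat_lit 250) (fin (add (start D180) D2332))))))))))))))))))) D2348) (orK (nat_lit 130) (fin (add (start D1) (orK (nat_lit 111)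 (fin (add (start D2472) (orK (nat_lit 110) (fin (add (start D660) (orK (nat_lit 231) (fin (add (start D12) D2251)))))))))))))))) D265))
noncomputable def D532 : AP := fin (add (add (add (start D27) D509) D513) (orK (nat_lit 209) (fin (add (start D0) (orK (nat_lit 211) (fin (add (start D21) (orK (nat_lit 149) (fin (add (start D152) D525))))))))))
noncomputable def D533 : OP := orK (nat_lit 150) D532
noncomputable def D1929 : OP := win (nat_lit 5) (nat_lit 9) (nat_lit 8) (nat_lit 5)
noncomputable def D1078 : OP := win (nat_lit 3) (nat_lit 8) (nat_lit 5) (nat_lit 0)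
noncomputable def D1431 : OP := win (nat_lit 7) (nat_lit 8) (nat_lit 6) (nat_lit 0)
noncomputable def D3028 : AP := fin (add (add (start D311) D315) D481)
noncomputable def D3027 : OP := orK (nat_lit 190) D3026
noncomputable def D3457 : AP := fin (add (start (win (nat_lit 2) (nat_lit 9) (nat_lit 8) (nat_lit 3))) D2984)
noncomputable def D3356 : OP := win (nat_lit 0) (nat_lit 7) (nat_lit 8) (nat_lit 4)
noncomputable def D3360 : OP := orK (nat_lit 191) (fin (add (start D383) (orK (nat_lit 167) (fin (add (start D3356) D2391)))))
noncomputable def D3431 : OP := orK (nat_lit 189) (fin (add (start D2955) (orK (nat_lit 187) (fin (add (start D1638) (win (nat_lit 4) (nat_lit 7) (nat_lit 8) (nat_lit 3)))))))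
noncomputable def D3351 : OP := orK (nat_lit 189) (fin (add (start D45) (win (nat_lit 5) (nat_lit 9) (nat_lit 8) (nat_lit 4))))
noncomputable def D1866 : AP := fin (add (start D44) D315)
noncomputable def D4668 : AP := fin (add (add (add (add (add (add (add (add (add (start (orK (nat_lit 230) (fin (add (add (add (add (start (orK (nat_lit 190) (fin (add (start D44) D311)))) (orK (nat_lit 190) D1866)) D3027) (orK (nat_lit 190) D3028)) (orK (nat_lit 209) D3345))))) (orK (nat_lit 171) (fin (add (add (add (add (add (start (orK (nat_lit 168) (fin (add (add (add (start D3360) (orK (nat_lit 191) (fin (add (start D383) (orK (nat_lit 167) (fin (add (start D3356) D824))))))) D3368) (orK (nat_lit 188) (fin (add (start D61) (orK (nat_lit 148) (fin (add (start D992) (orK (nat_lit 191) (fin (add (start D383) (orK (nat_lit 151) (fin (add (start D542) (orK (nat_lit 131) (fin (add (start (win (nat_lit 1) (nat_lit 10) (nat_lit 6) (nat_lit 4))) D3378))))))))))))))))))) (orK (nat_lit 172) (fin (add (add (add (start D58) (orK (nat_lit 193) (fin (add (start D49) (orK (nat_lit 173) (fin (add (start D50)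 D3351))))))) (orK (nat_lit 153) (fin (add (start D51) (orK (nat_lit 173) (fin (add (start D52) D3351))))))) (orK (nat_lit 152) (fin (add (start D125) (orK (nat_lit 192) (fin (add (start D59) (orK (nat_lit 189) (fin (add (start D45) (orK (nat_lit 149) (fin (add (start D120) (orK (nat_lit 129) (fin (add (start (win (nat_lit 6) (nat_lit 9) (nat_lit 6) (nat_lit 4))) D3010))))))))))))))))))) D3421) (orK (nat_lit 188) (fin (add (add (start (orK (nat_lit 172) (fin (add (start D62) D131)))) D3431) (orK (nat_lit 168) (fin (add (start D61) (orK (nat_lit 191) (fin (add (start D383) (orK (nat_lit 190) (fin (add (start D176) D1899))))))))))))) (orK (nat_lit 188) (fin (add (add (start D3441) D3431) (orK (nat_lit 168) (fin (add (start D61) D3360))))))) (orK (nat_lit 192) (fin (add (add (add (start (orK (nat_lit 172) (fin (add (start D59) (orK (nat_lit 148) (fin (add (start D993) (orK (nat_lit 168) D3451)))))))) (orK (nat_lit 193) (fin (add (start D2983) (orK (nat_lit 191) D3457))))) (orK (nat_lit 191) (fin (add (start D1492) (orK (nat_lit 193) D3457))))) (orK (nat_lit 168) (fin (add (start D60)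 D3415)))))))))) (orK (nat_lit 190) (fin (add (add (start D307) D2213) (orK (nat_lit 149) (fin (add (add (start D290) (orK (nat_lit 171) (fin (add (add (add (start (orK (nat_lit 172) (fin (add (start D120) D48)))) D2933) D70) (orK (nat_lit 168) (fin (add (start D3473) (orK (nat_lit 188) (fin (add (start D61) (orK (nat_lit 148) (fin (add (start D992) (orK (nat_lit 208) (fin (add (start D399) (orK (nat_lit 209) (fin (add (start D241) (orK (nat_lit 207) (fin (add (start D3474) (orK (nat_lit 189) (fin (add (start D2804) D2490))))))))))))))))))))))))) (orK (nat_lit 171) (fin (add (add (add (start D2933) (orK (nat_lit 129) (fin (add (start D273) (orK (nat_lit 151) (fin (add (start D34) (orK (nat_lit 152) (fin (add (start D1506) (orK (nat_lit 153) (fin (add (start D2934) D964))))))))))))) D2942) (orK (nat_lit 129) (fin (add (start D273) (orK (nat_lit 151) (fin (add (start D34) (orK (nat_lit 168) (fin (add (start D542) (orK (nat_lit 148) (fin (add (start D992) (orK (nat_lit 188) (fin (add (start D932) D61))))))))))))))))))))))))) (orK (nat_lit 230) (fin (add (add (add (start (orK (nat_lit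 190) (fin (add (start D44) (orK (nat_lit 171) (fin (add (start D83) (orK (nat_lit 250) (fin (add (start D39) D84)))))))))) (orK (nat_lit 190) D2212)) (orK (nat_lit 209) D3620)) D3027)))) (orK (nat_lit 190) (fin (add (add (start D307) D2213) (orK (nat_lit 191) (fin (add (add (add (start D3652) D3653) D3654) (orK (nat_lit 168) (fin (add (start D176) (orK (nat_lit 171) (fin (add (start D1899) (orK (nat_lit 188) (fin (add (start D61) (orK (nat_lit 189) (fin (add (start D2489) (orK (nat_lit 208) (fin (add (start D3644) (orK (nat_lit 149) (fin (add (start D2961) D399))))))))))))))))))))))))) (orK (nat_lit 190) (fin (add (add (start (orK (nat_lit 230) D3028)) (orK (nat_lit 168) (fin (add (add (add (start D1891) (orK (nat_lit 171) (fin (add (add (start D3473) D3677) D3419)))) D1912) D1914)))) D2213)))) (orK (nat_lit 190) (fin (add (add (start D307) D2213) (orK (nat_lit 168) (fin (add (add (start (orK (nat_lit 171) (fin (add (add (add (start D3415) (orK (nat_lit 152) (fin (add (start D124) (orK (nat_lit 172) (fin (add (start D125) D48))))))) (orK (nat_lit 148) (fin (add (start D992) (orK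 (nat_lit 172) (fin (add (start D993) D48))))))) (orK (nat_lit 151) (fin (add (start D542) (orK (nat_lit 111) (fin (add (start (win (nat_lit 1) (nat_lit 10) (nat_lit 5) (nat_lit 1))) (orK (nat_lit 148) (fin (add (start D992) (orK (nat_lit 189) (fin (add (add (add (start (orK (nat_lit 149) (fin (add (start D121) (orK (nat_lit 209) (fin (add (start D3699) (orK (nat_lit 208) (fin (add (start D1633) (orK (nat_lit 207) (fin (add (start D2804) (orK (nat_lit 227) (fin (add (start (win (nat_lit 1) (nat_lit 7) (nat_lit 7) (nat_lit 2))) D722)))))))))))))))) D3714) (orK (nat_lit 128) (fin (add (start D1809) (orK (nat_lit 149) (fin (add (start D121) D1431))))))) (orK (nat_lit 129) (fin (add (start (win (nat_lit 6) (nat_lit 9) (nat_lit 6) (nat_lit 1))) (orK (nat_lit 128) (fin (add (start D1809) (orK (nat_lit 109) (fin (add (start D1078) (orK (nat_lit 110) (fin (add (start D670) (orK (nat_lit 127) (fin (add (start D3720) (win (nat_lit 4) (nat_lit 7) (nat_lit 5) (nat_lit 3))))))))))))))))))))))))))))))))) D1912) D1914))))))) (orK (nat_lit 190) (fin (add (add (add (start D307) (orK (nat_lit 171)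 (fin (add (add (start (orK (nat_lit 192) (fin (add (add (start (orK (nat_lit 191) (fin (add (start D1492) D1892)))) (orK (nat_lit 172) (fin (add (start D59) (orK (nat_lit 153) (fin (add (start D51) (orK (nat_lit 173) (fin (add (start D52) D1929)))))))))) (orK (nat_lit 168) (fin (add (start D60) (orK (nat_lit 147) (fin (add (start D1885) (orK (nat_lit 167) (fin (add (start D1246) D1884))))))))))))) D3763) D36)))) D3767) (orK (nat_lit 168) (fin (add (add (add (start (orK (nat_lit 167) (fin (add (start D3768) D1878)))) (orK (nat_lit 191) (fin (add (add (start D1894) D1896) (orK (nat_lit 171) (fin (add (start D1899) (orK (nat_lit 148) (fin (add (start D992) (orK (nat_lit 172) (fin (add (start D993) (orK (nat_lit 173) (fin (add (start D1929) (win (nat_lit 5) (nat_lit 10) (nat_lit 8) (nat_lit 0)))))))))))))))))) D1914) (orK (nat_lit 167) (fin (add (add (start D1884) (orK (nat_lit 147) (fin (add (start D1246) (orK (nat_lit 171) (fin (add (start D1885) (orK (nat_lit 152) (fin (add (start D124) (orK (nat_lit 172) (fin (add (start D125) (orK (nat_lit 193) (fin (add (start D49) (orK (nat_lit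 173) (fin (add (start D50) D1929))))))))))))))))))) D3797)))))))))) (orK (nat_lit 190) D3882)) D4667)
noncomputable def D2173 : OP := win (nat_lit 3) (nat_lit 10) (nat_lit 8) (nat_lit 0)
noncomputable def D2175 : OP := orK (nat_lit 171) (fin (add (start D83) D2173))
noncomputable def D2200 : OP := orK (nat_lit 208) D2199
noncomputable def D2648 : OP := orK (nat_lit 150) (fin (add (start D2343) D21))
noncomputable def D621 : OP := orK (nat_lit 229) (fin (add (add (add (start (orK (nat_lit 230) (fin (add (start D279) D568)))) (orK (nat_lit 249) (fin (add (start D146) (orK (nat_lit 209) D266))))) (orK (nat_lit 209) D268)) (orK (nat_lit 150) (fin (add (start D280) D19)))))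
noncomputable def D2393 : OP := orK (nat_lit 167) (fin (add (start (win (nat_lit 0) (nat_lit 6) (nat_lit 8) (nat_lit 0))) D2391))
noncomputable def D2371 : OP := orK (nat_lit 230) (fin (add (start (orK (nat_lit 250) (fin (add (start D39) D2331)))) D481))
noncomputable def D2179 : OP := orK (nat_lit 270) (fin (add (start (win (nat_lit 3) (nat_lit 10) (nat_lit 9) (nat_lit 4))) D2177))
noncomputable def D570 : OP := orK (nat_lit 230) (fin (add (add (start D564) D568) D80))
noncomputable def D29 : OP := orK (nat_lit 150) (fin (add (add (start D9) D19) D27))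
noncomputable def D2924 : AP := fin (add (add (add (add (add (add (add (add (add (add (add (start D29) D570) (orK (nat_lit 209) (fin (add (add (add (start (orK (nat_lit 150) (fin (add (add (add (start (orK (nat_lit 130) (fin (add (start D1) (orK (nat_lit 109) (fin (add (start D2249) (orK (nat_lit 110) (fin (add (start D659) (orK (nat_lit 171) (fin (add (start D652) (orK (nat_lit 151) (fin (add (start D30) D541)))))))))))))))) (orK (nat_lit 231) (fin (add (start D12) (orK (nat_lit 230) (fin (add (start D13) (orK (nat_lit 171) (fin (add (start D83) (orK (nat_lit 250) (fin (add (start D39) (orK (nat_lit 189) D2333)))))))))))))) D2348) (orK (nat_lit 231) (fin (add (start D12) (orK (nat_lit 230) (fin (add (start D13) (orK (nat_lit 189) (fin (add (start D1942) (orK (nat_lit 207) (fin (add (start D2349) D2350)))))))))))))))) (orK (nat_lit 191) (fin (add (add (start (orK (nat_lit 229) (fin (add (add (start D263) D267) (orK (nat_lit 230) (fin (add (add (start D2175) (orK (nat_lit 251) (fin (add (start D73) (orK (nat_lit 250) (fin (add (start D74) D2179))))))) (orK (nat_lit 171) (fin (add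 (start D83) (orK (nat_lit 231) (fin (add (start D13) (orK (nat_lit 232) (fin (add (start D438) (orK (nat_lit 252) (fin (add (start D2184) (win (nat_lit 6) (nat_lit 11) (nat_lit 8) (nat_lit 2))))))))))))))))))))) D195) D2200)))) D265) (orK (nat_lit 150) D26))))) (orK (nat_lit 171) (fin (add (add (start (orK (nat_lit 189) (fin (add (add (add (start (orK (nat_lit 173) (fin (add (start (win (nat_lit 5) (nat_lit 9) (nat_lit 8) (nat_lit 1))) D2371)))) D2377) (orK (nat_lit 187) (fin (add (start D2378) D2371)))) D2384)))) (orK (nat_lit 230) (fin (add (start D83) D80)))) (orK (nat_lit 172) (fin (add (add (add (start D100) D119) (orK (nat_lit 189) (fin (add (add (start D98) (orK (nat_lit 169) (fin (add (add (start (orK (nat_lit 192) (fin (add (start D59) (orK (nat_lit 168) (fin (add (start D60) D2393))))))) (orK (nat_lit 152) (fin (add (start D125) (orK (nat_lit 168) (fin (add (start D124) D2393))))))) (orK (nat_lit 192) (fin (add (start D59) (orK (nat_lit 152) (fin (add (start D125) (orK (nat_lit 132) (fin (add (add (start (orK (nat_lit 191) D1494)) (orK (nat_lit 191) (fin (add (start D1493)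 (orK (nat_lit 131) (fin (add (start (win (nat_lit 1) (nat_lit 10) (nat_lit 6) (nat_lit 1))) D2404))))))) (orK (nat_lit 112) (fin (add (start D2412) D2416)))))))))))))))) D136)))) D140))))))) D2535) D2559) D621) D2625) D2644) (orK (nat_lit 209) (fin (add (add (add (start D269) (orK (nat_lit 150) (fin (add (start D0) D362)))) D2471) (orK (nat_lit 191) (fin (add (add (add (start (orK (nat_lit 211) (fin (add (add (start D2648) (orK (nat_lit 192) (fin (add (start D175) (orK (nat_lit 231) (fin (add (start D197) (orK (nat_lit 172) (fin (add (start (orK (nat_lit 152) (fin (add (start D2649) (win (nat_lit 3) (nat_lit 11) (nat_lit 7) (nat_lit 3)))))) (orK (nat_lit 189) (fin (add (start D2653) (orK (nat_lit 188) (fin (add (start (win (nat_lit 0) (nat_lit 7) (nat_lit 9) (nat_lit 0))) (orK (nat_lit 168) (fin (add (start D2488) (win (nat_lit 2) (nat_lit 8) (nat_lit 8) (nat_lit 4))))))))))))))))))))) (orK (nat_lit 150) (fin (add (start D2343) (orK (nat_lit 192) (fin (add (start D175) (orK (nat_lit 151) (fin (add (start D10) (orK (nat_lit 169) (fin (add (start (orK (nat_lit 152) (fin (add (start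 D363) (orK (nat_lit 132) (fin (add (start (win (nat_lit 1) (nat_lit 11) (nat_lit 6) (nat_lit 2))) D2672))))))) D187)))))))))))))))) D195) (orK (nat_lit 211) (fin (add (add (start D2648) (orK (nat_lit 208) (fin (add (start D168) D199)))) (orK (nat_lit 208) (fin (add (start D168) (orK (nat_lit 188) (fin (add (start D200) (orK (nat_lit 228) (fin (add (start D396) (orK (nat_lit 248) (fin (add (start D2692) (orK (nat_lit 169) (fin (add (start D231) (orK (nat_lit 168) (fin (add (start D176) (orK (nat_lit 150) (fin (add (start D2343) (orK (nat_lit 151) (fin (add (start D10) D2695)))))))))))))))))))))))))))) D2200))))))) D2836) (orK (nat_lit 209) (fin (add (add (add (start (orK (nat_lit 191) (fin (add (add (start (orK (nat_lit 150) (fin (add (add (start D2274) (orK (nat_lit 151) (fin (add (start D10) (orK (nat_lit 171) (fin (add (start D30) (orK (nat_lit 211) (fin (add (start D21) D2839)))))))))) D7)))) D195) D2200)))) (orK (nat_lit 229) (fin (add (add (start D263) D267) (orK (nat_lit 208) (fin (add (add (add (start (orK (nat_lit 207) (fin (add (start D2062) (orK (nat_lit 206) (fin (add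 (start D2850) D2044))))))) D2880) (orK (nat_lit 191) (fin (add (start D168) (orK (nat_lit 192) (fin (add (start D169) D170))))))) (orK (nat_lit 191) (fin (add (add (start D193) (orK (nat_lit 230) (fin (add (start D2175) (orK (nat_lit 231) (fin (add (start D2549) (orK (nat_lit 228) (fin (add (add (start D2733) (orK (nat_lit 188) (fin (add (add (start D2073) (orK (nat_lit 168) (fin (add (start D201) D2439)))) (orK (nat_lit 167) (fin (add (start (orK (nat_lit 187) D2894)) (orK (nat_lit 168) (fin (add (start D201) D2091)))))))))) (orK (nat_lit 227) (fin (add (start D2136) (orK (nat_lit 247) (fin (add (start D457) (orK (nat_lit 188) (fin (add (start D2755) (orK (nat_lit 248) (fin (add (start D2089) (orK (nat_lit 268) (fin (add (start D738) D2737))))))))))))))))))))))))) D2198)))))))))) D265) D269))))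
noncomputable def D189 : OP := orK (nat_lit 169) (fin (add (add (start D179) (orK (nat_lit 230) (fin (add (start D44) D182)))) D187))
noncomputable def D2234 : OP := orK (nat_lit 149) (fin (add (start D152) (orK (nat_lit 230) (fin (add (start D153) D300)))))
noncomputable def D629 : OP := orK (nat_lit 150) (fin (add (start D152) D487))
noncomputable def D1982 : OP := orK (nat_lit 169) (fin (add (add (start D1937) (orK (nat_lit 148) (fin (add (start D993) (orK (nat_lit 168) (fin (add (start D992) (orK (nat_lit 191) (fin (add (start D176) D383)))))))))) (orK (nat_lit 148) (fin (add (start D993) (orK (nat_lit 173) (fin (add (add (start D54) (orK (nat_lit 174) (fin (add (start D103) (orK (nat_lit 195) (fin (add (start D1968) (orK (nat_lit 175) (fin (add (start D1969) D1970)))))))))) D117))))))))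
noncomputable def D1945 : OP := win (nat_lit 0) (nat_lit 8) (nat_lit 7) (nat_lit 0)
noncomputable def D833 : OP := win (nat_lit 1) (nat_lit 11) (nat_lit 5) (nat_lit 5)
noncomputable def D1951 : OP := orK (nat_lit 132) (fin (add (start (orK (nat_lit 149) (fin (add (start D1945) D795)))) (orK (nat_lit 112) (fin (add (start D834) D833)))))
noncomputable def D1935 : OP := orK (nat_lit 173) (fin (add (start D1929) (orK (nat_lit 150) D1932)))
noncomputable def D767 : AP := fin (add (add (add (start D9) D27) D362) (orK (nat_lit 131) (fin (add (start D3) (orK (nat_lit 209) (fin (add (start D0) (orK (nat_lit 211) (fin (add (start D21) (orK (nat_lit 208) (fin (add (add (start D516) D729) D758)))))))))))))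
noncomputable def D1242 : AP := fin (add (start D1093) (orK (nat_lit 169) (fin (add (start D1094) (orK (nat_lit 188) (fin (add (start D1231) (orK (nat_lit 189) (fin (add (start D1232) D1235))))))))))
noncomputable def D904 : OP := win (nat_lit 2) (nat_lit 6) (nat_lit 6) (nat_lit 4)
noncomputable def D903 : OP := win (nat_lit 2) (nat_lit 5) (nat_lit 6) (nat_lit 5)
noncomputable def D902 : OP := win (nat_lit 0) (nat_lit 6) (nat_lit 7) (nat_lit 4)
noncomputable def D908 : OP := orK (nat_lit 146) (fin (add (start D902) (orK (nat_lit 126) (fin (add (start D903) D904)))))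
noncomputable def D1835 : OP := orK (nat_lit 146) (fin (add (start D902) (orK (nat_lit 125) (fin (add (start (win (nat_lit 2) (nat_lit 5) (nat_lit 6) (nat_lit 4))) (orK (nat_lit 145) (fin (add (start (win (nat_lit 2) (nat_lit 4) (nat_lit 6) (nat_lit 5))) (win (nat_lit 4) (nat_lit 5) (nat_lit 6) (nat_lit 4))))))))))
noncomputable def D794 : OP := win (nat_lit 4) (nat_lit 8) (nat_lit 6) (nat_lit 4)
noncomputable def D963 : OP := win (nat_lit 4) (nat_lit 10) (nat_lit 6) (nat_lit 5)
noncomputable def D962 : OP := win (nat_lit 4) (nat_lit 9) (nat_lit 6) (nat_lit 4)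
noncomputable def D1794 : OP := orK (nat_lit 169) (fin (add (start (win (nat_lit 5) (nat_lit 8) (nat_lit 7) (nat_lit 5))) D363))
noncomputable def D790 : OP := orK (nat_lit 128) (fin (add (start D784) D788))
noncomputable def D1113 : OP := win (nat_lit 0) (nat_lit 8) (nat_lit 5) (nat_lit 0)
noncomputable def D1100 : OP := orK (nat_lit 168) (fin (add (start D1095) D1098))
noncomputable def D1102 : OP := orK (nat_lit 169) (fin (add (start D1094) D1100))
noncomputable def D1103 : AP := fin (add (start D1093) D1102)
noncomputable def D1607 : OP := win (nat_lit 5) (nat_lit 6) (nat_lit 7) (nat_lit 3)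
noncomputable def D921 : OP := win (nat_lit 5) (nat_lit 7) (nat_lit 7) (nat_lit 0)
noncomputable def D1657 : OP := orK (nat_lit 166) (fin (add (start D1607) (orK (nat_lit 168) (fin (add (start D922) D921)))))
noncomputable def D799 : OP := orK (nat_lit 152) (fin (add (start D793) (orK (nat_lit 132) (fin (add (start D794) D795)))))
noncomputable def D801 : OP := orK (nat_lit 128) (fin (add (start D386) D799))
noncomputable def D912 : OP := orK (nat_lit 166) (fin (add (start (win (nat_lit 5) (nat_lit 5) (nat_lit 7) (nat_lit 5))) (win (nat_lit 5) (nat_lit 6) (nat_lit 7) (nat_lit 4))))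
noncomputable def D1485 : OP := orK (nat_lit 126) (fin (add (start D904) (orK (nat_lit 146) (fin (add (start D903) D912)))))
noncomputable def D1487 : OP := orK (nat_lit 147) (fin (add (start D1481) D1485))
noncomputable def D878 : OP := orK (nat_lit 172) (fin (add (start (win (nat_lit 0) (nat_lit 8) (nat_lit 7) (nat_lit 3))) D812))
noncomputable def D879 : AP := fin (add (start D379) D878)
noncomputable def D980 : OP := orK (nat_lit 171) D879
noncomputable def D1620 : OP := orK (nat_lit 132) (fin (add (start D794) (orK (nat_lit 152) (fin (add (start D795) (orK (nat_lit 173) (fin (add (start D1180) (orK (nat_lit 153) (fin (add (start D1611) D1612)))))))))))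
noncomputable def D914 : OP := orK (nat_lit 146) (fin (add (start D902) D912))
noncomputable def D874 : OP := orK (nat_lit 172) (fin (add (start (win (nat_lit 2) (nat_lit 8) (nat_lit 7) (nat_lit 3))) D812))
noncomputable def D1520 : OP := orK (nat_lit 147) (fin (add (start D1481) D908))
noncomputable def D875 : AP := fin (add (start D379) D874)
noncomputable def D979 : OP := orK (nat_lit 171) D875
noncomputable def D938 : OP := orK (nat_lit 129) (fin (add (start D932) (orK (nat_lit 109) (fin (add (start D933) (win (nat_lit 3) (nat_lit 8) (nat_lit 5) (nat_lit 3)))))))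
noncomputable def D939 : OP := win (nat_lit 5) (nat_lit 7) (nat_lit 8) (nat_lit 2)
noncomputable def D931 : OP := orK (nat_lit 208) (fin (add (start D213) (orK (nat_lit 169) (fin (add (start D399) D61)))))
noncomputable def D961 : OP := orK (nat_lit 188) (fin (add (add (start D931) (orK (nat_lit 187) (fin (add (start D939) (orK (nat_lit 128) (fin (add (start D951) (orK (nat_lit 127) (fin (add (start D952) D953)))))))))) D938))
noncomputable def D950 : OP := orK (nat_lit 188) (fin (add (add (start D931) D938) (orK (nat_lit 187) (fin (add (start D939) (orK (nat_lit 207) (fin (add (start D940) (orK (nat_lit 227) (fin (add (start D941) D942)))))))))))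
noncomputable def D925 : OP := orK (nat_lit 166) (fin (add (start D922) (win (nat_lit 4) (nat_lit 6) (nat_lit 7) (nat_lit 3))))
noncomputable def D927 : OP := orK (nat_lit 167) (fin (add (start D921) D925))
noncomputable def D920 : OP := orK (nat_lit 147) (fin (add (add (start D908) D914) (orK (nat_lit 127) (fin (add (start D367) (orK (nat_lit 151) (fin (add (start D368) D580))))))))
noncomputable def D885 : AP := fin (add (start D883) D884)
noncomputable def D886 : OP := orK (nat_lit 108) D885
noncomputable def D894 : OP := orK (nat_lit 168) (fin (add (start D585) (orK (nat_lit 169) (fin (add (start D542) (orK (nat_lit 191) (fin (add (start D383) (orK (nat_lit 128) (fin (add (start D386) D886)))))))))))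
noncomputable def D1327 : OP := orK (nat_lit 188) (fin (add (start D61) D1325))
noncomputable def D1606 : OP := orK (nat_lit 171) (fin (add (add (start D874) D878) (orK (nat_lit 151) (fin (add (start D1064) (orK (nat_lit 168) (fin (add (start D585) (orK (nat_lit 169) (fin (add (start D542) (orK (nat_lit 191) (fin (add (start D383) D1327))))))))))))))
noncomputable def D1522 : OP := orK (nat_lit 147) (fin (add (start D1481) D914))
noncomputable def D1435 : OP := orK (nat_lit 169) (fin (add (start D883) (orK (nat_lit 189) (fin (add (start D1430) D1431)))))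
noncomputable def D1391 : OP := win (nat_lit 5) (nat_lit 6) (nat_lit 5) (nat_lit 3)
noncomputable def D1445 : OP := win (nat_lit 3) (nat_lit 8) (nat_lit 4) (nat_lit 0)
noncomputable def D880 : OP := orK (nat_lit 148) D879
noncomputable def D876 : OP := orK (nat_lit 148) D875
noncomputable def D845 : OP := orK (nat_lit 191) (fin (add (start D839) (orK (nat_lit 211) (fin (add (start (win (nat_lit 1) (nat_lit 11) (nat_lit 6) (nat_lit 3))) D841)))))
noncomputable def D838 : OP := orK (nat_lit 112) (fin (add (start D833) (orK (nat_lit 151) (fin (add (start D834) D795)))))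
noncomputable def D868 : OP := orK (nat_lit 132) (fin (add (add (start D838) (orK (nat_lit 133) (fin (add (start D846) (orK (nat_lit 113) (fin (add (start (win (nat_lit 3) (nat_lit 12) (nat_lit 5) (nat_lit 0))) (orK (nat_lit 93) (fin (add (start (win (nat_lit 1) (nat_lit 12) (nat_lit 3) (nat_lit 0))) (win (nat_lit 1) (nat_lit 12) (nat_lit 4) (nat_lit 3)))))))))))) D845))
noncomputable def D857 : OP := orK (nat_lit 132) (fin (add (add (start D838) D845) (orK (nat_lit 133) (fin (add (start D846) (orK (nat_lit 192) (fin (add (start D847) (orK (nat_lit 193) (fin (add (start (win (nat_lit 0) (nat_lit 9) (nat_lit 8) (nat_lit 0))) (win (nat_lit 6) (nat_lit 12) (nat_lit 6) (nat_lit 5)))))))))))))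
noncomputable def D819 : OP := orK (nat_lit 153) (fin (add (start (win (nat_lit 4) (nat_lit 9) (nat_lit 7) (nat_lit 0))) (orK (nat_lit 154) (fin (add (start (win (nat_lit 5) (nat_lit 10) (nat_lit 7) (nat_lit 3))) (win (nat_lit 5) (nat_lit 11) (nat_lit 7) (nat_lit 0)))))))
noncomputable def D1295 : OP := orK (nat_lit 91) (fin (add (start D1105) (orK (nat_lit 107) (fin (add (start D1129) D694)))))
noncomputable def D1429 : OP := orK (nat_lit 168) (fin (add (start D1421) (orK (nat_lit 167) (fin (add (start D1425) D925)))))
noncomputable def D677 : OP := win (nat_lit 0) (nat_lit 8) (nat_lit 5) (nat_lit 4)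
noncomputable def D1142 : OP := orK (nat_lit 92) (fin (add (start (win (nat_lit 4) (nat_lit 8) (nat_lit 4) (nat_lit 4))) D1140))
noncomputable def D678 : OP := win (nat_lit 0) (nat_lit 9) (nat_lit 5) (nat_lit 5)
noncomputable def D1284 : OP := win (nat_lit 1) (nat_lit 8) (nat_lit 2) (nat_lit 0)
noncomputable def D1266 : OP := win (nat_lit 0) (nat_lit 6) (nat_lit 4) (nat_lit 0)
noncomputable def D680 : OP := orK (nat_lit 132) (fin (add (start D677) D678))
noncomputable def D1212 : AP := fin (add (start D680) D1142)
noncomputable def D696 : OP := orK (nat_lit 107) (fin (add (start D690) D694))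
noncomputable def D1387 : OP := orK (nat_lit 87) (fin (add (start D1381) (orK (nat_lit 86) (fin (add (start D1382) (win (nat_lit 2) (nat_lit 6) (nat_lit 4) (nat_lit 3)))))))
noncomputable def D1362 : OP := orK (nat_lit 68) (fin (add (start (win (nat_lit 6) (nat_lit 8) (nat_lit 2) (nat_lit 0))) (win (nat_lit 6) (nat_lit 8) (nat_lit 3) (nat_lit 3))))
noncomputable def D1032 : OP := win (nat_lit 2) (nat_lit 7) (nat_lit 4) (nat_lit 5)
noncomputable def D1376 : OP := win (nat_lit 0) (nat_lit 6) (nat_lit 6) (nat_lit 1)
noncomputable def D1358 : OP := win (nat_lit 7) (nat_lit 8) (nat_lit 4) (nat_lit 0)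
noncomputable def D1219 : OP := win (nat_lit 7) (nat_lit 8) (nat_lit 5) (nat_lit 0)
noncomputable def D1373 : OP := orK (nat_lit 169) (fin (add (start D1219) (orK (nat_lit 168) (fin (add (start D1095) (orK (nat_lit 167) (fin (add (start D820) (orK (nat_lit 187) (fin (add (start (win (nat_lit 1) (nat_lit 7) (nat_lit 5) (nat_lit 2))) D821)))))))))))
noncomputable def D1222 : OP := orK (nat_lit 127) (fin (add (start D785) D1220))
noncomputable def D826 : OP := orK (nat_lit 167) (fin (add (start D820) D824))
noncomputable def D1322 : OP := orK (nat_lit 147) (fin (add (start D1247) (orK (nat_lit 167) (fin (add (start D1246) D820)))))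
noncomputable def D830 : OP := orK (nat_lit 192) (fin (add (start D59) (orK (nat_lit 168) (fin (add (start D60) D826)))))
noncomputable def D1318 : OP := orK (nat_lit 172) (fin (add (start D812) D830))
noncomputable def D1316 : OP := orK (nat_lit 148) (fin (add (start D379) D1314))
noncomputable def D1226 : OP := orK (nat_lit 108) (fin (add (start D1218) (orK (nat_lit 128) (fin (add (start D1219) D1222)))))
noncomputable def D1161 : OP := orK (nat_lit 113) (fin (add (start D1155) D1159))
noncomputable def D1169 : OP := win (nat_lit 0) (nat_lit 10) (nat_lit 5) (nat_lit 5)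
noncomputable def D1168 : OP := win (nat_lit 0) (nat_lit 9) (nat_lit 5) (nat_lit 4)
noncomputable def D1243 : OP := orK (nat_lit 129) D1242
noncomputable def D1490 : AP := fin (add (add (add (add (add (start D1243) (orK (nat_lit 129) (fin (add (start D1093) (orK (nat_lit 169) (fin (add (start D1094) (orK (nat_lit 168) (fin (add (start D1095) (orK (nat_lit 167) (fin (add (start D820) (orK (nat_lit 147) (fin (add (start D1246) (orK (nat_lit 171) (fin (add (start D1247) (orK (nat_lit 192) (fin (add (start D60) (orK (nat_lit 172) (fin (add (start D59) D812))))))))))))))))))))))))) (orK (nat_lit 89) (fin (add (start D1264) (orK (nat_lit 111) (fin (add (add (add (start (orK (nat_lit 88) (fin (add (start D1265) (orK (nat_lit 87) (fin (add (start D1266) (win (nat_lit 0) (nat_lit 7) (nat_lit 4) (nat_lit 3))))))))) (orK (nat_lit 112) (fin (add (add (start (orK (nat_lit 113) (fin (add (start D1155) (orK (nat_lit 133) (fin (add (start D1168) D1169))))))) (orK (nat_lit 108) D1212)) D1161)))) (orK (nat_lit 88) (fin (add (start D1265) (orK (nat_lit 87) (fin (add (start D1266) (win (nat_lit 2) (nat_lit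 7) (nat_lit 4) (nat_lit 3))))))))) (orK (nat_lit 108) (fin (add (add (start (orK (nat_lit 88) (fin (add (start D1032) (orK (nat_lit 128) (fin (add (start D681) (orK (nat_lit 69) (fin (add (start D1284) (win (nat_lit 3) (nat_lit 8) (nat_lit 3) (nat_lit 0)))))))))))) D1295) (orK (nat_lit 87) (fin (add (start D688) (orK (nat_lit 107) (fin (add (start D687) (orK (nat_lit 90) (fin (add (start (win (nat_lit 4) (nat_lit 6) (nat_lit 4) (nat_lit 0))) D1297))))))))))))))))))) (orK (nat_lit 169) (fin (add (add (start (orK (nat_lit 171) (fin (add (add (start D1316) D1318) (orK (nat_lit 168) (fin (add (add (start D1322) D826) (orK (nat_lit 148) (fin (add (start D379) D1327)))))))))) (orK (nat_lit 129) (fin (add (start D1094) D1226)))) (orK (nat_lit 171) (fin (add (add (start D1316) D1318) (orK (nat_lit 168) (fin (add (add (start D1322) D826) (orK (nat_lit 148) (fin (add (start D379) (orK (nat_lit 191) (fin (add (start D383) (orK (nat_lit 188) (fin (add (start D61) (orK (nat_lit 208) (fin (add (start D399) (orK (nat_lit 209) (fin (add (start D241) (orK (nat_lit 128) (fin (add (start D244) (orK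 (nat_lit 108) (fin (add (start D883) (orK (nat_lit 127) (fin (add (start D1220) D953)))))))))))))))))))))))))))))))))) (orK (nat_lit 129) (fin (add (start D1093) (orK (nat_lit 108) (fin (add (add (add (start (orK (nat_lit 88) (fin (add (start D1358) D1362)))) (orK (nat_lit 128) (fin (add (add (start D1222) (orK (nat_lit 111) (fin (add (start D670) D1373)))) (orK (nat_lit 126) (fin (add (start D1376) D1373))))))) (orK (nat_lit 88) (fin (add (start D1358) D1387)))) (orK (nat_lit 126) (fin (add (add (add (start (orK (nat_lit 127) (fin (add (start D1390) D1391)))) (orK (nat_lit 128) (fin (add (start D1376) (orK (nat_lit 111) (fin (add (start D670) (orK (nat_lit 88) (fin (add (start D1032) (win (nat_lit 6) (nat_lit 8) (nat_lit 3) (nat_lit 0)))))))))))) (orK (nat_lit 88) (fin (add (start D1362) D1387)))) (orK (nat_lit 107) (fin (add (start D1403) (orK (nat_lit 86) (fin (add (start D1404) (orK (nat_lit 106) (fin (add (start D1405) D1406))))))))))))))))))) (orK (nat_lit 148) (fin (add (add (start D979) (orK (nat_lit 108) (fin (add (add (add (start (orK (nat_lit 111) (fin (add (start D696)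 (orK (nat_lit 112) D1212))))) (orK (nat_lit 128) (fin (add (add (add (start D1429) D1435) (orK (nat_lit 88) (fin (add (start (win (nat_lit 6) (nat_lit 8) (nat_lit 4) (nat_lit 5))) (orK (nat_lit 89) (fin (add (start D1437) (orK (nat_lit 87) (fin (add (start D1266) D1438)))))))))) (orK (nat_lit 89) (fin (add (start D1445) (orK (nat_lit 69) (fin (add (start D1284) (win (nat_lit 3) (nat_lit 8) (nat_lit 3) (nat_lit 3)))))))))))) (orK (nat_lit 111) (fin (add (add (start (orK (nat_lit 132) (fin (add (start D677) (orK (nat_lit 112) (fin (add (start D678) D1142))))))) (orK (nat_lit 132) (fin (add (start D677) (orK (nat_lit 128) (fin (add (start D681) D1429))))))) D1295)))) D1478)))) D1487))))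
noncomputable def D686 : OP := orK (nat_lit 112) (fin (add (start D680) (orK (nat_lit 128) (fin (add (start D681) (win (nat_lit 5) (nat_lit 8) (nat_lit 5) (nat_lit 4)))))))
noncomputable def D1118 : AP := fin (add (start D1113) (orK (nat_lit 133) (fin (add (start (win (nat_lit 0) (nat_lit 9) (nat_lit 5) (nat_lit 3))) (win (nat_lit 2) (nat_lit 10) (nat_lit 5) (nat_lit 0))))))
noncomputable def D1128 : OP := orK (nat_lit 131) (fin (add (start (orK (nat_lit 132) D1118)) (orK (nat_lit 151) (fin (add (start D1059) (orK (nat_lit 171) (fin (add (start D1060) (orK (nat_lit 172) (fin (add (start D812) (win (nat_lit 6) (nat_lit 11) (nat_lit 5) (nat_lit 5)))))))))))))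
noncomputable def D1112 : OP := orK (nat_lit 108) (fin (add (start (orK (nat_lit 91) (fin (add (start D1105) (orK (nat_lit 131) (fin (add (start D666) (win (nat_lit 1) (nat_lit 10) (nat_lit 4) (nat_lit 3))))))))) D696))
noncomputable def D1163 : OP := orK (nat_lit 89) (fin (add (start D1154) D1161))
noncomputable def D1857 : AP := fin (add (add (add (add (add (add (add (add (add (add (start (orK (nat_lit 109) (fin (add (add (add (add (start (orK (nat_lit 129) D1103)) (orK (nat_lit 111) (fin (add (add (add (add (start D1112) D1128) (orK (nat_lit 108) (fin (add (add (start (orK (nat_lit 107) (fin (add (start D1131) D694)))) D696) (orK (nat_lit 112) (fin (add (start (orK (nat_lit 88) (fin (add (start D1032) (win (nat_lit 2) (nat_lit 8) (nat_lit 4) (nat_lit 4)))))) D1142))))))) (orK (nat_lit 132) (fin (add (add (start (orK (nat_lit 131) D1118)) (orK (nat_lit 108) (fin (add (start D677) (orK (nat_lit 87) (fin (add (start D688) (orK (nat_lit 107) (fin (add (start D687) D694)))))))))) (orK (nat_lit 112) (fin (add (start D678) D1163))))))) (orK (nat_lit 112) (fin (add (add (start (orK (nat_lit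 133) (fin (add (start D1168) (orK (nat_lit 113) (fin (add (start D1169) D1171))))))) (orK (nat_lit 132) (fin (add (start D678) (orK (nat_lit 92) (fin (add (start D1140) (orK (nat_lit 151) (fin (add (start (orK (nat_lit 131) (fin (add (start D1059) (win (nat_lit 1) (nat_lit 11) (nat_lit 3) (nat_lit 0)))))) (orK (nat_lit 152) (fin (add (start (win (nat_lit 1) (nat_lit 11) (nat_lit 4) (nat_lit 5))) (orK (nat_lit 173) (fin (add (start D1180) (win (nat_lit 6) (nat_lit 12) (nat_lit 4) (nat_lit 4)))))))))))))))))) D1163))))))) (orK (nat_lit 111) (fin (add (add (add (add (start D1112) D1128) (orK (nat_lit 129) (fin (add (start (orK (nat_lit 128) (fin (add (start D670) (orK (nat_lit 127) (fin (add (start D785) D1196))))))) D1102)))) (orK (nat_lit 129) (fin (add (start D1102) (orK (nat_lit 112) (fin (add (start D1203) (orK (nat_lit 133) (fin (add (start D1168) (orK (nat_lit 113) (fin (add (start D1169) D1159))))))))))))) (orK (nat_lit 108) (fin (add (start (orK (nat_lit 107) D1132)) D686))))))) (orK (nat_lit 129) (fin (add (start D1093) (orK (nat_lit 169) (fin (add (start D1100) D1226)))))))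 D1243)))) (orK (nat_lit 109) D1490)) (orK (nat_lit 171) (fin (add (add (add (start (orK (nat_lit 172) (fin (add (start D812) (orK (nat_lit 152) (fin (add (add (add (start D819) (orK (nat_lit 169) D1500)) D857) D868))))))) D876) D880) (orK (nat_lit 148) (fin (add (start D379) (orK (nat_lit 151) (fin (add (start D1064) (orK (nat_lit 128) (fin (add (start D386) (orK (nat_lit 152) (fin (add (start D793) D1508)))))))))))))))) (orK (nat_lit 148) (fin (add (add (add (start D1520) D1522) (orK (nat_lit 128) (fin (add (add (add (start D1528) (orK (nat_lit 168) (fin (add (add (start (orK (nat_lit 108) (fin (add (add (start (orK (nat_lit 169) D885)) D1540) (orK (nat_lit 109) (fin (add (start D1421) (orK (nat_lit 188) (fin (add (start D1541) (orK (nat_lit 189) (fin (add (start (win (nat_lit 6) (nat_lit 8) (nat_lit 5) (nat_lit 4))) D1543))))))))))))) D927) (orK (nat_lit 151) (fin (add (start D585) D799))))))) (orK (nat_lit 151) (fin (add (start D386) (orK (nat_lit 131) (fin (add (start D778) (orK (nat_lit 168) (fin (add (start D585) (orK (nat_lit 169) (fin (add (start D323) D886))))))))))))) (orK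 (nat_lit 108) (fin (add (add (start (orK (nat_lit 127) (fin (add (add (start D1526) (orK (nat_lit 109) (fin (add (start D1220) (orK (nat_lit 89) (fin (add (start D1445) D1264))))))) (orK (nat_lit 126) (fin (add (start D1523) (orK (nat_lit 109) (fin (add (start D1391) D1220)))))))))) D1435) (orK (nat_lit 169) (fin (add (start D883) (orK (nat_lit 189) (fin (add (start D1564) D1431))))))))))))) (orK (nat_lit 147) (fin (add (start D1481) (orK (nat_lit 127) (fin (add (start D367) (orK (nat_lit 151) (fin (add (start D368) (orK (nat_lit 131) (fin (add (start D778) D580)))))))))))))))) (orK (nat_lit 148) (fin (add (add (add (start D1522) D1606) D980) (orK (nat_lit 167) (fin (add (add (start (orK (nat_lit 151) (fin (add (start D578) D1620)))) (orK (nat_lit 147) (fin (add (start D577) (orK (nat_lit 169) (fin (add (start D366) (orK (nat_lit 129) (fin (add (start D1624) (orK (nat_lit 189) (fin (add (add (start (orK (nat_lit 128) (fin (add (start D1625) D1431)))) (orK (nat_lit 208) (fin (add (start D1632) (orK (nat_lit 209) (fin (add (start D1633) D1628))))))) (orK (nat_lit 187) (fin (add (start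 (orK (nat_lit 188) (fin (add (start D1232) D1638)))) (orK (nat_lit 128) (fin (add (start D1641) D1625))))))))))))))))))) D1657))))))) (orK (nat_lit 148) (fin (add (add (add (start (orK (nat_lit 147) (fin (add (add (start D908) D914) (orK (nat_lit 167) (fin (add (start D577) (orK (nat_lit 168) (fin (add (start D921) D1667)))))))))) D1606) D979) D980)))) (orK (nat_lit 148) (fin (add (add (add (start D920) (orK (nat_lit 171) (fin (add (add (start D874) D878) (orK (nat_lit 151) (fin (add (start D1064) D894))))))) D979) D980)))) (orK (nat_lit 148) (fin (add (add (add (start D920) (orK (nat_lit 171) (fin (add (add (start D874) D878) (orK (nat_lit 168) (fin (add (add (add (start D927) D950) D961) (orK (nat_lit 151) (fin (add (start D585) (orK (nat_lit 128) (fin (add (start D386) (orK (nat_lit 129) (fin (add (start D784) (orK (nat_lit 109) (fin (add (start D933) D1078))))))))))))))))))) D979) D980)))) (orK (nat_lit 148) (fin (add (add (add (start D1520) (orK (nat_lit 171) (fin (add (add (start D874) D878) (orK (nat_lit 151) (fin (add (start D1064) (orK (nat_lit 128) (fin (add (start D386)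 (orK (nat_lit 152) (fin (add (start D793) (orK (nat_lit 153) (fin (add (start D1612) D964)))))))))))))))) D980) (orK (nat_lit 147) (fin (add (add (start D914) (orK (nat_lit 127) (fin (add (start D367) (orK (nat_lit 151) (fin (add (start D368) D1620))))))) D1485))))))) (orK (nat_lit 148) (fin (add (add (add (start D980) D1487) (orK (nat_lit 151) (fin (add (add (start (orK (nat_lit 171) (fin (add (start D380) D1064)))) (orK (nat_lit 172) (fin (add (start D365) (orK (nat_lit 152) (fin (add (start D364) (orK (nat_lit 128) (fin (add (start D386) D793)))))))))) D801)))) (orK (nat_lit 127) (fin (add (add (add (start (orK (nat_lit 126) (fin (add (start (win (nat_lit 2) (nat_lit 6) (nat_lit 6) (nat_lit 3))) (orK (nat_lit 128) D1525))))) (orK (nat_lit 147) (fin (add (start D367) (orK (nat_lit 167) (fin (add (start D577) (orK (nat_lit 168) (fin (add (start D921) D1665)))))))))) (orK (nat_lit 167) (fin (add (add (add (start (orK (nat_lit 151) (fin (add (start D368) D578)))) D1657) (orK (nat_lit 166) (fin (add (start D1607) (orK (nat_lit 168) (fin (add (start D922) (orK (nat_lit 128) (fin (add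 (add (start (orK (nat_lit 188) (fin (add (start D953) (orK (nat_lit 187) D1734))))) (orK (nat_lit 188) (fin (add (start D953) (orK (nat_lit 129) (fin (add (start D243) D932))))))) (orK (nat_lit 108) (fin (add (start D1425) (orK (nat_lit 109) (fin (add (start D1421) D1220)))))))))))))))) (orK (nat_lit 147) (fin (add (start D577) (orK (nat_lit 128) (fin (add (start D952) (orK (nat_lit 108) (fin (add (start D1752) (win (nat_lit 3) (nat_lit 7) (nat_lit 5) (nat_lit 0))))))))))))))) (orK (nat_lit 128) D1527)))))))) (orK (nat_lit 129) (fin (add (add (add (start (orK (nat_lit 109) D1103)) (orK (nat_lit 128) (fin (add (add (start (orK (nat_lit 127) (fin (add (start D785) (orK (nat_lit 151) (fin (add (start D786) D784))))))) (orK (nat_lit 127) (fin (add (start D785) (orK (nat_lit 109) (fin (add (start D1093) (orK (nat_lit 111) (fin (add (start D1196) D670)))))))))) (orK (nat_lit 109) (fin (add (start D1093) (orK (nat_lit 151) (fin (add (start D784) (orK (nat_lit 111) (fin (add (start D670) (orK (nat_lit 131) (fin (add (start D1059) (orK (nat_lit 132) (fin (add (start D1113) D1778)))))))))))))))))))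 (orK (nat_lit 151) (fin (add (add (add (start (orK (nat_lit 152) (fin (add (start D1791) D1794)))) D790) (orK (nat_lit 152) (fin (add (add (start D1794) (orK (nat_lit 173) (fin (add (start D1180) (orK (nat_lit 153) (fin (add (start D1611) (orK (nat_lit 133) (fin (add (start D962) D963)))))))))) (orK (nat_lit 132) (fin (add (start D795) (orK (nat_lit 148) (fin (add (start D794) D588)))))))))) (orK (nat_lit 148) (fin (add (add (add (add (start D584) (orK (nat_lit 168) (fin (add (start D585) (orK (nat_lit 128) (fin (add (start D386) (orK (nat_lit 188) (fin (add (start D932) (orK (nat_lit 189) (fin (add (start D1543) (orK (nat_lit 187) (fin (add (start D951) (orK (nat_lit 169) (fin (add (start D1638) D1809))))))))))))))))))) (orK (nat_lit 132) (fin (add (start D794) (orK (nat_lit 147) (fin (add (add (add (start D370) (orK (nat_lit 146) (fin (add (start D902) (orK (nat_lit 128) (fin (add (start D386) (win (nat_lit 4) (nat_lit 5) (nat_lit 6) (nat_lit 0))))))))) D1835) D908))))))) (orK (nat_lit 167) (fin (add (start D578) (orK (nat_lit 147) (fin (add (start D577) D1835))))))) (orK (nat_lit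 131) (fin (add (start D778) (orK (nat_lit 167) (fin (add (start D578) (orK (nat_lit 147) (fin (add (start D577) D908)))))))))))))))) (orK (nat_lit 109) D1242)))))
noncomputable def D668 : OP := orK (nat_lit 131) (fin (add (start D665) D666))
noncomputable def D702 : OP := orK (nat_lit 109) (fin (add (start D659) (orK (nat_lit 111) (fin (add (start D660) (orK (nat_lit 108) (fin (add (add (start D686) D668) D696))))))))
noncomputable def D1012 : OP := orK (nat_lit 169) (fin (add (start D346) (orK (nat_lit 171) (fin (add (start D652) D1008)))))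
noncomputable def D706 : OP := orK (nat_lit 89) (fin (add (start (win (nat_lit 7) (nat_lit 9) (nat_lit 3) (nat_lit 5))) (win (nat_lit 7) (nat_lit 9) (nat_lit 4) (nat_lit 4))))
noncomputable def D651 : OP := win (nat_lit 6) (nat_lit 10) (nat_lit 4) (nat_lit 4)
noncomputable def D710 : OP := orK (nat_lit 171) (fin (add (start D652) (orK (nat_lit 90) (fin (add (start D651) D706)))))
noncomputable def D650 : OP := win (nat_lit 3) (nat_lit 10) (nat_lit 3) (nat_lit 5)
noncomputable def D649 : OP := win (nat_lit 3) (nat_lit 10) (nat_lit 4) (nat_lit 4)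
noncomputable def D658 : OP := orK (nat_lit 91) (fin (add (start D649) (orK (nat_lit 90) (fin (add (start D650) (orK (nat_lit 171) (fin (add (start D651) D652))))))))
noncomputable def D711 : AP := fin (add (add (start D658) D702) D710)
noncomputable def D985 : OP := win (nat_lit 1) (nat_lit 9) (nat_lit 4) (nat_lit 4)
noncomputable def D1018 : OP := orK (nat_lit 169) (fin (add (start D346) (orK (nat_lit 90) (fin (add (start D985) D706)))))
noncomputable def D669 : OP := win (nat_lit 4) (nat_lit 7) (nat_lit 5) (nat_lit 0)
noncomputable def D991 : OP := orK (nat_lit 169) (fin (add (start D346) (orK (nat_lit 90) (fin (add (start D985) (orK (nat_lit 91) (fin (add (start D650) D649))))))))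
noncomputable def D777 : OP := win (nat_lit 3) (nat_lit 10) (nat_lit 6) (nat_lit 1)
noncomputable def D601 : AP := fin (add (add (add (start D362) D513) D491) D600)
noncomputable def D646 : OP := orK (nat_lit 209) (fin (add (start D1) D0))
noncomputable def D11601 : AP := fin (add (add (add (add (add (add (add (add (add (add (add (add (add (add (add (add (add (add (start (orK (nat_lit 190) (fin (add (add (add (add (start D29) D483) D497) (orK (nat_lit 230) (fin (add (add (start D300) D501) D505)))) D533)))) (orK (nat_lit 190) (fin (add (add (add (add (start D570) D574) (orK (nat_lit 230) (fin (add (add (start D80) D501) D429)))) D144) (orK (nat_lit 150) D601))))) (orK (nat_lit 190) (fin (add (add (add (add (start D483) D610) D621) (orK (nat_lit 149) (fin (add (add (add (start (orK (nat_lit 129) (fin (add (start D272) (orK (nat_lit 169) (fin (add (start D273) D289))))))) D627) D629) (orK (nat_lit 150) (fin (add (start D152) (orK (nat_lit 209) (fin (add (start D0) D596)))))))))) D641)))) (orK (nat_lit 150) (fin (add (add (add (add (add (add (start (orK (nat_lit 130) (fin (add (add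 (start (orK (nat_lit 190) (fin (add (start D646) D23)))) (orK (nat_lit 110) D711)) (orK (nat_lit 190) (fin (add (start D646) D5))))))) (orK (nat_lit 190) D532)) (orK (nat_lit 190) D601)) (orK (nat_lit 190) D640)) (orK (nat_lit 190) D767)) (orK (nat_lit 149) (fin (add (add (add (start (orK (nat_lit 190) D773)) (orK (nat_lit 151) (fin (add (add (add (start (orK (nat_lit 190) (fin (add (start D10) D152)))) (orK (nat_lit 131) (fin (add (start D777) (orK (nat_lit 148) (fin (add (start D778) D382))))))) (orK (nat_lit 129) (fin (add (start (win (nat_lit 7) (nat_lit 9) (nat_lit 6) (nat_lit 1))) D790)))) (orK (nat_lit 148) (fin (add (start D382) D801))))))) (orK (nat_lit 171) (fin (add (add (add (start (orK (nat_lit 172) (fin (add (start D812) (orK (nat_lit 152) (fin (add (add (add (start D819) (orK (nat_lit 169) (fin (add (start D125) D830)))) D857) D868))))))) D876) D880) (orK (nat_lit 148) (fin (add (start D379) (orK (nat_lit 151) (fin (add (start (orK (nat_lit 131) (fin (add (start D777) D778)))) D894)))))))))) (orK (nat_lit 148) (fin (add (add (add (start D920) (orK (nat_lit 171) (fin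 (add (add (start D874) D878) (orK (nat_lit 168) (fin (add (add (add (start D927) D950) D961) (orK (nat_lit 151) (fin (add (start D585) (orK (nat_lit 128) (fin (add (start D386) (orK (nat_lit 152) (fin (add (start D793) (orK (nat_lit 133) (fin (add (start D962) (orK (nat_lit 153) (fin (add (start D963) D964)))))))))))))))))))))) D979) D980))))))) (orK (nat_lit 110) (fin (add (add (add (add (add (start (orK (nat_lit 130) (fin (add (add (start D991) D1012) D658)))) (orK (nat_lit 130) (fin (add (add (add (start D991) D1018) (orK (nat_lit 91) (fin (add (start D649) (orK (nat_lit 90) (fin (add (start D650) D706))))))) (orK (nat_lit 111) (fin (add (start D660) (orK (nat_lit 109) (fin (add (start D659) (orK (nat_lit 169) (fin (add (start D346) (orK (nat_lit 129) (fin (add (add (start (orK (nat_lit 128) (fin (add (start D669) D670)))) (orK (nat_lit 112) (fin (add (start D1023) (orK (nat_lit 132) (fin (add (start D678) (orK (nat_lit 108) (fin (add (start D677) (orK (nat_lit 107) (fin (add (start D661) D690))))))))))))) (orK (nat_lit 128) (fin (add (start D669) (orK (nat_lit 108) (fin (add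 (start D668) (orK (nat_lit 88) (fin (add (start D1032) (win (nat_lit 7) (nat_lit 8) (nat_lit 4) (nat_lit 1))))))))))))))))))))))))))) (orK (nat_lit 130) (fin (add (add (start D710) D1018) D1012)))) (orK (nat_lit 130) D711)) (orK (nat_lit 130) (fin (add (start D1012) D702)))) (orK (nat_lit 149) D1857)))))))) (orK (nat_lit 190) (fin (add (add (add (add (add (start D483) (orK (nat_lit 169) (fin (add (add (add (start (orK (nat_lit 230) D1866)) D1916) D344) (orK (nat_lit 230) (fin (add (start D44) (orK (nat_lit 151) (fin (add (start D11) (orK (nat_lit 150) (fin (add (start D10) (orK (nat_lit 167) (fin (add (start (win (nat_lit 4) (nat_lit 7) (nat_lit 7) (nat_lit 1))) D15)))))))))))))))) (orK (nat_lit 150) D767)) D306) (orK (nat_lit 171) (fin (add (add (start D82) D342) (orK (nat_lit 151) (fin (add (add (start D34) (orK (nat_lit 172) (fin (add (add (add (start D1935) D100) (orK (nat_lit 169) (fin (add (add (start D1937) D1941) (orK (nat_lit 189) (fin (add (start D45) (orK (nat_lit 152) (fin (add (start D125) (orK (nat_lit 192) (fin (add (start D59) (orK (nat_lit 150) (fin (add (start D1944)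 D1951)))))))))))))))) D1982)))) D340))))))) (orK (nat_lit 171) (fin (add (add (start (orK (nat_lit 230) (fin (add (add (start D43) D72) D429)))) D342) (orK (nat_lit 151) (fin (add (add (start D34) (orK (nat_lit 172) (fin (add (add (add (start D1935) D100) (orK (nat_lit 169) (fin (add (add (start D1937) D1941) (orK (nat_lit 189) (fin (add (start D45) (orK (nat_lit 152) (fin (add (start D125) (orK (nat_lit 192) (fin (add (start D59) (orK (nat_lit 150) (fin (add (add (start (orK (nat_lit 191) (fin (add (start (orK (nat_lit 209) (fin (add (start D0) D1995)))) (orK (nat_lit 130) (fin (add (start D1991) D1998))))))) D1951) (orK (nat_lit 149) (fin (add (start D1945) (orK (nat_lit 130) (fin (add (start D1991) D1992)))))))))))))))))))))) D1982)))) D340)))))))))) (orK (nat_lit 190) (fin (add (add (add (add (start D306) (orK (nat_lit 149) (fin (add (add (add (start D278) D288) D292) D629)))) D483) (orK (nat_lit 230) (fin (add (add (start D568) D2030) D501)))) (orK (nat_lit 209) (fin (add (add (add (start D269) (orK (nat_lit 150) D2039)) D2161) D2168))))))) (orK (nat_lit 190) (fin (add (add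 (add (add (add (add (start D2213) D2216) D483) (orK (nat_lit 150) (fin (add (add (add (start D513) (orK (nat_lit 231) (fin (add (start D12) (orK (nat_lit 230) (fin (add (start D13) D564))))))) (orK (nat_lit 149) (fin (add (start D152) (orK (nat_lit 230) (fin (add (start D153) D564))))))) D159)))) (orK (nat_lit 150) (fin (add (add (start D509) (orK (nat_lit 229) (fin (add (start D280) (orK (nat_lit 230) (fin (add (start D279) D300))))))) D2234)))) (orK (nat_lit 150) (fin (add (add (add (add (add (start D513) D159) (orK (nat_lit 211) (fin (add (start D21) (orK (nat_lit 130) (fin (add (start D20) (orK (nat_lit 189) (fin (add (start D1992) (orK (nat_lit 169) (fin (add (start D1991) (orK (nat_lit 230) (fin (add (start D44) (win (nat_lit 7) (nat_lit 9) (nat_lit 8) (nat_lit 0)))))))))))))))))) (orK (nat_lit 211) (fin (add (start D21) (orK (nat_lit 130) (fin (add (start D20) (orK (nat_lit 189) (fin (add (start D1992) (orK (nat_lit 110) (fin (add (start D2248) D2251))))))))))))) D2234) (orK (nat_lit 149) (fin (add (start D152) (orK (nat_lit 230) (fin (add (start D153) (orK (nat_lit 171) (fin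 (add (start D83) (orK (nat_lit 191) (fin (add (start D2173) (orK (nat_lit 130) (fin (add (start D2260) D1998))))))))))))))))))) (orK (nat_lit 209) (fin (add (add (add (start (orK (nat_lit 191) (fin (add (add (start (orK (nat_lit 230) (fin (add (start D2175) (orK (nat_lit 149) (fin (add (start D153) (orK (nat_lit 150) (fin (add (start D152) D2274)))))))))) D195) (orK (nat_lit 192) (fin (add (start D175) D189))))))) (orK (nat_lit 191) (fin (add (add (add (start (orK (nat_lit 192) (fin (add (add (start D2286) D189) (orK (nat_lit 193) (fin (add (start D2284) D2290))))))) D195) (orK (nat_lit 207) (fin (add (start (win (nat_lit 4) (nat_lit 7) (nat_lit 9) (nat_lit 1))) (orK (nat_lit 230) (fin (add (add (start D2175) (orK (nat_lit 249) (fin (add (start D37) (orK (nat_lit 250) (fin (add (start D38) D2179))))))) (orK (nat_lit 229) (fin (add (start D279) (orK (nat_lit 171) (fin (add (start D83) (orK (nat_lit 169) (fin (add (start D44) (orK (nat_lit 168) (fin (add (start D176) (orK (nat_lit 148) (fin (add (start D992) D2300)))))))))))))))))))))) D2200)))) D265) D269))))))) (orK (nat_lit 190)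 D2924)) (orK (nat_lit 169) D4668)) (orK (nat_lit 190) (fin (add (add (add (add (add (add (add (add (start D483) D533) D2535) D4677) D2211) (orK (nat_lit 150) (fin (add (add (add (start (orK (nat_lit 231) (fin (add (start D12) (orK (nat_lit 230) (fin (add (start D13) D429))))))) (orK (nat_lit 211) (fin (add (start D21) (orK (nat_lit 130) (fin (add (start D20) (orK (nat_lit 111) (fin (add (start D2472) (orK (nat_lit 110) (fin (add (start D660) D2251))))))))))))) (orK (nat_lit 149) (fin (add (start D152) D627)))) (orK (nat_lit 129) (fin (add (start D161) (orK (nat_lit 130) (fin (add (start D160) (orK (nat_lit 111) (fin (add (start D2472) (orK (nat_lit 110) (fin (add (start D660) (orK (nat_lit 191) (fin (add (start D2473) D1998))))))))))))))))))) D4725) D4741) D4810)))) (orK (nat_lit 190) (fin (add (add (add (add (start D2213) (orK (nat_lit 149) (fin (add (add (start D288) D292) (orK (nat_lit 150) (fin (add (start D152) D9))))))) D4677) D4814) (orK (nat_lit 150) (fin (add (add (add (start D9) D27) D362) (orK (nat_lit 151) (fin (add (start D10) (orK (nat_lit 149) (fin (add (start D152)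 (orK (nat_lit 209) (fin (add (start D0) (orK (nat_lit 211) (fin (add (start D21) (orK (nat_lit 191) (fin (add (add (start D2344) (orK (nat_lit 192) (fin (add (start D175) (orK (nat_lit 152) (fin (add (add (start (orK (nat_lit 171) (fin (add (start D2837) D538)))) (orK (nat_lit 153) (fin (add (start D1612) (orK (nat_lit 173) (fin (add (start D1180) D1611))))))) (orK (nat_lit 153) (fin (add (start D1612) D4822)))))))))) (orK (nat_lit 208) (fin (add (start D168) (orK (nat_lit 228) (fin (add (start D396) (orK (nat_lit 169) (fin (add (start D392) (orK (nat_lit 152) (fin (add (start D363) D4822)))))))))))))))))))))))))))))))))) (orK (nat_lit 190) (fin (add (add (add (add (start D2213) D4852) D4677) D4814) (orK (nat_lit 150) (fin (add (add (add (start D9) D27) D362) (orK (nat_lit 149) (fin (add (start D152) (orK (nat_lit 151) (fin (add (start D10) (orK (nat_lit 231) (fin (add (start D12) (orK (nat_lit 209) (fin (add (start D0) (orK (nat_lit 148) (fin (add (add (start D382) D584) (orK (nat_lit 172) (fin (add (start D365) (orK (nat_lit 128) (fin (add (start D386) (orK (nat_lit 152) (fin (add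 (start D364) (orK (nat_lit 168) (fin (add (start D585) (orK (nat_lit 188) (fin (add (start D244) (orK (nat_lit 207) (fin (add (start (win (nat_lit 1) (nat_lit 7) (nat_lit 6) (nat_lit 4))) (orK (nat_lit 208) (fin (add (start D3474) D2062))))))))))))))))))))))))))))))))))))))))))) (orK (nat_lit 190) (fin (add (add (add (add (start D483) (orK (nat_lit 150) (fin (add (add (start D362) D159) D491)))) D4885) D2559) (orK (nat_lit 209) (fin (add (add (add (start D269) D4893) (orK (nat_lit 229) (fin (add (add (start D267) (orK (nat_lit 208) (fin (add (add (add (start D2060) D2061) (orK (nat_lit 191) (fin (add (add (start D193) (orK (nat_lit 211) (fin (add (start D199) (orK (nat_lit 188) (fin (add (start D200) (orK (nat_lit 228) (fin (add (start D396) (orK (nat_lit 168) (fin (add (add (start (orK (nat_lit 169) D730)) (orK (nat_lit 148) (fin (add (start D241) (orK (nat_lit 149) (fin (add (start D213) D212))))))) (orK (nat_lit 148) (fin (add (start D241) (orK (nat_lit 189) (fin (add (start D2488) D2490))))))))))))))))))) D2198)))) D4915)))) (orK (nat_lit 208) (fin (add (add (add (start D2061)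 (orK (nat_lit 227) (fin (add (add (add (start (orK (nat_lit 226) (fin (add (start D4918) D2855)))) D4922) (orK (nat_lit 228) D4934)) (orK (nat_lit 207) D4942))))) (orK (nat_lit 249) (fin (add (start D261) (orK (nat_lit 188) (fin (add (start (orK (nat_lit 168) (fin (add (start D201) D202)))) (orK (nat_lit 211) (fin (add (start D200) D2436)))))))))) (orK (nat_lit 269) (fin (add (start (win (nat_lit 3) (nat_lit 9) (nat_lit 9) (nat_lit 1))) (orK (nat_lit 207) (fin (add (start D2062) D3261))))))))))))) (orK (nat_lit 150) (fin (add (add (start D7) D2168) D362)))))))))) (orK (nat_lit 190) (fin (add (add (add (add (add (start D306) D497) D2211) (orK (nat_lit 151) (fin (add (add (start (orK (nat_lit 230) (fin (add (start D11) D501)))) D4974) D4976)))) (orK (nat_lit 169) D3882)) (orK (nat_lit 150) (fin (add (add (add (start D362) (orK (nat_lit 209) D2039)) D513) D491))))))) (orK (nat_lit 169) D11283)) (orK (nat_lit 190) (fin (add (add (add (add (add (add (add (start D497) D144) D2625) D4725) D574) D4852) (orK (nat_lit 169) (fin (add (add (add (start D307) D4705) D321) (orK (nat_lit 149) (fin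 (add (add (start D290) (orK (nat_lit 150) (fin (add (start (orK (nat_lit 151) (fin (add (start D10) (orK (nat_lit 168) D324))))) (orK (nat_lit 209) (fin (add (start D0) (orK (nat_lit 189) (fin (add (start D1942) (orK (nat_lit 208) (fin (add (start D1633) (orK (nat_lit 207) (fin (add (start D2804) D2062)))))))))))))))) D319))))))) D641)))) (orK (nat_lit 190) (fin (add (add (add (add (add (add (start D2644) D11316) D4741) D4814) D610) D574) (orK (nat_lit 150) (fin (add (add (add (start D362) D600) D513) D491))))))) (orK (nat_lit 190) D11502)) (orK (nat_lit 190) (fin (add (add (add (add (add (add (start (orK (nat_lit 230) (fin (add (add (start D568) D425) D505)))) D11316) D2216) (orK (nat_lit 171) (fin (add (add (add (start (orK (nat_lit 230) D299)) (orK (nat_lit 230) (fin (add (add (add (start D298) (orK (nat_lit 250) (fin (add (start D39) (orK (nat_lit 189) (fin (add (start D2331) (orK (nat_lit 187) (fin (add (start D2378) (orK (nat_lit 209) (fin (add (start D2332) (orK (nat_lit 150) D1943)))))))))))))) (orK (nat_lit 231) (fin (add (start D13) (orK (nat_lit 150) (fin (add (start D12)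 (orK (nat_lit 209) (fin (add (start D0) (orK (nat_lit 189) (fin (add (start D1942) D2350))))))))))))) (orK (nat_lit 231) (fin (add (start D13) (orK (nat_lit 150) (fin (add (start D12) (orK (nat_lit 209) (fin (add (start D0) (orK (nat_lit 207) (fin (add (start D2349) (orK (nat_lit 130) (fin (add (start D1) (orK (nat_lit 111) (fin (add (start D2472) (orK (nat_lit 110) (fin (add (start D660) D652))))))))))))))))))))))))) D342) (orK (nat_lit 151) (fin (add (add (start D34) (orK (nat_lit 189) (fin (add (add (add (start (orK (nat_lit 172) (fin (add (start D46) (orK (nat_lit 150) (fin (add (add (start D1944) D11547) (orK (nat_lit 209) (fin (add (start D0) (orK (nat_lit 211) (fin (add (start D21) (orK (nat_lit 191) (fin (add (start D11549) (orK (nat_lit 152) (fin (add (start D2837) (orK (nat_lit 169) D1936)))))))))))))))))))) D2377) (orK (nat_lit 187) (fin (add (start D2378) (orK (nat_lit 150) (fin (add (add (start D1944) D11547) (orK (nat_lit 209) (fin (add (start D0) (orK (nat_lit 211) (fin (add (start D21) (orK (nat_lit 191) (fin (add (start D11549) D2839)))))))))))))))) D2384)))) D340)))))))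 (orK (nat_lit 230) (fin (add (add (start D300) (orK (nat_lit 231) (fin (add (start D13) (orK (nat_lit 150) (fin (add (start D12) D509))))))) (orK (nat_lit 151) (fin (add (start D11) (orK (nat_lit 150) (fin (add (start D10) D509)))))))))) (orK (nat_lit 151) (fin (add (add (start (orK (nat_lit 230) (fin (add (start D11) (orK (nat_lit 231) (fin (add (start D13) (orK (nat_lit 150) (fin (add (start D12) (orK (nat_lit 209) (fin (add (start D0) D155))))))))))))) D4974) D4976)))) D574))))
noncomputable def D11602 : OP := orK (nat_lit 170) D11601

end Vale.Agent.Lib.P062.CB
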